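import Vale.Agent.P284.H812.KOS
import Vale.Agent.P284.H213.KL.SKeyS

/-!
# P284 (helper451): the Kodaira lemma with a singular weight (module KL), statements

`Z` is a compact complex `n`-manifold with a canonical metric `w` of positive curvature and `N` is a
Hilbert weight on `K_Z^m` (`HMet` of helper812) which is nonzero and immersive at one point.  Then some
power `K_Z^M` has a nonzero section `τ` with `|τ|^{2m} ≤ C N^{M+2} e^{-2mw}`.
-/

open scoped Manifold ContDiff Topology ComplexOrder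
open Filter

noncomputable section

namespace Vale.Agent.P284.H451

open Vale.Agent.P272.K Vale.Agent.P272.KOD Vale.Agent.P284.H812 Vale.Agent.P284.H213.KL

/-- The weight `N` is nonzero at some point of `Z`, and the projectivised local map `[v]` is an
immersion there. -/
def HImmAt (n : ℕ) (Z : Type*) [TopologicalSpace Z] [ChartedSpace (Cm n) Z] (H : Type*)
    [NormedAddCommGroup H] [InnerProductSpace ℂ H] (N : Chart n Z → Cm n → ℝ) : Prop :=
  ∃ e x, At e x ∧ N e (e x) ≠ 0 ∧ ∃ v : Cm n → H, AnalyticAt ℂ v (e x) ∧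
    (∀ᶠ z in 𝓝 (e x), N e z = ‖v z‖ ^ 2) ∧
    ∀ (ξ : Cm n) (c : ℂ), fderiv ℂ v (e x) ξ = c • v (e x) → ξ = 0

/-- **KL**: the Kodaira lemma. -/
def KLStmt : Prop :=
  ∀ (n m : ℕ) (_ : 1 ≤ n) (_ : 1 ≤ m) (Z : Type) [TopologicalSpace Z] [T2Space Z]
    [CompactSpace Z] [ChartedSpace (Cm n) Z] [IsManifold 𝓘(ℂ, Cm n) ω Z]
    (w : Chart n Z → Cm n → ℝ) (_ : IsCanonicalMetric w)
    (_ : ∀ e x, At e x → (cHess (w e) (e x)).PosDef)
    (H : Type) [NormedAddCommGroup H] [InnerProductSpace ℂ H] [CompleteSpace H]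
    (N : Chart n Z → Cm n → ℝ) (_ : HMet n m Z H N) (_ : HImmAt n Z H N),
    ∃ (M : ℕ) (τ : PSec n M Z) (C : ℝ), 1 ≤ M ∧ 0 ≤ C ∧
      (∃ e x, At e x ∧ τ.coeff e (e x) ≠ 0) ∧
      ∀ e x, At e x → (‖τ.coeff e (e x)‖ ^ 2 * Real.exp (-(M : ℝ) * w e (e x))) ^ m ≤
        C * (N e (e x) * Real.exp (-(m : ℝ) * w e (e x))) ^ (M + 2)

/-- (i) dimension bound: linearly independent sections of `K_Z^M` are at most `A (M+1)^n` many. -/
def DimStmt : Prop :=
  ∀ (n : ℕ) (Z : Type) [TopologicalSpace Z] [T2Space Z] [CompactSpace Z] [ChartedSpace (Cm n) Z]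
    [IsManifold 𝓘(ℂ, Cm n) ω Z] (w : Chart n Z → Cm n → ℝ) (_ : IsCanonicalMetric w),
    ∃ A : ℕ, ∀ (M k : ℕ) (s : Fin k → PSec n M Z),
      (∀ c : Fin k → ℂ, (∀ e x, At e x → ∑ i, c i * (s i).coeff e (e x) = 0) → c = 0) →
      k ≤ A * (M + 1) ^ n

/-- (iv) transversal sections: for some `q ≥ 1` every power `K_Z^(q k)`, `k ≥ 1`, has a section `β`
which does not vanish to order two anywhere. -/
def TransStmt : Prop :=
  ∀ (n : ℕ) (Z : Type) [TopologicalSpace Z] [T2Space Z] [CompactSpace Z] [ChartedSpace (Cm n) Z]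
    [IsManifold 𝓘(ℂ, Cm n) ω Z] (w : Chart n Z → Cm n → ℝ) (_ : IsCanonicalMetric w)
    (_ : ∀ e x, At e x → (cHess (w e) (e x)).PosDef),
    ∃ q : ℕ, 1 ≤ q ∧ ∀ k : ℕ, 1 ≤ k → ∃ β : PSec n (q * k) Z,
      ∀ e x, At e x → β.coeff e (e x) = 0 → fderiv ℂ (β.coeff e) (e x) ≠ 0

end Vale.Agent.P284.H451
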