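import Vale.Agent.P284.H451.KLH
import Vale.Agent.P284.H213.KL.SKey
import Vale.Agent.P284.H213.KL.DimH
import Vale.Agent.P284.H335.Trans

/-!
# P284 (helper451): the Kodaira lemma with a singular weight
-/

open scoped Manifold ContDiff ComplexOrder Topology ENNReal
open Filter Set Metric MeasureTheory

set_option linter.all false

noncomputable section

namespace Vale.Agent.P284.H451

open Vale.Agent.P272.K Vale.Agent.P272.KOD Vale.Agent.P284.H812 Vale.Agent.P284.H213.KL

/-- a function which grows by `(k+1)^n` at each step cannot be `O(k^n)` -/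
lemma growth {f : ℕ → ℕ} {n k₁ A c : ℕ} (hf : ∀ k, k₁ ≤ k → f k + (k + 1) ^ n ≤ f (k + 1))
    (hub : ∀ k, 1 ≤ k → f k ≤ A * (c * k) ^ n) : False := by
  set j : ℕ := k₁ + A * (2 * c) ^ n + 1 with hj
  have h1 : ∀ i, i * j ^ n ≤ f (j + i) := by
    intro i
    induction i with
    | zero => simp
    | succ i ih =>
      have h2 := hf (j + i) (by omega)
      have h3 : j ^ n ≤ (j + i + 1) ^ n := Nat.pow_le_pow_left (by omega) n
      rw [show j + (i + 1) = j + i + 1 by ring, add_mul, one_mul]
      omega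
  have h4 := h1 j
  have h5 := hub (j + j) (by omega)
  have h6 : A * (c * (j + j)) ^ n = (A * (2 * c) ^ n) * j ^ n := by
    rw [show c * (j + j) = (2 * c) * j by ring, mul_pow]; ring
  rw [h6] at h5
  have h7 : 0 < j ^ n := Nat.pow_pos (by omega)
  have h8 : j ≤ A * (2 * c) ^ n := Nat.le_of_mul_le_mul_right (h4.trans h5) h7
  omega

section
variable {n m : ℕ} {Z : Type} [TopologicalSpace Z] [ChartedSpace (Cm n) Z]
  [IsManifold 𝓘(ℂ, Cm n) ω Z] {H : Type} [NormedAddCommGroup H] [InnerProductSpace ℂ H]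
  [CompleteSpace H] {N w : Chart n Z → Cm n → ℝ}

omit [IsManifold 𝓘(ℂ, Cm n) ω Z] in
/-- sections of `K^p` with `|s|² ≤ B N^j` -/
def Bd (n p m j : ℕ) (Z : Type) [TopologicalSpace Z] [ChartedSpace (Cm n) Z]
    {H : Type} [NormedAddCommGroup H] [InnerProductSpace ℂ H] {N : Chart n Z → Cm n → ℝ}
    (w : Chart n Z → Cm n → ℝ) (hN : HMet n m Z H N) : Submodule ℂ (Z → ℂ) where
  carrier := {g | ∃ s : PSec n p Z, (∀ x, g x = s.val x) ∧
    ∃ B : ℝ, 0 ≤ B ∧ ∀ x, sn w p s.coeff x ≤ B * rn m N w x ^ j}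
  add_mem' := by
    rintro g h ⟨s, hs, B, hB0, hB⟩ ⟨t, ht, B', hB'0, hB'⟩
    refine ⟨s + t, fun x => by rw [Pi.add_apply, hs, ht]; rfl, 2 * B + 2 * B', by positivity,
      fun x => ?_⟩
    have h1 := hB x
    have h2 := hB' x
    have h3 : sn w p (s + t).coeff x ≤ 2 * sn w p s.coeff x + 2 * sn w p t.coeff x := by
      unfold sn
      rw [PSec.add_coeff]
      set a := s.coeff (chartAt (Cm n) x) (chartAt (Cm n) x x)
      set b := t.coeff (chartAt (Cm n) x) (chartAt (Cm n) x x)
      have h4 : ‖a + b‖ ^ 2 ≤ 2 * ‖a‖ ^ 2 + 2 * ‖b‖ ^ 2 := by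
        have := norm_add_le a b
        have := norm_nonneg (a + b)
        have := norm_nonneg a
        have := norm_nonneg b
        nlinarith [sq_nonneg (‖a‖ - ‖b‖)]
      have h5 := (Real.exp_pos (-(p : ℝ) * w (chartAt (Cm n) x) (chartAt (Cm n) x x))).le
      nlinarith
    linarith
  zero_mem' := ⟨0, fun x => rfl, 0, le_rfl, fun x => by
    unfold sn
    simp⟩
  smul_mem' := by
    rintro a g ⟨s, hs, B, hB0, hB⟩
    refine ⟨a • s, fun x => by rw [Pi.smul_apply, hs]; rfl, ‖a‖ ^ 2 * B, by positivity,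
      fun x => ?_⟩
    have h3 : sn w p (a • s).coeff x = ‖a‖ ^ 2 * sn w p s.coeff x := by
      unfold sn
      rw [PSec.smul_coeff, norm_mul, mul_pow, mul_assoc]
    rw [h3, mul_assoc]
    exact mul_le_mul_of_nonneg_left (hB x) (by positivity)

omit [IsManifold 𝓘(ℂ, Cm n) ω Z] in
lemma Bd_le_PV {p j : ℕ} (hN : HMet n m Z H N) : Bd n p m j Z w hN ≤ PV n Z p := by
  rintro g ⟨s, hs, -⟩
  exact ⟨s, hs⟩

/-- multiplication by the values of a section -/
def mulV (β : Z → ℂ) : (Z → ℂ) →ₗ[ℂ] (Z → ℂ) where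
  toFun g x := β x * g x
  map_add' g h := by funext x; simp [mul_add]
  map_smul' a g := by funext x; simp; ring

omit [IsManifold 𝓘(ℂ, Cm n) ω Z] in
lemma psec_contAt' {p : ℕ} (s : PSec n p Z) {e : Chart n Z} {x : Z} (h : At e x) :
    ∀ᶠ z in 𝓝 (e x), z ∈ e.target ∧ At e (e.symm z) := by
  filter_upwards [h.nhds_target] with z hz using ⟨hz, At.of_target h.1 hz⟩

/-- multiplication by a transversal section is injective -/
lemma mulV_inj {q p : ℕ} (β : PSec n q Z)
    (hβ : ∀ e x, At e x → β.coeff e (e x) = 0 → fderiv ℂ (β.coeff e) (e x) ≠ 0) :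
    Function.Injective ((mulV β.val).domRestrict (PV n Z p)) := by
  rw [injective_iff_map_eq_zero]
  rintro ⟨g, τ, hτ⟩ h0
  have h1 : ∀ x, β.val x * τ.val x = 0 := by
    intro x
    have := congrFun h0 x
    rw [← hτ x]
    exact this
  have h2 : ∀ x, τ.val x = 0 := by
    intro x
    by_contra hne
    set e : Chart n Z := chartAt (Cm n) x with he
    have hx : At e x := at_chartAt x
    have hb0 : β.coeff e (e x) = 0 := by
      have := h1 x
      rcases mul_eq_zero.1 this with h | h
      · exact h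
      · exact absurd h hne
    apply hβ e x hx hb0
    have h3 : ∀ᶠ z in 𝓝 (e x), τ.coeff e z ≠ 0 :=
      (τ.holo e x hx).continuousAt.eventually_ne hne
    have h4 : β.coeff e =ᶠ[𝓝 (e x)] fun _ => 0 := by
      filter_upwards [h3, psec_contAt' β hx] with z hz hzt
      have h5 := h1 (e.symm z)
      have h6 := coeff_eq_val β hzt.2
      have h7 := coeff_eq_val τ hzt.2
      rw [e.right_inv hzt.1] at h6 h7
      have h8 : β.coeff e z * τ.coeff e z = 0 := by
        rw [h6, h7]
        linear_combination ((jacM e (chartAt (Cm n) (e.symm z)) (e.symm z)).det ^ q *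
          (jacM e (chartAt (Cm n) (e.symm z)) (e.symm z)).det ^ p) * h5
      exact (mul_eq_zero.1 h8).resolve_right hz
    rw [h4.fderiv_eq]
    simp
  apply Subtype.ext
  funext x
  show g x = 0
  rw [hτ x, h2 x]

/-- `N e^{-mw}` is bounded -/
lemma rn_bdd [CompactSpace Z] (hw : IsCanonicalMetric w) (hN : HMet n m Z H N) :
    ∃ B : ℝ, 0 ≤ B ∧ ∀ x, rn m N w x ≤ B := by
  obtain ⟨B, hB0, hB⟩ := glob (F := rn m N w) (G := rn m N w) 0 (fun x => rn_nonneg hN x)
    (fun x₀ => by
      have hx : At (chartAt (Cm n) x₀ : Chart n Z) x₀ := at_chartAt x₀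
      set e : Chart n Z := chartAt (Cm n) x₀ with he
      obtain ⟨v, hv, hNv⟩ := hN.loc e x₀ hx
      have h1 : ContinuousAt (fun z => ‖v z‖ ^ 2 * Real.exp (-(m : ℝ) * w e z)) (e x₀) :=
        (hv.continuousAt.norm.pow 2).mul
          (continuousAt_const.mul (hw.smooth e x₀ hx).continuousAt).rexp
      set B := ‖v (e x₀)‖ ^ 2 * Real.exp (-(m : ℝ) * w e (e x₀)) + 1 with hB
      have h2 : ∀ᶠ z in 𝓝 (e x₀), ‖v z‖ ^ 2 * Real.exp (-(m : ℝ) * w e z) < B :=
        h1.eventually_lt_const (by
          show ‖v (e x₀)‖ ^ 2 * Real.exp (-(m : ℝ) * w e (e x₀)) < B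
          rw [hB]; linarith)
      refine ⟨B, by positivity, ?_⟩
      have h3 := (e.continuousAt hx.2).eventually (h2.and hNv)
      filter_upwards [h3, e.open_source.mem_nhds hx.2] with y hy hys
      have hay : At e y := ⟨hx.1, hys⟩
      rw [rn_eq hw hN hay, hy.2, pow_zero, mul_one]
      exact hy.1.le)
  exact ⟨B, hB0, fun x => by simpa using hB x⟩

end

/-- **The Kodaira lemma with a singular weight.** -/
theorem klStmt : KLStmt := by
  intro n m hn hm Z _ _ _ _ _ w hw hpos H _ _ _ N hN him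
  classical
  obtain ⟨C, b, hb, hkey⟩ := skey' hw hpos hN
  obtain ⟨D, k₀, hD, hk₀, hmany⟩ := many_sections hw hN him C b
    (fun a σ => hkey a b le_rfl σ)
  obtain ⟨q, hq, htrans⟩ := H335.transStmt n Z w hw hpos
  obtain ⟨A, hA⟩ := finrank_PV_le (n := n) (Z := Z)
  obtain ⟨Rm, hRm0, hRm⟩ := rn_bdd hw hN
  set T : ℕ := m * (n + 1) + b + 2 with hT
  have hT1 : 1 ≤ T := by omega
  have hmDT : 1 ≤ m * D * T := Nat.mul_pos (Nat.mul_pos hm hD) hT1
  obtain ⟨β, hβ⟩ := htrans (m * D * T) hmDT
  set M : ℕ → ℕ := fun k => m * (D * (k * (q * T))) + b with hMdef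
  have hMs : ∀ k, M (k + 1) = M k + q * (m * D * T) := by
    intro k
    simp only [hMdef]
    ring
  have hqT : 1 ≤ q * T := Nat.mul_pos hq hT1
  -- the alternative
  by_cases hex : ∃ k : ℕ, n + 1 ≤ D * ((k + 1) * (q * T)) ∧
      Bd n (M (k + 1)) m (D * ((k + 1) * (q * T)) - n) Z w hN ⊓
        LinearMap.range ((mulV β.val).domRestrict (PV n Z (M k))) ≠ ⊥
  · obtain ⟨k, hk, hne⟩ := hex
    obtain ⟨g, hg, hg0⟩ := Submodule.exists_mem_ne_zero_of_ne_bot hne
    obtain ⟨⟨s, hs, B, hB0, hB⟩, ⟨⟨τv, τ, hτ⟩, hgτ⟩⟩ := hg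
    have hgx : ∀ x, g x = β.val x * τ.val x := by
      intro x
      rw [← hgτ, ← hτ x]
      rfl
    set a : ℕ := D * ((k + 1) * (q * T)) with ha
    obtain ⟨B', hB'0, hB'⟩ := div_bound (k := a - n - 1) hw hN (hMs k) β τ s hβ
      (fun e x hx => by
        rw [coeff_eq_val s hx, coeff_eq_val β hx, coeff_eq_val τ hx, ← hs x, hgx x, hMs k,
          pow_add]
        ring) hB0 (by
        intro x
        rw [show a - n - 1 + 1 = a - n by omega]
        exact hB x)
    have hexp : M k + 2 ≤ m * (a - n - 1) := by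
      have h1 : a - n - 1 + (n + 1) = a := by omega
      have h2 : m * (a - n - 1) + m * (n + 1) = m * a := by rw [← Nat.mul_add, h1]
      have h3 : m * a = m * (D * (k * (q * T))) + m * (D * (q * T)) := by rw [ha]; ring
      have h4 : T ≤ m * (D * (q * T)) := by
        have h5 : 1 ≤ m * D * q := Nat.mul_pos (Nat.mul_pos hm hD) hq
        calc T = 1 * T := (one_mul T).symm
          _ ≤ (m * D * q) * T := Nat.mul_le_mul_right T h5
          _ = _ := by ring
      simp only [hMdef]
      omega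
    refine ⟨M k, τ, B' ^ m * Rm ^ (m * (a - n - 1) - (M k + 2)), ?_, by positivity, ?_, ?_⟩
    · simp only [hMdef]; omega
    · obtain ⟨x, hx⟩ : ∃ x, g x ≠ 0 := by
        by_contra hall
        push Not at hall
        exact hg0 (funext hall)
      refine ⟨chartAt (Cm n) x, x, at_chartAt x, ?_⟩
      rw [hgx x] at hx
      exact right_ne_zero_of_mul hx
    · intro e x hx
      have h1 := hB' x
      rw [← rn_eq hw hN hx, ← sn_eq hw τ.change hx]
      have hr0 := rn_nonneg (w := w) hN x
      calc sn w (M k) τ.coeff x ^ m ≤ (B' * rn m N w x ^ (a - n - 1)) ^ m :=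
            pow_le_pow_left₀ (sn_nonneg _ _ _ _) h1 m
        _ = B' ^ m * (rn m N w x ^ (m * (a - n - 1) - (M k + 2)) * rn m N w x ^ (M k + 2)) := by
            rw [mul_pow, ← pow_mul, ← pow_add, Nat.sub_add_cancel hexp, Nat.mul_comm (a - n - 1)]
        _ ≤ B' ^ m * (Rm ^ (m * (a - n - 1) - (M k + 2)) * rn m N w x ^ (M k + 2)) := by
            gcongr
            exact hRm x
        _ = _ := by ring
  · exfalso
    push Not at hex
    refine growth (f := fun k => Module.finrank ℂ (PV n Z (M k))) (n := n) (k₁ := k₀ + n + 1)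
      (A := A) (c := m * (D * (q * T)) + b + 1) (fun k hk => ?_) (fun k hk => ?_)
    · -- the step
      have hKk : k + 1 ≤ (k + 1) * (q * T) := Nat.le_mul_of_pos_right _ hqT
      set K : ℕ := (k + 1) * (q * T) with hK
      have hDK : K ≤ D * K := Nat.le_mul_of_pos_left _ hD
      have hnK : n + 1 ≤ D * ((k + 1) * (q * T)) := by rw [← hK]; omega
      obtain ⟨s, hs1, hs2⟩ := hmany K (by omega)
      haveI : FiniteDimensional ℂ (PV n Z (M (k + 1))) := (hA _).1
      haveI : FiniteDimensional ℂ (PV n Z (M k)) := (hA _).1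
      set Bk := Bd n (M (k + 1)) m (D * K - n) Z w hN with hBk
      have hBle : Bk ≤ PV n Z (M (k + 1)) := Bd_le_PV hN
      haveI : FiniteDimensional ℂ Bk := Submodule.finiteDimensional_of_le hBle
      set Rk := LinearMap.range ((mulV β.val).domRestrict (PV n Z (M k))) with hRk
      have hRle : Rk ≤ PV n Z (M (k + 1)) := by
        rintro g ⟨⟨τv, τ, hτ⟩, rfl⟩
        refine ⟨(β.mul τ).cast (by rw [hMs k]; ring), fun x => ?_⟩
        show β.val x * τv x = β.val x * τ.val x
        rw [hτ x]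
      haveI : FiniteDimensional ℂ Rk := Submodule.finiteDimensional_of_le hRle
      have hR : Module.finrank ℂ Rk = Module.finrank ℂ (PV n Z (M k)) :=
        LinearMap.finrank_range_of_inj (mulV_inj β hβ)
      have hB : K ^ n ≤ Module.finrank ℂ Bk := by
        have hmem : ∀ α, (s α).val ∈ Bk := by
          intro α
          obtain ⟨B, hB0, hB⟩ := sup_of_snrm hw hN C (by omega : n ≤ D * K) (s α)
            (fun i => hs1 α i)
          exact ⟨s α, fun x => rfl, B, hB0, hB⟩
        have hli : LinearIndependent ℂ (fun α : Fin n → Fin K => (⟨(s α).val, hmem α⟩ : Bk)) := by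
          rw [Fintype.linearIndependent_iff]
          intro cf hcf
          have h0 : cf = 0 := by
            apply hs2 cf
            intro e x hx
            have h1 : ∑ α, cf α * (s α).val x = 0 := by
              have h2 := congrArg (fun g : Bk => (g : Z → ℂ) x) hcf
              simpa using h2
            have h3 : ∀ α, cf α * (s α).coeff e (e x) =
                (cf α * (s α).val x) * (jacM e (chartAt (Cm n) x) x).det ^ (M (k + 1)) := by
              intro α
              rw [coeff_eq_val (s α) hx, mul_assoc]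
            simp only [h3]
            rw [← Finset.sum_mul, h1, zero_mul]
          intro α
          rw [h0]
          rfl
        have h4 := hli.fintype_card_le_finrank
        rwa [Fintype.card_fun, Fintype.card_fin, Fintype.card_fin] at h4
      have hdis : Bk ⊓ Rk = ⊥ := hex k hnK
      have hsum := Submodule.finrank_sup_add_finrank_inf_eq Bk Rk
      rw [hdis, finrank_bot, add_zero, hR] at hsum
      have hle : Module.finrank ℂ ↥(Bk ⊔ Rk) ≤ Module.finrank ℂ (PV n Z (M (k + 1))) :=
        Submodule.finrank_mono (sup_le hBle hRle)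
      have hpow : (k + 1) ^ n ≤ K ^ n := Nat.pow_le_pow_left hKk n
      show Module.finrank ℂ (PV n Z (M k)) + (k + 1) ^ n ≤
        Module.finrank ℂ (PV n Z (M (k + 1)))
      omega
    · refine ((hA (M k)).2).trans ?_
      apply Nat.mul_le_mul_left
      apply Nat.pow_le_pow_left
      simp only [hMdef]
      have h1 : m * (D * (k * (q * T))) = m * (D * (q * T)) * k := by ring
      rw [h1, add_mul, add_mul, one_mul]
      have h2 : b ≤ b * k := Nat.le_mul_of_pos_right _ hk
      omega

end Vale.Agent.P284.H451
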