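import Vale.Agent.P284.H335.Trans
import Vale.Agent.P284.H451.KL

/-!
# P284 (helper451), T1' (b): sections of `K_Z^k` with prescribed jets, bounded by the weight

`jets`: on a compact manifold with positive canonical bundle, given `z₀` and a finite set `S ∌ z₀`,
some power `K^b` has sections whose ratios are local coordinates at `z₀` and which vanish to order
two at the points of `S`.
`jetZ`: multiplied by a power `τ^a` of the section of `KLStmt` they satisfy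
`|σ|^{2m} ≤ C N^{aM+b} (N e^{-mw})^{2a-b}`.
-/

open scoped Manifold ContDiff Topology ComplexOrder
open Filter

noncomputable section

namespace Vale.Agent.P284.H451

open Vale.Agent.P272.K Vale.Agent.P272.KOD Vale.Agent.P284.H812 Vale.Agent.P284.H335

section
variable {n m : ℕ} {Z : Type*} [TopologicalSpace Z] [ChartedSpace (Cm n) Z]

/-- `u` vanishes to order at least two at `x`. -/
def V2 (u : PSec n m Z) (x : Z) : Prop :=
  ∀ e, At e x → u.coeff e (e x) = 0 ∧ fderiv ℂ (u.coeff e) (e x) = 0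

lemma V2.mul {m' : ℕ} {u : PSec n m Z} {x : Z} (h : V2 u x) (t : PSec n m' Z) :
    V2 (u.mul t) x := by
  intro e he
  obtain ⟨h1, h2⟩ := h e he
  refine ⟨by rw [PSec.mul_coeff, h1, zero_mul], ?_⟩
  have h3 := (u.holo e x he).differentiableAt.hasFDerivAt.mul
    (t.holo e x he).differentiableAt.hasFDerivAt
  have h4 : (u.mul t).coeff e = u.coeff e * t.coeff e := rfl
  rw [h4, h3.fderiv, h1, h2]
  ext v
  simp

lemma V2.mul' {m' : ℕ} {u : PSec n m Z} {x : Z} (h : V2 u x) (t : PSec n m' Z) :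
    V2 (t.mul u) x := by
  intro e he
  obtain ⟨h1, h2⟩ := h.mul t e he
  have h4 : (t.mul u).coeff e = (u.mul t).coeff e := by
    funext z
    exact mul_comm _ _
  rw [h4]
  exact ⟨h1, h2⟩

lemma V2.sq {u : PSec n m Z} {x : Z} (h : u.val x = 0) : V2 (u.mul u) x := by
  intro e he
  have h1 : u.coeff e (e x) = 0 := by
    rw [coeff_eq u he, h, zero_mul]
  refine ⟨by rw [PSec.mul_coeff, h1, zero_mul], ?_⟩
  have h3 := (u.holo e x he).differentiableAt.hasFDerivAt.mul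
    (u.holo e x he).differentiableAt.hasFDerivAt
  have h4 : (u.mul u).coeff e = u.coeff e * u.coeff e := rfl
  rw [h4, h3.fderiv, h1]
  ext v
  simp

lemma V2.cast {m' : ℕ} {u : PSec n m Z} {x : Z} (h : V2 u x) (hm : m = m') :
    V2 (u.cast hm) x := h

lemma val_mul {m' : ℕ} (u : PSec n m Z) (t : PSec n m' Z) (x : Z) :
    (u.mul t).val x = u.val x * t.val x := rfl

variable [IsManifold 𝓘(ℂ, Cm n) ω Z]

/-- multiplying by a section which vanishes to order two on `S` but not at `z₀` -/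
lemma exists_mult {z₀ : Z} (hsep : ∀ y : Z, z₀ ≠ y → ∃ m, 1 ≤ m ∧ SepAt n m z₀ y) (S : Finset Z)
    (hS : z₀ ∉ S) {b₀ : ℕ} (P₀ : PSec n b₀ Z) (h₀ : P₀.val z₀ ≠ 0) :
    ∃ b, b₀ ≤ b ∧ ∃ P : PSec n b Z, P.val z₀ ≠ 0 ∧ ∀ y ∈ S, V2 P y := by
  classical
  induction S using Finset.induction_on with
  | empty => exact ⟨b₀, le_rfl, P₀, h₀, by simp⟩
  | insert y S hy ih =>
    obtain ⟨b, hb, P, hP, hPS⟩ := ih fun h => hS (Finset.mem_insert_of_mem h)
    have hne : z₀ ≠ y := fun h => hS (h ▸ Finset.mem_insert_self _ _)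
    obtain ⟨k, -, s, t, e, e', he, he', hst⟩ := hsep y hne
    have h1 : s.val z₀ * t.val y - s.val y * t.val z₀ ≠ 0 :=
      (minor_ne_iff s t he he').mp hst
    set u := pfComb (t.val y) (-(s.val y)) s t with hu
    have uy : u.val y = 0 := by
      change t.val y * s.val y + -(s.val y) * t.val y = 0
      ring
    have ux : u.val z₀ ≠ 0 := by
      have : u.val z₀ = s.val z₀ * t.val y - s.val y * t.val z₀ := by
        change t.val y * s.val z₀ + -(s.val y) * t.val z₀ = _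
        ring
      rw [this]; exact h1
    refine ⟨b + (k + k), by omega, P.mul (u.mul u), ?_, ?_⟩
    · rw [val_mul, val_mul]
      exact mul_ne_zero hP (mul_ne_zero ux ux)
    · intro y' hy'
      rcases Finset.mem_insert.mp hy' with rfl | hy'
      · exact (V2.sq uy).mul' P
      · exact (hPS y' hy').mul _

omit [IsManifold 𝓘(ℂ, Cm n) ω Z] in
lemma jet_mul {ι : Type*} [Fintype ι] {m' : ℕ} {s0 : PSec n m Z} {s : ι → PSec n m Z}
    {e : Chart n Z} {x : Z} (h : At e x) (hj : Jet s0 s e x) {P : PSec n m' Z}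
    (hP : P.coeff e (e x) ≠ 0) : Jet (P.mul s0) (fun i => P.mul (s i)) e x := by
  refine ⟨mul_ne_zero hP hj.1, ?_⟩
  have h1 : ratio (P.mul s0) (fun i => P.mul (s i)) e =ᶠ[𝓝 (e x)] ratio s0 s e := by
    filter_upwards [(P.holo e x h).continuousAt.eventually_ne hP] with z hz
    funext i
    change P.coeff e z * (s i).coeff e z / (P.coeff e z * s0.coeff e z) =
      (s i).coeff e z / s0.coeff e z
    rw [mul_div_mul_left _ _ hz]
  rw [h1.fderiv_eq]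
  exact hj.2

end

/-- **Jets**: `K_Z` positive, `z₀ ∉ S` finite. -/
theorem jets (n : ℕ) (Z : Type) [TopologicalSpace Z] [T2Space Z] [CompactSpace Z]
    [ChartedSpace (Cm n) Z] [IsManifold 𝓘(ℂ, Cm n) ω Z] {w : Chart n Z → Cm n → ℝ}
    (hw : IsCanonicalMetric w) (hpos : ∀ e x, At e x → (cHess (w e) (e x)).PosDef) (z₀ : Z)
    (S : Finset Z) (hS : z₀ ∉ S) :
    ∃ b, 1 ≤ b ∧ ∃ (s0 : PSec n b Z) (s : Fin n → PSec n b Z), Jet s0 s (chartAt (Cm n) z₀) z₀ ∧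
      ∀ y ∈ S, V2 s0 y ∧ ∀ i, V2 (s i) y := by
  obtain ⟨h1, h2⟩ := peakStmt n Z w hw hpos (keyStmt n Z w hw hpos)
  obtain ⟨m₁, hm₁, hjet⟩ := h1 z₀
  obtain ⟨t0, t, hj⟩ := jetP_of_jetAt hjet
  have hat : At (cht n z₀) z₀ := at_cht z₀
  have ht0 : t0.val z₀ ≠ 0 := (val_ne_iff t0 hat).mpr hj.1
  obtain ⟨b, hb, P, hP, hPS⟩ := exists_mult (h2 z₀) S hS t0 ht0
  refine ⟨b + m₁, by omega, P.mul t0, fun i => P.mul (t i),
    jet_mul hat hj ((val_ne_iff P hat).mp hP), fun y hy => ⟨(hPS y hy).mul _,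
      fun i => (hPS y hy).mul _⟩⟩

section
variable {n m : ℕ} {Z : Type*} [TopologicalSpace Z] [ChartedSpace (Cm n) Z]
  [IsManifold 𝓘(ℂ, Cm n) ω Z] {w : Chart n Z → Cm n → ℝ}

/-- A section is bounded with respect to `w`. -/
lemma psec_bdd [CompactSpace Z] (hw : IsCanonicalMetric w) {b : ℕ} (s : PSec n b Z) :
    ∃ B : ℝ, 0 ≤ B ∧ ∀ e x, At e x →
      ‖s.coeff e (e x)‖ ^ 2 * Real.exp (-(b : ℝ) * w e (e x)) ≤ B := by
  obtain ⟨B, hB0, hB⟩ := glob (F := sn w b s.coeff) (G := fun _ => 1) 0 (fun x => by norm_num)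
    (fun x₀ => by
      have hx : At (chartAt (Cm n) x₀ : Chart n Z) x₀ := at_chartAt x₀
      set e : Chart n Z := chartAt (Cm n) x₀ with he
      have h1 : ContinuousAt (fun z => ‖s.coeff e z‖ ^ 2 * Real.exp (-(b : ℝ) * w e z)) (e x₀) :=
        ((s.holo e x₀ hx).continuousAt.norm.pow 2).mul
          (continuousAt_const.mul (hw.smooth e x₀ hx).continuousAt).rexp
      set B := ‖s.coeff e (e x₀)‖ ^ 2 * Real.exp (-(b : ℝ) * w e (e x₀)) + 1 with hB
      have h2 : ∀ᶠ z in 𝓝 (e x₀), ‖s.coeff e z‖ ^ 2 * Real.exp (-(b : ℝ) * w e z) < B :=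
        h1.eventually_lt_const (by
          show ‖s.coeff e (e x₀)‖ ^ 2 * Real.exp (-(b : ℝ) * w e (e x₀)) < B
          rw [hB]; linarith)
      refine ⟨B, by positivity, ?_⟩
      have h3 := (e.continuousAt hx.2).eventually h2
      filter_upwards [h3, e.open_source.mem_nhds hx.2] with y hy hys
      have hay : At e y := ⟨hx.1, hys⟩
      rw [sn_eq hw (fun e e' x h h' => s.change e e' x h h') hay, pow_zero, mul_one]
      exact hy.le)
  refine ⟨B, hB0, fun e x h => ?_⟩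
  have := hB x
  rw [sn_eq hw (fun e e' x h h' => s.change e e' x h h') h] at this
  simpa using this

end

/-- the pointwise computation -/
lemma bound_aux {T A N w C B : ℝ} {m M a b : ℕ} (hT : 0 ≤ T) (hA : 0 ≤ A) (hC : 0 ≤ C) (hB : 0 ≤ B)
    (hN : 0 ≤ N) (hab : b ≤ 2 * a)
    (h1 : (T ^ 2 * Real.exp (-(M : ℝ) * w)) ^ m ≤ C * (N * Real.exp (-(m : ℝ) * w)) ^ (M + 2))
    (h2 : A ^ 2 * Real.exp (-(b : ℝ) * w) ≤ B) :
    ((T ^ a * A) ^ 2) ^ m ≤
      C ^ a * B ^ m * N ^ (M * a + b) * (N * Real.exp (-(m : ℝ) * w)) ^ (2 * a - b) := by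
  set E := Real.exp w with hE
  have hEp : 0 < E := Real.exp_pos w
  have e1 : ∀ k : ℕ, Real.exp (-(k : ℝ) * w) = (E ^ k)⁻¹ := by
    intro k
    rw [hE, ← Real.exp_nat_mul, ← Real.exp_neg]
    congr 1; ring
  rw [e1] at h1 h2 ⊢
  rw [e1] at h1
  obtain ⟨c, hc⟩ : ∃ c, 2 * a = b + c := ⟨2 * a - b, by omega⟩
  have hc' : 2 * a - b = c := by omega
  rw [hc']
  have h3 : ((T ^ 2 * (E ^ M)⁻¹) ^ m) ^ a ≤ (C * (N * (E ^ m)⁻¹) ^ (M + 2)) ^ a := by
    gcongr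
  have h4 : (A ^ 2 * (E ^ b)⁻¹) ^ m ≤ B ^ m := by gcongr
  have h5 := mul_le_mul h3 h4 (by positivity) (by positivity)
  have h6 : ((T ^ 2 * (E ^ M)⁻¹) ^ m) ^ a * (A ^ 2 * (E ^ b)⁻¹) ^ m =
      ((T ^ a * A) ^ 2) ^ m * (E ^ (m * (M * a + b)))⁻¹ := by
    rw [← pow_mul, mul_pow, mul_pow, mul_pow, mul_pow, inv_pow, inv_pow, ← pow_mul, ← pow_mul,
      ← pow_mul, ← pow_mul]
    have : E ^ (m * (M * a + b)) = E ^ (M * (m * a)) * E ^ (b * m) := by
      rw [← pow_add]; congr 1; ring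
    rw [this, mul_inv]
    ring
  have h8 : (C * (N * (E ^ m)⁻¹) ^ (M + 2)) ^ a * B ^ m =
      C ^ a * B ^ m * N ^ (M * a + b) * (N * (E ^ m)⁻¹) ^ c * (E ^ (m * (M * a + b)))⁻¹ := by
    have h9 : (M + 2) * a = (M * a + b) + c := by rw [add_mul, hc]; ring
    have h10 : (E ^ (m * (M * a + b)))⁻¹ = ((E ^ m)⁻¹) ^ (M * a + b) := by
      rw [pow_mul, inv_pow]
    rw [mul_pow, ← pow_mul, h9, pow_add, mul_pow (N) _ (M * a + b), h10]
    ring
  rw [h6, h8] at h5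
  exact le_of_mul_le_mul_right h5 (by positivity)

/-- **Jets on `Z` with the bound by the weight.** -/
theorem jetZ (n m : ℕ) (hn : 1 ≤ n) (hm : 1 ≤ m) (Z : Type) [TopologicalSpace Z] [T2Space Z]
    [CompactSpace Z] [ChartedSpace (Cm n) Z] [IsManifold 𝓘(ℂ, Cm n) ω Z]
    {w : Chart n Z → Cm n → ℝ} (hw : IsCanonicalMetric w)
    (hpos : ∀ e x, At e x → (cHess (w e) (e x)).PosDef)
    (H : Type) [NormedAddCommGroup H] [InnerProductSpace ℂ H] [CompleteSpace H]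
    {N : Chart n Z → Cm n → ℝ} (hN : HMet n m Z H N) (hI : HImmAt n Z H N) :
    ∃ (M : ℕ) (τ : PSec n M Z), 1 ≤ M ∧ (∃ e x, At e x ∧ τ.coeff e (e x) ≠ 0) ∧
      (∃ C : ℝ, 0 ≤ C ∧ ∀ e x, At e x →
        (‖τ.coeff e (e x)‖ ^ 2 * Real.exp (-(M : ℝ) * w e (e x))) ^ m ≤
          C * (N e (e x) * Real.exp (-(m : ℝ) * w e (e x))) ^ (M + 2)) ∧
      (∀ (b : ℕ) (s : PSec n b Z) (a : ℕ), b ≤ 2 * a → ∃ C : ℝ, 0 ≤ C ∧ ∀ e x, At e x →
        (‖((τ.pow a).mul s).coeff e (e x)‖ ^ 2) ^ m ≤ C * N e (e x) ^ (M * a + b) *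
          (N e (e x) * Real.exp (-(m : ℝ) * w e (e x))) ^ (2 * a - b)) ∧
      ∀ (z₀ : Z) (S : Finset Z), z₀ ∉ S → τ.val z₀ ≠ 0 → ∃ b, 1 ≤ b ∧
        ∃ (s0 : PSec n b Z) (s : Fin n → PSec n b Z), ∀ a : ℕ,
          Jet ((τ.pow a).mul s0) (fun i => (τ.pow a).mul (s i)) (chartAt (Cm n) z₀) z₀ ∧
          ∀ y ∈ S, V2 ((τ.pow a).mul s0) y ∧ ∀ i, V2 ((τ.pow a).mul (s i)) y := by
  obtain ⟨M, τ, C, hM, hC, hτ, hbd⟩ := klStmt n m hn hm Z w hw hpos H N hN hI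
  refine ⟨M, τ, hM, hτ, ⟨C, hC, hbd⟩, ?_, ?_⟩
  · intro b s a hab
    obtain ⟨B, hB, hs⟩ := psec_bdd hw s
    refine ⟨C ^ a * B ^ m, by positivity, fun e x h => ?_⟩
    rw [PSec.mul_coeff, PSec.pow_coeff, norm_mul, norm_pow]
    exact bound_aux (norm_nonneg _) (norm_nonneg _) hC hB (hmet_nonneg hN h) hab (hbd e x h)
      (hs e x h)
  · intro z₀ S hS hz
    obtain ⟨b, hb, s0, s, hj, hv⟩ := jets n Z hw hpos z₀ S hS
    refine ⟨b, hb, s0, s, fun a => ⟨jet_mul (at_cht z₀) hj ?_, fun y hy =>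
      ⟨(hv y hy).1.mul' _, fun i => ((hv y hy).2 i).mul' _⟩⟩⟩
    rw [PSec.pow_coeff]
    exact pow_ne_zero _ ((val_ne_iff τ (at_cht z₀)).mp hz)

end Vale.Agent.P284.H451
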