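import Vale.Agent.P284.H451.CntP
import Vale.Agent.P284.H812.KO1

/-!
# P284 (helper451), COUNT: proof of `CntStmt`
-/

open scoped Manifold ContDiff Topology ComplexOrder ENNReal
open Filter MeasureTheory Set Metric

set_option linter.all false

noncomputable section

namespace Vale.Agent.P284.H451

open Vale.Agent.P272.K Vale.Agent.P272.K.INT Vale.Agent.P272.KOD Vale.Agent.P284.H812
  Vale.Agent.P284.H213.KL

section
variable {n m M : ℕ} {Z : Type*} [TopologicalSpace Z] [ChartedSpace (Cm n) Z]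
  [IsManifold 𝓘(ℂ, Cm n) ω Z] [T2Space Z]
  {H : Type*} [NormedAddCommGroup H] [InnerProductSpace ℂ H] [CompleteSpace H]
  {N w : Chart n Z → Cm n → ℝ} {K k b : ℝ → ℝ} {c : ℝ}
  {H' : Type*} [NormedAddCommGroup H'] [InnerProductSpace ℂ H'] [CompleteSpace H']
  {V : Cm n → H'} {G : ∀ b : Cm n, Set (Germ (𝓝 b) Z)} {B : Set (Cm n)} {N₀ : ℕ}
  {τ : PSec n M Z} {σ j : ℝ} {C : ℝ}

/-- where the cut-off function is nonzero, the weight is bounded below -/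
lemma exists_level (P : Prof K k b c) (hj : 0 < j) (hm : 1 ≤ m)
    (hN0 : ∀ x : Z, 0 ≤ rn m N w x)
    (hC : ∀ x : Z, sn w M τ.coeff x ^ m ≤ C * rn m N w x ^ (M + 2)) :
    ∃ δ : ℝ, 0 < δ ∧ ∀ x : Z, exF k j (sn w M τ.coeff x) ≠ 0 → δ ≤ rn m N w x := by
  obtain ⟨δ, hδ, hδ'⟩ : ∃ δ : ℝ, 0 < δ ∧ |C| * δ ^ (M + 2) < Real.exp (-(2 * j)) ^ m := by
    have h1 : Tendsto (fun δ : ℝ => |C| * δ ^ (M + 2)) (𝓝[>] 0) (𝓝 (|C| * 0 ^ (M + 2))) :=
      ((continuous_const.mul (continuous_pow (M + 2))).tendsto 0).mono_left nhdsWithin_le_nhds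
    rw [zero_pow (by omega), mul_zero] at h1
    have h2 := h1.eventually_lt_const (show (0 : ℝ) < Real.exp (-(2 * j)) ^ m by positivity)
    obtain ⟨δ, h3, h4⟩ := (h2.and self_mem_nhdsWithin).exists
    exact ⟨δ, h4, h3⟩
  refine ⟨δ, hδ, fun x hx => ?_⟩
  have hS : Real.exp (-(2 * j)) < sn w M τ.coeff x := by
    by_contra hle
    exact hx (exF_zero hj P.zk (not_lt.mp hle))
  by_contra hlt
  rw [not_le] at hlt
  have h1 := hC x
  have h2 := hN0 x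
  have h3 : Real.exp (-(2 * j)) ^ m < sn w M τ.coeff x ^ m :=
    pow_lt_pow_left₀ hS (Real.exp_pos _).le (by omega)
  have h4 : C * rn m N w x ^ (M + 2) ≤ |C| * δ ^ (M + 2) := by
    have h5 : rn m N w x ^ (M + 2) ≤ δ ^ (M + 2) := pow_le_pow_left₀ h2 hlt.le _
    have h6 : 0 ≤ rn m N w x ^ (M + 2) := by positivity
    calc C * rn m N w x ^ (M + 2) ≤ |C| * rn m N w x ^ (M + 2) :=
          mul_le_mul_of_nonneg_right (le_abs_self C) h6
      _ ≤ _ := mul_le_mul_of_nonneg_left h5 (abs_nonneg C)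
  linarith

/-- the local structure at every level -/
theorem all_str [CompactSpace Z] (P : Prof K k b c) (hn : 1 ≤ n) (hm : 1 ≤ m)
    (hN : HMet n m Z H N) (hI : HImm n Z H N) (hw : IsCanonicalMetric w)
    (hpos : ∀ e x, At e x → (cHess (w e) (e x)).PosDef) (hM : BrMult B G N₀)
    (hG : BrFam m N V B G) (hBo : IsOpen B)
    (hVd : DifferentiableOn ℂ V B) (hV0 : ∀ z ∈ B, V z ≠ 0) {c₁ : ℝ} (hc₁ : 0 < c₁)
    (hlev : ∀ z ∈ B, ∀ β, c₁ * ∑ i, ‖β i‖ ^ 2 ≤ lev (fun y => Real.log (‖V y‖ ^ 2)) z β)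
    (hC : ∀ e x, At e x → (‖τ.coeff e (e x)‖ ^ 2 * Real.exp (-(M : ℝ) * w e (e x))) ^ m ≤
      C * (N e (e x) * Real.exp (-(m : ℝ) * w e (e x))) ^ (M + 2)) (hj : 0 < j) :
    ∃ σ : ℝ, 0 < σ ∧ ∀ b' ∈ B, ∃ s : ℝ, 0 < s ∧ ball b' s ⊆ B ∧ ∃ (p : ℕ)
      (e : Fin p → Chart n Z) (F : Fin p → Cm n → Cm n), LocS m N w V G σ τ k j b' s e F := by
  obtain ⟨δ, hδ, hδ2⟩ := exists_level (C := C) (N := N) (w := w) (τ := τ) P hj hm
    (fun x => mul_nonneg (Vale.Agent.P284.H812.HMet.nonneg hN (Vale.Agent.P284.H812.at_chartAt x))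
      (Real.exp_pos _).le)
    (fun x => hC _ x (Vale.Agent.P284.H812.at_chartAt x))
  obtain ⟨κ, σ, hκ, hσ, hext⟩ := ext_global2 hN hI hw hδ H'
  refine ⟨σ, hσ, fun b' hb' => ?_⟩
  obtain ⟨s, hs, hsB, p, e, F, h1, h2, h3⟩ := loc_str P hn hm hN hw hpos τ hM hG hBo hVd hV0 hc₁
    hlev hκ hσ hext hb'
  exact ⟨s, hs, hsB, p, e, F, h1, h2, fun z hz γ hγ hne => h3 z hz γ hγ (hδ2 _ hne)⟩

omit [IsManifold 𝓘(ℂ, Cm n) ω Z] [T2Space Z] in
/-- `g_j ≤ k` where there are at most `k` branches -/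
lemma gj_le (P : Prof K k b c) {z : Cm n} {q : ℕ} (hq : (G z).encard ≤ q) :
    gj k j τ w G z ≤ q := by
  have hfin : (G z).Finite := by
    rw [← encard_lt_top_iff]
    exact lt_of_le_of_lt hq (by exact_mod_cast ENat.coe_lt_top q)
  unfold gj
  rw [finsum_mem_eq_finite_toFinset_sum _ hfin]
  calc ∑ γ ∈ hfin.toFinset, exF k j (sn w M τ.coeff γ.value)
      ≤ ∑ γ ∈ hfin.toFinset, (1 : ℝ) := Finset.sum_le_sum fun γ _ => exF_le_one P _
    _ = (hfin.toFinset.card : ℝ) := by simp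
    _ ≤ q := by
        rw [hfin.encard_eq_coe_toFinset_card] at hq
        exact_mod_cast hq

/-- branches are open -/
lemma br_eventually {z : Cm n} {e : Chart n Z} {F : Cm n → Cm n} (hb : IsBranch m N V z e F) :
    ∀ᶠ y in 𝓝 z, IsBranch m N V y e F := by
  filter_upwards [hb.an.eventually_analyticAt, eventually_eventually_nhds.2 hb.eq,
    hb.an.continuousAt.eventually (e.open_target.mem_nhds hb.tgt)] with y k1 k2 k3
  exact ⟨hb.mem, k3, k1, k2⟩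

/-- on a branch, `τ` is not identically zero -/
lemma exists_tau_ne [ConnectedSpace Z] (hm : 1 ≤ m)
    (hτ : ∃ e x, At e x ∧ τ.coeff e (e x) ≠ 0) {y : Cm n} {e : Chart n Z} {F : Cm n → Cm n}
    (hb : IsBranch m N V y e F) (hV : V y ≠ 0) : ∃ᶠ y' in 𝓝 y, τ.coeff e (F y') ≠ 0 := by
  intro hcon
  have hdet := (br_ne hm hb hV).2
  have h2 : ∀ᶠ z in 𝓝 y, τ.coeff e (F z) = 0 := by
    filter_upwards [hcon] with z hz
    exact not_not.mp hz
  have hs : HasStrictFDerivAt F (fderiv ℂ F y) y := hb.an.hasStrictFDerivAt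
  have hsurj : (fderiv ℂ F y).range = ⊤ := by
    have hu : IsUnit (LinearMap.det (fderiv ℂ F y : Cm n →ₗ[ℂ] Cm n)) := isUnit_iff_ne_zero.2 hdet
    have := (LinearMap.isUnit_iff_isUnit_det _).2 hu
    exact LinearMap.isUnit_iff_range_eq_top _ |>.1 this
  have hmap := hs.map_nhds_eq_of_surj hsurj
  have h3 : ∀ᶠ y in 𝓝 (F y), τ.coeff e y = 0 := by
    rw [← hmap]
    exact h2
  obtain ⟨e', x', hat, hne⟩ := hτ
  have hat0 := At.of_target hb.mem hb.tgt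
  refine hne (ident τ hat0 ?_ hat)
  rw [e.right_inv hb.tgt]
  exact h3

/-- a small ball on which finitely many branches avoid the zeros of `τ` -/
lemma exists_good_ball [ConnectedSpace Z] (hm : 1 ≤ m)
    (hτ : ∃ e x, At e x ∧ τ.coeff e (e x) ≠ 0) {ζ : Cm n} {s : ℝ} (hs : 0 < s)
    (hV0 : ∀ z ∈ ball ζ s, V z ≠ 0) {ι : Type*} (S : Finset ι) {e : ι → Chart n Z}
    {F : ι → Cm n → Cm n} (hb : ∀ i, ∀ z ∈ ball ζ s, IsBranch m N V z (e i) (F i)) :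
    ∃ (y : Cm n) (ρ : ℝ), 0 < ρ ∧ ball y ρ ⊆ ball ζ s ∧
      ∀ i ∈ S, ∀ x ∈ ball y ρ, τ.coeff (e i) (F i x) ≠ 0 := by
  classical
  induction S using Finset.induction_on with
  | empty => exact ⟨ζ, s, hs, le_rfl, by simp⟩
  | insert i S hi ih =>
    obtain ⟨y, ρ, hρ, hsub, hS⟩ := ih
    have hy : y ∈ ball ζ s := hsub (mem_ball_self hρ)
    obtain ⟨x, hx1, hx2⟩ := ((exists_tau_ne hm hτ (hb i y hy) (hV0 y hy)).and_eventually
      (ball_mem_nhds y hρ)).exists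
    have hxb := hb i x (hsub hx2)
    have hc : ContinuousAt (fun x => τ.coeff (e i) (F i x)) x := by
      have h1 := (τ.holo (e i) _ (br_at hxb)).continuousAt
      rw [(e i).right_inv hxb.tgt] at h1
      exact ContinuousAt.comp (g := τ.coeff (e i)) h1 hxb.an.continuousAt
    obtain ⟨ρ', hρ', h2⟩ := Metric.eventually_nhds_iff_ball.1
      ((hc.eventually_ne hx1).and (isOpen_ball.mem_nhds hx2))
    refine ⟨x, ρ', hρ', fun z hz => hsub (h2 z hz).2, fun i' hi' z hz => ?_⟩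
    rcases Finset.mem_insert.1 hi' with rfl | hi'
    · exact (h2 z hz).1
    · exact hS i' hi' z (h2 z hz).2

/-- **many branches make `g_j` large** -/
theorem gj_large [ConnectedSpace Z] [CompactSpace Z] (P : Prof K k b c) (hm : 1 ≤ m)
    (hw : IsCanonicalMetric w)
    (hτ : ∃ e x, At e x ∧ τ.coeff e (e x) ≠ 0)
    (hG : BrFam m N V B G) (hBo : IsOpen B) (hV0 : ∀ z ∈ B, V z ≠ 0)
    (hloc : ∀ j : ℝ, 0 < j → ∃ σ : ℝ, 0 < σ ∧ ∀ b' ∈ B, ∃ s : ℝ, 0 < s ∧ ball b' s ⊆ B ∧ ∃ (p : ℕ)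
      (e : Fin p → Chart n Z) (F : Fin p → Cm n → Cm n), LocS m N w V G σ τ k j b' s e F)
    {z : Cm n} (hz : z ∈ B) {q : ℕ} (hq : (q : ℕ∞) ≤ (G z).encard) :
    ∃ z' ρ', 0 < ρ' ∧ ball z' ρ' ⊆ B ∧ ∀ᶠ l : ℕ in atTop, ∀ y ∈ ball z' ρ',
      (q : ℝ) ≤ gj k ((l : ℝ) + 1) τ w G y := by
  classical
  obtain ⟨T, hTG, hTq⟩ := exists_subset_encard_eq hq
  have hTf : T.Finite := finite_of_encard_eq_coe hTq
  haveI : Finite T := hTf
  haveI : Fintype T := Fintype.ofFinite T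
  have hcard : Fintype.card T = q := by
    have h1 : T.encard = (Fintype.card T : ℕ∞) := by
      rw [Set.encard_eq_coe_toFinset_card, Set.toFinset_card]
    rw [h1] at hTq
    exact_mod_cast hTq
  have h1 : ∀ γ : T, ∃ (e : Chart n Z) (f : Cm n → Cm n), IsBranch m N V z e f ∧
      (γ : Germ (𝓝 z) Z) = gr e f z := fun γ => hG.br z hz γ (hTG γ.2)
  choose e F hb0 hγ using h1
  -- a common ball
  have h2 : ∀ᶠ y in 𝓝 z, (∀ γ, IsBranch m N V y (e γ) (F γ)) ∧ y ∈ B :=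
    (eventually_all.2 fun γ => br_eventually (hb0 γ)).and (hBo.mem_nhds hz)
  obtain ⟨s, hs, hs2⟩ := Metric.eventually_nhds_iff_ball.1 h2
  have hsB : ball z s ⊆ B := fun y hy => (hs2 y hy).2
  have hbr : ∀ γ, ∀ y ∈ ball z s, IsBranch m N V y (e γ) (F γ) := fun γ y hy => (hs2 y hy).1 γ
  have hmem : ∀ γ, ∀ y ∈ ball z s, gr (e γ) (F γ) y ∈ G y := by
    intro γ y hy
    refine hG.cont z s (e γ) (F γ) hs hsB (hbr γ) ?_ y hy
    have h3 := hTG γ.2
    rw [hγ γ] at h3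
    exact h3
  have hinj : ∀ y ∈ ball z s, Function.Injective fun γ => gr (e γ) (F γ) y := by
    intro y hy γ γ' hgg
    have h3 := germ_ident (hbr γ) (hbr γ') hy hgg z (mem_ball_self hs)
    rw [← hγ γ, ← hγ γ'] at h3
    exact Subtype.ext h3
  obtain ⟨y, ρ, hρ, hsub, hτ2⟩ := exists_good_ball hm hτ hs (fun y hy => hV0 y (hsB hy))
    (Finset.univ : Finset T) hbr
  have hy : y ∈ ball z s := hsub (mem_ball_self hρ)
  have hSpos : ∀ γ, 0 < Sc τ w (e γ) (F γ y) := by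
    intro γ
    unfold Sc
    have := hτ2 γ (Finset.mem_univ _) y (mem_ball_self hρ)
    positivity
  have hSc : ∀ γ, ContinuousAt (fun x => Sc τ w (e γ) (F γ x)) y := by
    intro γ
    have h3 := (Sc_smooth hw τ (br_at (hbr γ y hy))).continuousAt
    rw [(e γ).right_inv (hbr γ y hy).tgt] at h3
    exact ContinuousAt.comp (g := Sc τ w (e γ)) h3 (hbr γ y hy).an.continuousAt
  have h4 : ∀ᶠ x in 𝓝 y, (∀ γ, Sc τ w (e γ) (F γ y) / 2 < Sc τ w (e γ) (F γ x)) ∧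
      x ∈ ball z s :=
    (eventually_all.2 fun γ => (hSc γ).eventually_const_lt (half_lt_self (hSpos γ))).and
      (isOpen_ball.mem_nhds hy)
  obtain ⟨ρ', hρ', h5⟩ := Metric.eventually_nhds_iff_ball.1 h4
  refine ⟨y, ρ', hρ', fun x hx => hsB (h5 x hx).2, ?_⟩
  have h6 : ∀ γ, ∀ᶠ l : ℕ in atTop, Real.exp (-((l : ℝ) + 1)) < Sc τ w (e γ) (F γ y) / 2 := by
    intro γ
    have h7 : Tendsto (fun l : ℕ => Real.exp (-((l : ℝ) + 1))) atTop (𝓝 0) :=
      Real.tendsto_exp_neg_atTop_nhds_zero.comp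
        (tendsto_atTop_add_const_right _ _ tendsto_natCast_atTop_atTop)
    exact h7.eventually_lt_const (half_pos (hSpos γ))
  filter_upwards [eventually_all.2 h6] with l hl x hx
  have hj : (0 : ℝ) < (l : ℝ) + 1 := by positivity
  obtain ⟨σ, hσ, hL⟩ := hloc _ hj
  have hxs : x ∈ ball z s := (h5 x hx).2
  obtain ⟨s', hs', -, p, e', F', hL'⟩ := hL x (hsB hxs)
  -- the value of the cut-off function is `1`
  have hone : ∀ γ, exF k ((l : ℝ) + 1) (sn w M τ.coeff (gr (e γ) (F γ) x).value) = 1 := by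
    intro γ
    rw [Xc_value hw (hbr γ x hxs), Xc]
    have h8 : Real.exp (-((l : ℝ) + 1)) < Sc τ w (e γ) (F γ x) := (hl γ).trans ((h5 x hx).1 γ)
    have h9 : 0 < Sc τ w (e γ) (F γ x) := (Real.exp_pos _).trans h8
    rw [exF_pos h9]
    apply P.ok
    rw [le_div_iff₀ hj]
    have := (Real.lt_log_iff_exp_lt h9).2 h8
    linarith
  have hfin : (G x ∩ Function.support fun γ : Germ (𝓝 x) Z =>
      exF k ((l : ℝ) + 1) (sn w M τ.coeff γ.value)).Finite := by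
    refine (finite_range fun i => gr (e' i) (F' i) x).subset ?_
    rintro γ ⟨hγG, hγs⟩
    obtain ⟨i, hi⟩ := hL'.all x (mem_ball_self hs') γ hγG hγs
    exact ⟨i, hi.symm⟩
  have hgj : gj k ((l : ℝ) + 1) τ w G x = ∑ γ ∈ hfin.toFinset,
      exF k ((l : ℝ) + 1) (sn w M τ.coeff γ.value) := finsum_mem_eq_sum _ hfin
  rw [hgj]
  have himg : (Finset.univ.image fun γ : T => gr (e γ) (F γ) x) ⊆ hfin.toFinset := by
    intro γ' hγ'
    obtain ⟨γ, -, rfl⟩ := Finset.mem_image.1 hγ'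
    rw [Set.Finite.mem_toFinset]
    refine ⟨hmem γ x hxs, ?_⟩
    rw [Function.mem_support, hone γ]
    exact one_ne_zero
  calc (q : ℝ) = ∑ γ ∈ (Finset.univ.image fun γ : T => gr (e γ) (F γ) x),
        exF k ((l : ℝ) + 1) (sn w M τ.coeff γ.value) := by
        rw [Finset.sum_image fun γ _ γ' _ h => hinj x hxs h]
        simp only [hone, Finset.sum_const, Finset.card_univ, hcard, nsmul_eq_mul, mul_one]
    _ ≤ _ := Finset.sum_le_sum_of_subset_of_nonneg himg fun γ _ _ => exF_nonneg P _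

end

/-- **COUNT** -/
theorem cntStmt : CntStmt := by
  intro n m M hn hm Z _ _ _ _ _ _ w hw hpos τ hτ H _ _ _ N hN hI C hC H' _ _ _ V b₀ r₀ r₁ hr₀ hr
    hVd hV G hG N₀ hM
  obtain ⟨K, k, b, c, P⟩ := exists_prof
  set B := ball b₀ r₀ with hB
  have hB1 : closedBall b₀ r₀ ⊆ ball b₀ r₁ := closedBall_subset_ball hr
  have hBc : B ⊆ closedBall b₀ r₀ := ball_subset_closedBall
  have hVa : ∀ z ∈ closedBall b₀ r₀, AnalyticAt ℂ V z := fun z hz =>
    analyticAt_of_diffOn isOpen_ball hVd (hB1 hz)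
  obtain ⟨c₁, hc₁, hlev⟩ := exists_lev_lower (isCompact_closedBall b₀ r₀) hVa
    (fun z hz => (hV z (hB1 hz)).1) (fun z hz => (hV z (hB1 hz)).2)
  have hBo : IsOpen B := isOpen_ball
  have hVdB : DifferentiableOn ℂ V B := hVd.mono (hBc.trans hB1)
  have hV0 : ∀ z ∈ B, V z ≠ 0 := fun z hz => (hV z (hB1 (hBc hz))).1
  have hVaB : ∀ z ∈ B, AnalyticAt ℂ V z := fun z hz => hVa z (hBc hz)
  have hlevB : ∀ z ∈ B, ∀ β, c₁ * ∑ i, ‖β i‖ ^ 2 ≤
      lev (fun y => Real.log (‖V y‖ ^ 2)) z β := fun z hz => hlev z (hBc hz)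
  have hloc : ∀ j : ℝ, 0 < j → ∃ σ : ℝ, 0 < σ ∧ ∀ b' ∈ B, ∃ s : ℝ, 0 < s ∧ ball b' s ⊆ B ∧
      ∃ (p : ℕ) (e : Fin p → Chart n Z) (F : Fin p → Cm n → Cm n),
        LocS m N w V G σ τ k j b' s e F := fun j hj =>
    all_str P hn hm hN hI hw hpos hM hG hBo hVdB hV0 hc₁ hlevB hC hj
  obtain ⟨C₀, hC₀, hmass⟩ := mass_De P hN hw hpos τ
  obtain ⟨A₀, C₁, hA₀, hC₁, hpt⟩ := pt_bound hn P.c0 hc₁
  have hBne : B.Nonempty := ⟨b₀, mem_ball_self hr₀⟩
  have hjpos : ∀ l : ℕ, (0 : ℝ) < (l : ℝ) + 1 := fun l => by positivity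
  have hNC : (N₀ : ℝ≥0∞) * C₀ ≠ ⊤ := ENNReal.mul_ne_top (ENNReal.natCast_ne_top N₀) hC₀
  -- pointwise bounds on a section
  have hptw : ∀ (l : ℕ) (σ : ℝ) (b' : Cm n) (s : ℝ) (p : ℕ) (e : Fin p → Chart n Z)
      (F : Fin p → Cm n → Cm n), LocS m N w V G σ τ k ((l : ℝ) + 1) b' s e F → ball b' s ⊆ B →
      ∀ z ∈ ball b' s, ∀ i,
      A₀ ≤ (bm (1 / 2) (((l : ℝ) + 1) / c) (fun y => Real.log (‖V y‖ ^ 2))
          (fun y => Xc k ((l : ℝ) + 1) τ w (e i) (F i y)) z).det.re ∧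
      ‖fderiv ℝ (fun y => Xc k ((l : ℝ) + 1) τ w (e i) (F i y)) z‖ ≤
        C₁ / Real.sqrt ((l : ℝ) + 1) * (bm (1 / 2) (((l : ℝ) + 1) / c)
          (fun y => Real.log (‖V y‖ ^ 2))
          (fun y => Xc k ((l : ℝ) + 1) τ w (e i) (F i y)) z).det.re := by
    intro l σ b' s p e F hL hsB z hz i
    have hzB := hsB hz
    refine hpt _ _ _ z (hjpos l) ?_ ?_ (hlevB z hzB)
    · exact (smooth_logV (hVaB z hzB) (hV0 z hzB)).of_le (by norm_cast)
    · exact (Xc_comp_smooth P (hjpos l) hw τ ((hL.sec i).br z hz)).differentiableAt (by norm_cast)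
  refine cnt_of volume hr₀ (g := fun l => gj k ((l : ℝ) + 1) τ w G)
    (A := (ENNReal.ofReal A₀)⁻¹ * (N₀ * C₀))
    (ε := fun l => ENNReal.ofReal (C₁ / Real.sqrt ((l : ℝ) + 1)) * (N₀ * C₀)) ?_ ?_ ?_ ?_ ?_ ?_ ?_
  · exact ENNReal.mul_ne_top (ENNReal.inv_ne_top.2 (ENNReal.ofReal_pos.2 hA₀).ne') hNC
  · have h1 : Tendsto (fun l : ℕ => C₁ / Real.sqrt ((l : ℝ) + 1)) atTop (𝓝 0) := by
      refine Tendsto.const_div_atTop ?_ _
      exact (Real.tendsto_sqrt_atTop).comp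
        (tendsto_atTop_add_const_right _ _ tendsto_natCast_atTop_atTop)
    have h2 : Tendsto (fun l : ℕ => ENNReal.ofReal (C₁ / Real.sqrt ((l : ℝ) + 1))) atTop (𝓝 0) := by
      have := ENNReal.tendsto_ofReal h1
      rwa [ENNReal.ofReal_zero] at this
    have h3 := ENNReal.Tendsto.mul_const (b := (N₀ : ℝ≥0∞) * C₀) h2 (Or.inr hNC)
    rwa [zero_mul] at h3
  · intro l z hz
    obtain ⟨σ, hσ, hL⟩ := hloc _ (hjpos l)
    obtain ⟨s, hs, hsB, p, e, F, hL'⟩ := hL z hz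
    exact ((gj_smooth P (hjpos l) hw hL' (mem_ball_self hs)).of_le (by norm_cast)).contDiffWithinAt
  · intro l
    obtain ⟨σ, hσ, hL⟩ := hloc _ (hjpos l)
    refine ints P (hjpos l) hσ hm hN hw hM hVaB hV0 hL hBne
      (hmass _ _ (hjpos l) (half_pos hσ)) ?_
    intro b' hb' s p e F hLL hsB z hz
    refine (ofReal_gj_le P hw hLL hz).trans ?_
    rw [Finset.mul_sum]
    refine Finset.sum_le_sum fun i _ => ?_
    have h1 := (hptw l σ b' s p e F hLL hsB z hz i).1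
    have h2 : ENNReal.ofReal A₀ ≠ 0 := (ENNReal.ofReal_pos.2 hA₀).ne'
    rw [← ENNReal.inv_mul_cancel h2 ENNReal.ofReal_ne_top]
    exact mul_le_mul' le_rfl (ENNReal.ofReal_le_ofReal h1)
  · intro l
    obtain ⟨σ, hσ, hL⟩ := hloc _ (hjpos l)
    refine ints P (hjpos l) hσ hm hN hw hM hVaB hV0 hL hBne
      (hmass _ _ (hjpos l) (half_pos hσ)) ?_
    intro b' hb' s p e F hLL hsB z hz
    refine (gj_fderiv_le P (hjpos l) hw hLL hz).trans ?_
    rw [Finset.mul_sum]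
    refine Finset.sum_le_sum fun i _ => ?_
    have h1 := (hptw l σ b' s p e F hLL hsB z hz i).2
    rw [← ENNReal.ofReal_mul (by positivity), ← ofReal_norm]
    exact ENNReal.ofReal_le_ofReal h1
  · intro l z hz q hq
    exact gj_le P hq
  · intro z hz q hq
    exact gj_large P hm hw hτ hG hBo hV0 hloc hz hq

end Vale.Agent.P284.H451
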