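import Mathlib.Topology.Instances.Matrix
import Vale.Agent.P284.H279.A2
import Vale.Agent.P284.H402.A.Spec

/-!
# P284 (helper451), A2: the frame theorem in the notation of `H402.A.Spec`
-/

open scoped ComplexOrder Matrix Topology
open Filter

noncomputable section

namespace Vale.Agent.P284.H451.A2

open Vale.Agent.P284.H402.A

variable {n q : ℕ}

/-- the frame -/
structure Fr (w : Matrix (Fin n) (Fin n) ℂ) (θ : Matrix (Fin n) (Fin q) ℂ) (μ : Fin q → ℝ)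
    (Q0 : Matrix (Fin n) (Fin n) ℂ) (Q : Fin q → Matrix (Fin n) (Fin n) ℂ) : Prop where
  nn : ∀ i, 0 ≤ μ i
  psd0 : Q0.PosSemidef
  psd : ∀ i, (Q i).PosSemidef
  inv : w⁻¹ = Q0 + ∑ i, Q i
  dete : ∀ δ : ℝ, 0 ≤ δ → (TT w θ δ).det = ((∏ i, (δ + μ i) : ℝ) : ℂ)
  DDe : ∀ δ : ℝ, 0 ≤ δ → DD w θ δ = ∏ i, (δ + μ i)
  WWi : ∀ δ : ℝ, 0 < δ → (WW w θ δ)⁻¹ = Q0 + ∑ i, ((δ / (δ + μ i) : ℝ) : ℂ) • Q i
  AAp : ∀ δ : ℝ, 0 < δ → AA w θ δ = (Vale.Agent.P284.H402.A.DD w θ δ : ℂ) • (WW w θ δ)⁻¹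
  AA0 : AA w θ 0 = (Vale.Agent.P284.H402.A.DD w θ 0 : ℂ) • Q0
  tr : (θᴴ * w⁻¹ * θ).trace = ((∑ i, μ i : ℝ) : ℂ)

theorem frame2 {w : Matrix (Fin n) (Fin n) ℂ} (hw : w.PosDef) (θ : Matrix (Fin n) (Fin q) ℂ) :
    ∃ (μ : Fin q → ℝ) (Q0 : Matrix (Fin n) (Fin n) ℂ) (Q : Fin q → Matrix (Fin n) (Fin n) ℂ),
      Fr w θ μ Q0 Q := by
  obtain ⟨μ, Q0, Q, h1, h2, h3, h4, h5, h6, h7, h8, -, -⟩ := Vale.Agent.P284.H279.frame hw θ
  have hww' : w⁻¹ * w = 1 :=
    Matrix.nonsing_inv_mul w ((Matrix.isUnit_iff_isUnit_det w).mp hw.isUnit)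
  have hww : w * w⁻¹ = 1 :=
    Matrix.mul_nonsing_inv w ((Matrix.isUnit_iff_isUnit_det w).mp hw.isUnit)
  have hdet : ∀ δ : ℝ, 0 ≤ δ → (TT w θ δ).det = ((∏ i, (δ + μ i) : ℝ) : ℂ) := by
    intro δ hδ
    rcases hδ.eq_or_lt with rfl | hδ
    · have : TT w θ 0 = Vale.Agent.P284.H279.TT w θ := by
        simp [TT, Vale.Agent.P284.H279.TT]
      rw [this, h7]
      push_cast
      simp
    · have hδc : (δ : ℂ) ≠ 0 := by exact_mod_cast hδ.ne'
      have : TT w θ δ = (δ : ℂ) • (1 + ((δ⁻¹ : ℝ) : ℂ) • Vale.Agent.P284.H279.TT w θ) := by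
        rw [smul_add, smul_smul, Complex.ofReal_inv, mul_inv_cancel₀ hδc, one_smul]
        rfl
      rw [this, Matrix.det_smul, h6, Fintype.card_fin]
      push_cast
      have hc : ((δ : ℂ)) ^ q = ∏ _i : Fin q, (δ : ℂ) := by simp
      rw [hc, ← Finset.prod_mul_distrib]
      refine Finset.prod_congr rfl fun i _ => ?_
      field_simp
  have hDD : ∀ δ : ℝ, 0 ≤ δ → DD w θ δ = ∏ i, (δ + μ i) := by
    intro δ hδ
    unfold DD
    rw [hdet δ hδ, Complex.ofReal_re]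
  have hWW : ∀ δ : ℝ, 0 < δ → (WW w θ δ)⁻¹ = Q0 + ∑ i, ((δ / (δ + μ i) : ℝ) : ℂ) • Q i := by
    intro δ hδ
    have e1 : WW w θ δ = Vale.Agent.P284.H279.wt w θ δ⁻¹ := rfl
    rw [e1, h5 δ⁻¹ (by positivity)]
    congr 1
    refine Finset.sum_congr rfl fun i _ => ?_
    congr 2
    have := h1 i
    have h9 : δ + μ i ≠ 0 := by positivity
    have h10 : 1 + δ⁻¹ * μ i ≠ 0 := by positivity
    field_simp
  have hAAp : ∀ δ : ℝ, 0 < δ → AA w θ δ = (DD w θ δ : ℂ) • (WW w θ δ)⁻¹ := by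
    intro δ hδ
    have hδc : (δ : ℂ) ≠ 0 := by exact_mod_cast hδ.ne'
    have hdp : (TT w θ δ).det ≠ 0 := by
      rw [hdet δ hδ.le]
      have : (∏ i, (δ + μ i)) ≠ 0 := Finset.prod_ne_zero_iff.2 fun i _ => by
        have := h1 i
        positivity
      exact_mod_cast this
    have hU : IsUnit (TT w θ δ).det := isUnit_iff_ne_zero.2 hdp
    set S := (TT w θ δ)⁻¹ with hS
    have hTS : TT w θ δ * S = 1 := Matrix.mul_nonsing_inv _ hU
    have hadj : (TT w θ δ).adjugate = (TT w θ δ).det • S := by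
      have h9 : TT w θ δ * (TT w θ δ).adjugate = (TT w θ δ).det • 1 := Matrix.mul_adjugate _
      have h10 : S * TT w θ δ = 1 := Matrix.nonsing_inv_mul _ hU
      calc (TT w θ δ).adjugate = (S * TT w θ δ) * (TT w θ δ).adjugate := by
            rw [h10, Matrix.one_mul]
        _ = _ := by rw [Matrix.mul_assoc, h9, Matrix.mul_smul, Matrix.mul_one]
    have hDdet : ((DD w θ δ : ℝ) : ℂ) = (TT w θ δ).det := by
      rw [hDD δ hδ.le, hdet δ hδ.le]
    have hW : (WW w θ δ)⁻¹ = w⁻¹ - w⁻¹ * θ * S * θᴴ * w⁻¹ := by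
      apply Matrix.inv_eq_right_inv
      have h11 : (δ : ℂ) • S + θᴴ * w⁻¹ * θ * S = 1 := by
        rw [← hTS, TT, Matrix.add_mul, Matrix.smul_mul, Matrix.one_mul]
      have h12 : θᴴ * w⁻¹ * θ * S = 1 - (δ : ℂ) • S := by
        rw [← h11]; abel
      calc WW w θ δ * (w⁻¹ - w⁻¹ * θ * S * θᴴ * w⁻¹)
          = w * w⁻¹ - (w * w⁻¹) * (θ * S * θᴴ * w⁻¹) + ((δ⁻¹ : ℝ) : ℂ) • (θ * θᴴ * w⁻¹) -
            ((δ⁻¹ : ℝ) : ℂ) • (θ * (θᴴ * w⁻¹ * θ * S) * θᴴ * w⁻¹) := by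
            rw [WW, Matrix.mul_sub, Matrix.add_mul, Matrix.add_mul]
            simp only [Matrix.mul_assoc, Matrix.smul_mul]
            abel
        _ = 1 := by
            rw [h12, hww, Matrix.one_mul, Matrix.mul_sub, Matrix.sub_mul, Matrix.sub_mul,
              Matrix.mul_one, smul_sub, Matrix.mul_smul, Matrix.smul_mul, Matrix.smul_mul,
              smul_smul, Complex.ofReal_inv, inv_mul_cancel₀ hδc, one_smul]
            abel
    rw [hW, hDdet, smul_sub, AA, hadj]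
    congr 1
    simp only [Matrix.mul_smul, Matrix.smul_mul, Matrix.mul_assoc]
  refine ⟨μ, Q0, Q, h1, h2, h3, h4, hdet, hDD, hWW, hAAp, ?_, ?_⟩
  · -- the limit `δ → 0`
    have hcT : Continuous fun δ : ℝ => TT w θ δ := by
      unfold TT
      exact ((Complex.continuous_ofReal.smul continuous_const).add continuous_const)
    have hcA : Continuous fun δ : ℝ => AA w θ δ := by
      unfold AA
      exact (hcT.matrix_det.smul continuous_const).sub
        (((continuous_const.matrix_mul hcT.matrix_adjugate).matrix_mul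
          continuous_const).matrix_mul continuous_const)
    have hcR : Continuous fun δ : ℝ => (((∏ i, (δ + μ i) : ℝ)) : ℂ) • Q0 +
        ∑ i, (((δ * ∏ j ∈ Finset.univ.erase i, (δ + μ j) : ℝ)) : ℂ) • Q i := by
      have : ∀ i : Fin q, Continuous fun δ : ℝ => δ * ∏ j ∈ Finset.univ.erase i, (δ + μ j) := by
        intro i; fun_prop
      fun_prop
    have heq : ∀ δ : ℝ, 0 < δ → AA w θ δ = (((∏ i, (δ + μ i) : ℝ)) : ℂ) • Q0 +
        ∑ i, (((δ * ∏ j ∈ Finset.univ.erase i, (δ + μ j) : ℝ)) : ℂ) • Q i := by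
      intro δ hδ
      rw [hAAp δ hδ, hWW δ hδ, smul_add, hDD δ hδ.le, Finset.smul_sum]
      congr 1
      refine Finset.sum_congr rfl fun i _ => ?_
      rw [smul_smul, ← Complex.ofReal_mul]
      congr 2
      have h9 : δ + μ i ≠ 0 := by
        have := h1 i
        positivity
      rw [← Finset.mul_prod_erase Finset.univ (fun i => δ + μ i) (Finset.mem_univ i)]
      field_simp
    have hlim1 : Tendsto (fun δ : ℝ => AA w θ δ) (𝓝[>] 0) (𝓝 (AA w θ 0)) :=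
      hcA.continuousAt.tendsto.mono_left nhdsWithin_le_nhds
    have hlim2 := (hcR.continuousAt (x := (0 : ℝ))).tendsto.mono_left
      (nhdsWithin_le_nhds (s := Set.Ioi (0 : ℝ)))
    have hev : (fun δ : ℝ => AA w θ δ) =ᶠ[𝓝[>] 0] fun δ : ℝ => (((∏ i, (δ + μ i) : ℝ)) : ℂ) • Q0 +
        ∑ i, (((δ * ∏ j ∈ Finset.univ.erase i, (δ + μ j) : ℝ)) : ℂ) • Q i := by
      filter_upwards [self_mem_nhdsWithin] with δ hδ using heq δ hδ
    have huniq := tendsto_nhds_unique hlim1 (hlim2.congr' hev.symm)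
    rw [huniq, hDD 0 le_rfl]
    simp
  · have h9 : (θᴴ * w⁻¹ * θ).trace = ∑ i, (μ i : ℂ) := h8
    rw [h9]
    push_cast
    rfl

end Vale.Agent.P284.H451.A2
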