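import Mathlib.Algebra.Order.Chebyshev
import Vale.Agent.P284.H451.A2F

/-!
# P284 (helper451), A2: traces and the main inequality
-/

open scoped ComplexOrder Matrix Topology
open Filter Matrix

set_option linter.all false

noncomputable section

namespace Vale.Agent.P284.H451.A2

open Vale.Agent.P284.H402.A

variable {n q : ℕ}

/-! ### bilinearity of `tr2` -/

lemma tr2_add_left (A A' B x : Matrix (Fin n) (Fin n) ℂ) :
    tr2 (A + A') B x = tr2 A B x + tr2 A' B x := by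
  unfold tr2
  rw [Matrix.add_mul, Matrix.add_mul, Matrix.trace_add, Complex.add_re]

lemma tr2_add_right (A B B' x : Matrix (Fin n) (Fin n) ℂ) :
    tr2 A (B + B') x = tr2 A B x + tr2 A B' x := by
  unfold tr2
  rw [Matrix.add_mul, Matrix.mul_add, Matrix.trace_add, Complex.add_re]

lemma tr2_smul_left (c : ℝ) (A B x : Matrix (Fin n) (Fin n) ℂ) :
    tr2 ((c : ℂ) • A) B x = c * tr2 A B x := by
  unfold tr2
  rw [Matrix.smul_mul, Matrix.smul_mul, Matrix.trace_smul, smul_eq_mul, Complex.re_ofReal_mul]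

lemma tr2_smul_right (c : ℝ) (A B x : Matrix (Fin n) (Fin n) ℂ) :
    tr2 A ((c : ℂ) • B) x = c * tr2 A B x := by
  unfold tr2
  rw [Matrix.smul_mul, Matrix.mul_smul, Matrix.trace_smul, smul_eq_mul, Complex.re_ofReal_mul]

lemma tr2_comm (A B x : Matrix (Fin n) (Fin n) ℂ) : tr2 A B x = tr2 B A x := by
  unfold tr2
  rw [Matrix.trace_mul_comm]

lemma tr2_zero_left (B x : Matrix (Fin n) (Fin n) ℂ) : tr2 0 B x = 0 := by
  simp [tr2]

lemma tr2_zero_right (A x : Matrix (Fin n) (Fin n) ℂ) : tr2 A 0 x = 0 := by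
  simp [tr2]

lemma tr2_sum_left {ι : Type*} (s : Finset ι) (A : ι → Matrix (Fin n) (Fin n) ℂ)
    (B x : Matrix (Fin n) (Fin n) ℂ) : tr2 (∑ i ∈ s, A i) B x = ∑ i ∈ s, tr2 (A i) B x := by
  classical
  induction s using Finset.induction_on with
  | empty => simp [tr2_zero_left]
  | insert a s ha ih => rw [Finset.sum_insert ha, Finset.sum_insert ha, tr2_add_left, ih]

lemma tr2_sum_right {ι : Type*} (s : Finset ι) (A : Matrix (Fin n) (Fin n) ℂ)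
    (B : ι → Matrix (Fin n) (Fin n) ℂ) (x : Matrix (Fin n) (Fin n) ℂ) :
    tr2 A (∑ i ∈ s, B i) x = ∑ i ∈ s, tr2 A (B i) x := by
  rw [tr2_comm, tr2_sum_left]
  exact Finset.sum_congr rfl fun i _ => tr2_comm _ _ _

lemma tr2_nn {A B x : Matrix (Fin n) (Fin n) ℂ} (hA : A.PosSemidef) (hB : B.PosSemidef)
    (hx : x.IsHermitian) : 0 ≤ tr2 A B x := Vale.Agent.P284.H279.trq_nn hA hB hx

/-- monotonicity of `tr2` -/
lemma tr2_mono {A A' B B' x : Matrix (Fin n) (Fin n) ℂ} (hB : B.PosSemidef)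
    (hA' : A'.PosSemidef) (hAA : (A' - A).PosSemidef) (hBB : (B' - B).PosSemidef)
    (hx : x.IsHermitian) : tr2 A B x ≤ tr2 A' B' x := by
  have h1 : tr2 A' B x = tr2 A B x + tr2 (A' - A) B x := by
    rw [← tr2_add_left]; congr 1; abel
  have h2 : tr2 A' B' x = tr2 A' B x + tr2 A' (B' - B) x := by
    rw [← tr2_add_right]; congr 1; abel
  have h3 := tr2_nn hAA hB hx
  have h4 := tr2_nn hA' hBB hx
  linarith

lemma psd_smul {A : Matrix (Fin n) (Fin n) ℂ} (hA : A.PosSemidef) {c : ℝ} (hc : 0 ≤ c) :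
    ((c : ℂ) • A).PosSemidef := hA.smul (by exact_mod_cast hc)

lemma psd_sum {ι : Type*} (s : Finset ι) {A : ι → Matrix (Fin n) (Fin n) ℂ}
    (hA : ∀ i ∈ s, (A i).PosSemidef) : (∑ i ∈ s, A i).PosSemidef := by
  classical
  induction s using Finset.induction_on with
  | empty => simpa using PosSemidef.zero
  | insert a s ha ih =>
    rw [Finset.sum_insert ha]
    exact (hA a (Finset.mem_insert_self a s)).add
      (ih fun i hi => hA i (Finset.mem_insert_of_mem hi))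

/-- Cauchy–Schwarz -/
lemma tr1_sq_le {A x : Matrix (Fin n) (Fin n) ℂ} (hA : A.PosSemidef) (hx : x.IsHermitian) :
    tr1 A x ^ 2 ≤ n * tr2 A A x := by
  obtain ⟨C, hC, rfl⟩ := Vale.Agent.P284.H279.exC hA
  set y := C * x * C with hy
  have hyH : yᴴ = y := by
    rw [hy, Matrix.conjTranspose_mul, Matrix.conjTranspose_mul, hC.1.eq, hx.eq, Matrix.mul_assoc]
  have h1 : tr1 (C * C) x = y.trace.re := by
    unfold tr1
    rw [Matrix.mul_assoc, Matrix.trace_mul_comm, hy]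
  have h2 : tr2 (C * C) (C * C) x = (y * yᴴ).trace.re := by
    unfold tr2
    rw [hyH, hy]
    have : C * C * x * (C * C * x) = C * (C * x * C * (C * x)) := by
      simp only [Matrix.mul_assoc]
    rw [this, Matrix.trace_mul_comm]
    congr 2
    simp only [Matrix.mul_assoc]
  rw [h1, h2]
  have h3 : (y * yᴴ).trace.re = ∑ i, ∑ j, ‖y i j‖ ^ 2 := by
    rw [Matrix.trace, Complex.re_sum]
    refine Finset.sum_congr rfl fun i _ => ?_
    rw [Matrix.diag_apply, Matrix.mul_apply, Complex.re_sum]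
    refine Finset.sum_congr rfl fun j _ => ?_
    rw [Matrix.conjTranspose_apply, Complex.star_def, Complex.mul_conj, Complex.ofReal_re,
      Complex.normSq_eq_norm_sq]
  have h4 : y.trace.re ^ 2 ≤ n * ∑ i, ‖y i i‖ ^ 2 := by
    have h5 : |y.trace.re| ≤ ∑ i, ‖y i i‖ := by
      refine (Complex.abs_re_le_norm _).trans ?_
      rw [Matrix.trace]
      exact norm_sum_le _ _
    have h6 : (∑ i, ‖y i i‖) ^ 2 ≤ (Finset.univ : Finset (Fin n)).card * ∑ i, ‖y i i‖ ^ 2 :=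
      sq_sum_le_card_mul_sum_sq
    rw [Finset.card_univ, Fintype.card_fin] at h6
    calc y.trace.re ^ 2 = |y.trace.re| ^ 2 := (sq_abs _).symm
      _ ≤ (∑ i, ‖y i i‖) ^ 2 := by gcongr
      _ ≤ _ := h6
  refine h4.trans ?_
  rw [h3]
  gcongr with i _
  exact Finset.single_le_sum (f := fun j => ‖y i j‖ ^ 2) (fun j _ => by positivity)
    (Finset.mem_univ i)

variable {w : Matrix (Fin n) (Fin n) ℂ} {θ : Matrix (Fin n) (Fin q) ℂ} {μ : Fin q → ℝ}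
  {Q0 : Matrix (Fin n) (Fin n) ℂ} {Q : Fin q → Matrix (Fin n) (Fin n) ℂ}

/-- `Σ s_i Q_i` is positive semidefinite -/
lemma Fr.psds (F : Fr w θ μ Q0 Q) {s : Fin q → ℝ} (hs : ∀ i, 0 ≤ s i) :
    (∑ i, (s i : ℂ) • Q i).PosSemidef := psd_sum _ fun i _ => psd_smul (F.psd i) (hs i)

lemma Fr.pos (F : Fr w θ μ Q0 Q) {δ : ℝ} (hδ : 0 < δ) (i : Fin q) : 0 < δ + μ i := by
  have := F.nn i
  linarith

lemma Fr.DD_nn (F : Fr w θ μ Q0 Q) {δ : ℝ} (hδ : 0 ≤ δ) : 0 ≤ DD w θ δ := by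
  rw [F.DDe δ hδ]
  exact Finset.prod_nonneg fun i _ => by have := F.nn i; linarith

lemma Fr.DD_mono (F : Fr w θ μ Q0 Q) {δ : ℝ} (hδ : 0 ≤ δ) : DD w θ 0 ≤ DD w θ δ := by
  rw [F.DDe δ hδ, F.DDe 0 le_rfl]
  exact Finset.prod_le_prod (fun i _ => by have := F.nn i; linarith) fun i _ => by linarith

lemma Fr.DD_pos (F : Fr w θ μ Q0 Q) {δ : ℝ} (hδ : 0 < δ) : 0 < DD w θ δ := by
  rw [F.DDe δ hδ.le]
  exact Finset.prod_pos fun i _ => F.pos hδ i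

/-- `S = (WW)⁻¹` is positive semidefinite -/
lemma Fr.psdS (F : Fr w θ μ Q0 Q) {δ : ℝ} (hδ : 0 < δ) : ((WW w θ δ)⁻¹).PosSemidef := by
  rw [F.WWi δ hδ]
  exact F.psd0.add (F.psds fun i => by have := F.pos hδ i; positivity)

/-- `S ≤ w⁻¹` -/
lemma Fr.S_le (F : Fr w θ μ Q0 Q) {δ : ℝ} (hδ : 0 < δ) : (w⁻¹ - (WW w θ δ)⁻¹).PosSemidef := by
  rw [F.WWi δ hδ, F.inv]
  have : Q0 + ∑ i, Q i - (Q0 + ∑ i, ((δ / (δ + μ i) : ℝ) : ℂ) • Q i) =
      ∑ i, ((1 - δ / (δ + μ i) : ℝ) : ℂ) • Q i := by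
    rw [add_sub_add_left_eq_sub, ← Finset.sum_sub_distrib]
    refine Finset.sum_congr rfl fun i _ => ?_
    push_cast
    rw [sub_smul, one_smul]
  rw [this]
  refine F.psds fun i => ?_
  have h1 := F.pos hδ i
  have h2 := F.nn i
  rw [sub_nonneg, div_le_one h1]
  linarith

/-- `Q0 ≤ S` -/
lemma Fr.Q0_le (F : Fr w θ μ Q0 Q) {δ : ℝ} (hδ : 0 < δ) : ((WW w θ δ)⁻¹ - Q0).PosSemidef := by
  rw [F.WWi δ hδ, add_sub_cancel_left]
  exact F.psds fun i => by have := F.pos hδ i; positivity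

lemma Fr.psdAA (F : Fr w θ μ Q0 Q) {δ : ℝ} (hδ : 0 ≤ δ) : (AA w θ δ).PosSemidef := by
  rcases hδ.eq_or_lt with rfl | hδ
  · rw [F.AA0]; exact psd_smul F.psd0 (F.DD_nn le_rfl)
  · rw [F.AAp δ hδ]; exact psd_smul (F.psdS hδ) (F.DD_nn hδ.le)

lemma Fr.winv (F : Fr w θ μ Q0 Q) : (w⁻¹).PosSemidef := by
  rw [F.inv]; exact F.psd0.add (psd_sum _ fun i _ => F.psd i)

/-- `AA = DD • S` with `0 ≤ S ≤ w⁻¹`, for all `δ ≥ 0` -/
lemma Fr.AAeq (F : Fr w θ μ Q0 Q) {δ : ℝ} (hδ : 0 ≤ δ) :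
    ∃ S : Matrix (Fin n) (Fin n) ℂ, S.PosSemidef ∧ (w⁻¹ - S).PosSemidef ∧
      AA w θ δ = (DD w θ δ : ℂ) • S := by
  rcases hδ.eq_or_lt with rfl | hδ
  · refine ⟨Q0, F.psd0, ?_, F.AA0⟩
    rw [F.inv, add_sub_cancel_left]
    exact psd_sum _ fun i _ => F.psd i
  · exact ⟨_, F.psdS hδ, F.S_le hδ, F.AAp δ hδ⟩

/-- field `tr_nonneg` -/
theorem tr_nonneg (w : Matrix (Fin n) (Fin n) ℂ) (θ : Matrix (Fin n) (Fin q) ℂ) (δ : ℝ)
    (x : Matrix (Fin n) (Fin n) ℂ) (hw : w.PosDef) (hδ : 0 ≤ δ) (hx : x.IsHermitian) :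
    0 ≤ tr2 (AA w θ δ) w⁻¹ x ∧ 0 ≤ tr2 (AA w θ δ) (AA w θ δ) x ∧
    tr2 (AA w θ δ) (AA w θ δ) x ≤ DD w θ δ ^ 2 * tr2 w⁻¹ w⁻¹ x ∧
    tr2 (AA w θ δ) w⁻¹ x ≤ DD w θ δ * tr2 w⁻¹ w⁻¹ x ∧
    tr1 (AA w θ δ) x ^ 2 ≤ n * tr2 (AA w θ δ) (AA w θ δ) x := by
  obtain ⟨μ, Q0, Q, F⟩ := frame2 hw θ
  obtain ⟨S, hS, hSw, hA⟩ := F.AAeq hδ
  have hD := F.DD_nn hδ
  have h1 := F.psdAA hδ
  refine ⟨tr2_nn h1 F.winv hx, tr2_nn h1 h1 hx, ?_, ?_, tr1_sq_le h1 hx⟩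
  · rw [hA, tr2_smul_left, tr2_smul_right, ← mul_assoc, ← sq]
    exact mul_le_mul_of_nonneg_left (tr2_mono hS F.winv hSw hSw hx) (by positivity)
  · rw [hA, tr2_smul_left]
    refine mul_le_mul_of_nonneg_left (tr2_mono F.winv F.winv hSw ?_ hx) hD
    rw [sub_self]; exact PosSemidef.zero

/-- field `tr_zero` -/
theorem tr_zero (w : Matrix (Fin n) (Fin n) ℂ) (θ : Matrix (Fin n) (Fin q) ℂ) (δ : ℝ)
    (x : Matrix (Fin n) (Fin n) ℂ) (hw : w.PosDef) (hδ : 0 < δ) (hx : x.IsHermitian) :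
    tr1 (AA w θ 0) x ^ 2 ≤ n * (DD w θ 0 * DD w θ δ * tr2 (WW w θ δ)⁻¹ (WW w θ δ)⁻¹ x) := by
  obtain ⟨μ, Q0, Q, F⟩ := frame2 hw θ
  have h1 := tr1_sq_le (F.psdAA le_rfl) hx
  refine h1.trans ?_
  have hD0 := F.DD_nn le_rfl
  have hDD := F.DD_mono hδ.le
  rw [F.AA0, tr2_smul_left, tr2_smul_right, ← mul_assoc]
  have h2 : tr2 Q0 Q0 x ≤ tr2 (WW w θ δ)⁻¹ (WW w θ δ)⁻¹ x :=
    tr2_mono F.psd0 (F.psdS hδ) (F.Q0_le hδ) (F.Q0_le hδ) hx
  have h3 : 0 ≤ tr2 Q0 Q0 x := tr2_nn F.psd0 F.psd0 hx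
  have h4 : 0 ≤ tr2 (WW w θ δ)⁻¹ (WW w θ δ)⁻¹ x := h3.trans h2
  have h5 : DD w θ 0 * DD w θ 0 * tr2 Q0 Q0 x ≤
      DD w θ 0 * DD w θ δ * tr2 (WW w θ δ)⁻¹ (WW w θ δ)⁻¹ x :=
    mul_le_mul (mul_le_mul_of_nonneg_left hDD hD0) h2 h3 (mul_nonneg hD0 (hD0.trans hDD))
  have h6 := mul_le_mul_of_nonneg_left h5 (Nat.cast_nonneg (α := ℝ) n)
  refine le_trans (le_of_eq ?_) h6
  ring

/-- field `main` -/
theorem main (q : ℕ) (Λ : ℝ) (hq : 0 < q) : ∃ c : ℝ, 0 < c ∧ ∀ {n : ℕ}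
    (w : Matrix (Fin n) (Fin n) ℂ) (θ : Matrix (Fin n) (Fin q) ℂ) (δ : ℝ)
    (x : Matrix (Fin n) (Fin n) ℂ), w.PosDef → 0 < δ → δ ≤ 1 → x.IsHermitian →
    ((Λ : ℂ) • (1 : Matrix (Fin q) (Fin q) ℂ) - θᴴ * w⁻¹ * θ).PosSemidef →
    c * δ * tr2 (AA w θ 0) w⁻¹ x + tr2 (AA w θ 0) (AA w θ 0) x / DD w θ 0 ≤
      DD w θ δ * tr2 (WW w θ δ)⁻¹ (WW w θ δ)⁻¹ x := by
  set M : ℝ := q * |Λ| + 1 with hM
  have hMp : 0 < M := by positivity
  refine ⟨1 / (1 + M), by positivity, fun {n} w θ δ x hw hδ hδ1 hx hΛ => ?_⟩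
  obtain ⟨μ, Q0, Q, F⟩ := frame2 hw θ
  -- `μ i ≤ M`
  have hμM : ∀ i, μ i ≤ M := by
    intro i
    have h1 := (hΛ.trace_nonneg)
    rw [Matrix.trace_sub, Matrix.trace_smul, Matrix.trace_one, Fintype.card_fin, F.tr] at h1
    have h2 := (Complex.le_def.mp h1).1
    simp only [Complex.zero_re, Complex.sub_re, smul_eq_mul, Complex.ofReal_re] at h2
    have h3 : ((Λ : ℂ) * (q : ℂ)).re = Λ * q := by
      rw [Complex.re_ofReal_mul]; simp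
    rw [h3] at h2
    have h4 : μ i ≤ ∑ i, μ i := Finset.single_le_sum (fun j _ => F.nn j) (Finset.mem_univ i)
    have h5 : Λ * q ≤ |Λ| * q := by
      have := le_abs_self Λ
      have hq0 : (0 : ℝ) ≤ q := by positivity
      nlinarith
    rw [hM]
    linarith
  have hD0 := F.DD_nn (δ := 0) le_rfl
  have hS := F.psdS hδ
  have hSS : 0 ≤ tr2 (WW w θ δ)⁻¹ (WW w θ δ)⁻¹ x := tr2_nn hS hS hx
  rcases hD0.eq_or_lt with h0 | h0
  · -- `D_0 = 0`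
    rw [F.AA0, ← h0]
    simp only [Complex.ofReal_zero, zero_smul, tr2_zero_left, mul_zero, zero_div, add_zero]
    exact mul_nonneg (F.DD_nn hδ.le) hSS
  · set a := tr2 Q0 Q0 x with ha
    set b : Fin q → ℝ := fun i => tr2 Q0 (Q i) x with hb
    have ha0 : 0 ≤ a := tr2_nn F.psd0 F.psd0 hx
    have hb0 : ∀ i, 0 ≤ b i := fun i => tr2_nn F.psd0 (F.psd i) hx
    -- left hand side
    have hL : 1 / (1 + M) * δ * tr2 (AA w θ 0) w⁻¹ x + tr2 (AA w θ 0) (AA w θ 0) x / DD w θ 0 =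
        DD w θ 0 * (1 / (1 + M) * δ * (a + ∑ i, b i) + a) := by
      rw [F.AA0, tr2_smul_left, tr2_smul_left, tr2_smul_right, F.inv, tr2_add_right,
        tr2_sum_right]
      field_simp
      rfl
    -- right hand side
    have hR : DD w θ δ * (a + ∑ i, 2 * (δ / (δ + μ i)) * b i) ≤
        DD w θ δ * tr2 (WW w θ δ)⁻¹ (WW w θ δ)⁻¹ x := by
      refine mul_le_mul_of_nonneg_left ?_ (F.DD_nn hδ.le)
      rw [F.WWi δ hδ, tr2_add_left, tr2_add_right, tr2_add_right]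
      set S := ∑ i, ((δ / (δ + μ i) : ℝ) : ℂ) • Q i with hSdef
      have hSp : S.PosSemidef := F.psds fun i => by have := F.pos hδ i; positivity
      have h1 : tr2 Q0 S x = ∑ i, (δ / (δ + μ i)) * b i := by
        rw [hSdef, tr2_sum_right]
        exact Finset.sum_congr rfl fun i _ => tr2_smul_right _ _ _ _
      have h2 : tr2 S Q0 x = ∑ i, (δ / (δ + μ i)) * b i := by rw [tr2_comm, h1]
      have h3 := tr2_nn hSp hSp hx
      rw [h1, h2]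
      have h4 : ∑ i, 2 * (δ / (δ + μ i)) * b i =
          ∑ i, (δ / (δ + μ i)) * b i + ∑ i, (δ / (δ + μ i)) * b i := by
        rw [← Finset.sum_add_distrib]
        exact Finset.sum_congr rfl fun i _ => by ring
      rw [h4]
      linarith
    refine le_trans ?_ hR
    rw [hL]
    -- `D_δ ≥ D_0 (1 + δ / M)`
    have hDδ : DD w θ 0 * (1 + 1 / (1 + M) * δ) ≤ DD w θ δ := by
      rw [F.DDe δ hδ.le, F.DDe 0 le_rfl]
      have hi : (⟨0, hq⟩ : Fin q) ∈ Finset.univ := Finset.mem_univ _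
      rw [← Finset.mul_prod_erase Finset.univ (fun i => δ + μ i) hi,
        ← Finset.mul_prod_erase Finset.univ (fun i => 0 + μ i) hi]
      have h1 : ∏ i ∈ Finset.univ.erase (⟨0, hq⟩ : Fin q), (0 + μ i) ≤
          ∏ i ∈ Finset.univ.erase (⟨0, hq⟩ : Fin q), (δ + μ i) :=
        Finset.prod_le_prod (fun i _ => by have := F.nn i; linarith) fun i _ => by linarith
      have h2 : 0 ≤ ∏ i ∈ Finset.univ.erase (⟨0, hq⟩ : Fin q), (0 + μ i) :=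
        Finset.prod_nonneg fun i _ => by have := F.nn i; linarith
      set m0 := μ ⟨0, hq⟩ with hm0
      have h3 : 0 ≤ m0 := F.nn _
      have h4 : m0 ≤ M := hμM _
      have h5 : (0 + m0) * (1 + 1 / (1 + M) * δ) ≤ δ + m0 := by
        have : m0 * (1 / (1 + M) * δ) ≤ 1 * δ := by
          rw [← mul_assoc]
          gcongr
          rw [mul_one_div, div_le_one (by positivity)]
          linarith
        nlinarith
      calc (0 + m0) * (∏ i ∈ Finset.univ.erase (⟨0, hq⟩ : Fin q), (0 + μ i)) *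
            (1 + 1 / (1 + M) * δ)
          = ((0 + m0) * (1 + 1 / (1 + M) * δ)) *
            ∏ i ∈ Finset.univ.erase (⟨0, hq⟩ : Fin q), (0 + μ i) := by ring
        _ ≤ (δ + m0) * ∏ i ∈ Finset.univ.erase (⟨0, hq⟩ : Fin q), (δ + μ i) := by
            gcongr
    have hsi : ∀ i, 1 / (1 + M) * δ * b i ≤ 2 * (δ / (δ + μ i)) * b i := by
      intro i
      have h1 := F.pos hδ i
      have h2 : 1 / (1 + M) * δ ≤ 2 * (δ / (δ + μ i)) := by
        have h3 : δ + μ i ≤ 1 + M := by linarith [hμM i]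
        have h4 : 1 / (1 + M) * δ ≤ δ / (δ + μ i) := by
          rw [one_div, inv_mul_eq_div]
          gcongr
        have h5 : 0 ≤ δ / (δ + μ i) := by positivity
        linarith
      exact mul_le_mul_of_nonneg_right h2 (hb0 i)
    have hsum : 1 / (1 + M) * δ * ∑ i, b i ≤ ∑ i, 2 * (δ / (δ + μ i)) * b i := by
      rw [Finset.mul_sum]
      exact Finset.sum_le_sum fun i _ => hsi i
    have hS0 : 0 ≤ ∑ i, 2 * (δ / (δ + μ i)) * b i := Finset.sum_nonneg fun i _ => by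
      have := F.pos hδ i
      have := hb0 i
      positivity
    have hmono := F.DD_mono hδ.le
    clear_value a b
    have e1 : DD w θ 0 * (1 + 1 / (1 + M) * δ) * a ≤ DD w θ δ * a :=
      mul_le_mul_of_nonneg_right hDδ ha0
    have e2 : DD w θ 0 * (1 / (1 + M) * δ * ∑ i, b i) ≤
        DD w θ δ * ∑ i, 2 * (δ / (δ + μ i)) * b i :=
      (mul_le_mul_of_nonneg_left hsum hD0).trans (mul_le_mul_of_nonneg_right hmono hS0)
    have e3 : DD w θ 0 * (1 / (1 + M) * δ * (a + ∑ i, b i) + a)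
        = DD w θ 0 * (1 + 1 / (1 + M) * δ) * a + DD w θ 0 * (1 / (1 + M) * δ * ∑ i, b i) := by
      ring
    rw [e3, mul_add (DD w θ δ)]
    exact add_le_add e1 e2

/-- field `herm` -/
theorem herm (w : Matrix (Fin n) (Fin n) ℂ) (θ : Matrix (Fin n) (Fin q) ℂ) (δ : ℝ) (hw : w.PosDef)
    (hδ : 0 ≤ δ) : (AA w θ δ).PosSemidef := by
  obtain ⟨μ, Q0, Q, F⟩ := frame2 hw θ
  exact F.psdAA hδ

/-- field `zero` -/
theorem zero (w : Matrix (Fin n) (Fin n) ℂ) (θ : Matrix (Fin n) (Fin q) ℂ) (hw : w.PosDef)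
    (h : DD w θ 0 = 0) : AA w θ 0 = 0 := by
  obtain ⟨μ, Q0, Q, F⟩ := frame2 hw θ
  rw [F.AA0, h]; simp

/-- field `inv_WW` -/
theorem inv_WW (w : Matrix (Fin n) (Fin n) ℂ) (θ : Matrix (Fin n) (Fin q) ℂ) (δ : ℝ)
    (hw : w.PosDef) (hδ : 0 < δ) : AA w θ δ = (DD w θ δ : ℂ) • (WW w θ δ)⁻¹ := by
  obtain ⟨μ, Q0, Q, F⟩ := frame2 hw θ
  exact F.AAp δ hδ

/-- field `DD_nonneg` -/
theorem DD_nonneg (w : Matrix (Fin n) (Fin n) ℂ) (θ : Matrix (Fin n) (Fin q) ℂ) (δ : ℝ)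
    (hw : w.PosDef) (hδ : 0 ≤ δ) :
    0 ≤ DD w θ 0 ∧ DD w θ 0 ≤ DD w θ δ ∧ (0 < δ → 0 < DD w θ δ) := by
  obtain ⟨μ, Q0, Q, F⟩ := frame2 hw θ
  exact ⟨F.DD_nn le_rfl, F.DD_mono hδ, fun h => F.DD_pos h⟩

/-- field `DD_pos` -/
theorem DD_pos (w : Matrix (Fin n) (Fin n) ℂ) (θ : Matrix (Fin n) (Fin q) ℂ) (hw : w.PosDef)
    (hθ : Function.Injective θ.mulVec) : 0 < DD w θ 0 := by
  have h1 : (θᴴ * w⁻¹ * θ).PosDef := by
    have := hw.inv.conjTranspose_mul_mul_same (B := θ) hθ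
    exact this
  have h2 := h1.det_pos
  have h3 : DD w θ 0 = (θᴴ * w⁻¹ * θ).det.re := by simp [DD, TT]
  rw [h3]
  exact (Complex.lt_def.mp h2).1

/-- field `det_WW` -/
theorem det_WW (w : Matrix (Fin n) (Fin n) ℂ) (θ : Matrix (Fin n) (Fin q) ℂ) (δ : ℝ)
    (hw : w.PosDef) (hδ : 0 < δ) :
    (WW w θ δ).PosDef ∧ (WW w θ δ).det.re = (δ ^ q)⁻¹ * DD w θ δ * w.det.re := by
  refine ⟨Vale.Agent.P284.H279.pd_wt hw θ (by positivity : 0 ≤ δ⁻¹), ?_⟩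
  obtain ⟨μ, Q0, Q, F⟩ := frame2 hw θ
  have h1 : (WW w θ δ).det = w.det * (1 + ((δ⁻¹ : ℝ) : ℂ) • Vale.Agent.P284.H279.TT w θ).det :=
    Vale.Agent.P284.H279.det_wt hw θ δ⁻¹
  have hδc : (δ : ℂ) ≠ 0 := by exact_mod_cast hδ.ne'
  have h2 : TT w θ δ = (δ : ℂ) • (1 + ((δ⁻¹ : ℝ) : ℂ) • Vale.Agent.P284.H279.TT w θ) := by
    rw [smul_add, smul_smul, Complex.ofReal_inv, mul_inv_cancel₀ hδc, one_smul]
    rfl
  have h3 : (TT w θ δ).det =
      (δ : ℂ) ^ q * (1 + ((δ⁻¹ : ℝ) : ℂ) • Vale.Agent.P284.H279.TT w θ).det := by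
    rw [h2, Matrix.det_smul, Fintype.card_fin]
  have h4 : (TT w θ δ).det = ((DD w θ δ : ℝ) : ℂ) := by rw [F.dete δ hδ.le, F.DDe δ hδ.le]
  have h5 : (WW w θ δ).det = (((δ ^ q)⁻¹ * DD w θ δ : ℝ) : ℂ) * w.det := by
    rw [h1]
    have : (1 + ((δ⁻¹ : ℝ) : ℂ) • Vale.Agent.P284.H279.TT w θ).det =
        ((δ : ℂ) ^ q)⁻¹ * ((DD w θ δ : ℝ) : ℂ) := by
      rw [← h4, h3, ← mul_assoc, inv_mul_cancel₀ (pow_ne_zero q hδc), one_mul]
    rw [this]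
    push_cast
    ring
  rw [h5, Complex.re_ofReal_mul]

end Vale.Agent.P284.H451.A2
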