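import Vale.Agent.P284.H451.K1bB

/-!
# P284 (helper451), theorem K: `K1bStmt`
-/

namespace Vale.Agent.P284.H451.K1

open Vale.Agent.P284.H608.K

theorem k1bStmt : K1bStmt where
  wadj _ _ _ hw c τ D := wadj hw c τ D
  cliff _ _ _ hw μ η := cliff hw μ η
  Adw _ _ hp _ hw η := Adw hp hw η
  vmono _ _ _ _ hw hh A := vmono hw hh A
  dec _ _ _ hh B D hD := dec hh B D hD

end Vale.Agent.P284.H451.K1
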