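import Vale.Agent.P272.K.INT.Global
import Mathlib.Analysis.Calculus.InverseFunctionTheorem.FDeriv

/-!
# P284 (helper451), COUNT: the area inequality on a compact complex manifold
-/

open scoped Manifold ContDiff Topology ComplexOrder ENNReal
open Filter Set Metric MeasureTheory

noncomputable section

namespace Vale.Agent.P284.H451

open Vale.Agent.P272.K Vale.Agent.P272.K.INT

lemma det_real {n : ℕ} (A : Cm n →L[ℂ] Cm n) :
    (A.restrictScalars ℝ : Cm n →L[ℝ] Cm n).det = ‖A.det‖ ^ 2 := by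
  have h2 : (A.restrictScalars ℝ : Cm n →L[ℝ] Cm n).det =
      LinearMap.det ((A : Cm n →ₗ[ℂ] Cm n).restrictScalars ℝ) := rfl
  rw [h2, LinearMap.det_restrictScalars, Algebra.norm_complex_apply, Complex.normSq_eq_norm_sq]

section
variable {n : ℕ}

/-- change of variables for an injective holomorphic map -/
lemma lint_image {T : Set (Cm n)} (hT : MeasurableSet T) {f : Cm n → Cm n}
    (hf : ∀ z ∈ T, DifferentiableAt ℂ f z) (hi : InjOn f T) (g : Cm n → ℝ≥0∞) :
    ∫⁻ y in f '' T, g y = ∫⁻ z in T, ‖(fderiv ℂ f z).det‖ₑ ^ 2 * g (f z) := by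
  rw [lintegral_image_eq_lintegral_abs_det_fderiv_mul volume hT
    (f' := fun z => (fderiv ℂ f z).restrictScalars ℝ)
    (fun z hz => ((hf z hz).hasFDerivAt.restrictScalars ℝ).hasFDerivWithinAt) hi]
  refine setLIntegral_congr_fun hT fun z _ => ?_
  rw [det_real, abs_of_nonneg (by positivity), ENNReal.ofReal_pow (norm_nonneg _),
    ofReal_norm_eq_enorm]

lemma measurable_image_holo {T : Set (Cm n)} (hT : MeasurableSet T) {f : Cm n → Cm n}
    (hf : ∀ z ∈ T, DifferentiableAt ℂ f z) (hi : InjOn f T) : MeasurableSet (f '' T) :=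
  hT.image_of_continuousOn_injOn (fun z hz => (hf z hz).continuousAt.continuousWithinAt) hi

end

section
variable {n : ℕ} {Z : Type*} [TopologicalSpace Z] [ChartedSpace (Cm n) Z]

/-- extended real densities -/
structure IsEDens (D : Chart n Z → Cm n → ℝ≥0∞) : Prop where
  meas : ∀ e ∈ atlas (Cm n) Z, AEMeasurable (D e) (volume.restrict e.target)
  change : ∀ e e' x, At e x → At e' x → D e (e x) = D e' (e' x) * ‖(jacM e e' x).det‖ₑ ^ 2

variable [IsManifold 𝓘(ℂ, Cm n) ω Z]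

/-- change of charts -/
lemma lchange {D : Chart n Z → Cm n → ℝ≥0∞} (hD : IsEDens D) {e e' : Chart n Z}
    (he : e ∈ atlas (Cm n) Z) (he' : e' ∈ atlas (Cm n) Z) {T : Set (Cm n)} (hT : MeasurableSet T)
    (hTs : T ⊆ e.target) {φ : Z → ℝ≥0∞} (hφ : ∀ x, x ∉ e'.source → φ x = 0) :
    MeasurableSet {z | z ∈ e'.target ∧ e'.symm z ∈ e.symm '' T} ∧
    ∫⁻ y in T, φ (e.symm y) * D e y =
      ∫⁻ z in {z | z ∈ e'.target ∧ e'.symm z ∈ e.symm '' T}, φ (e'.symm z) * D e' z := by
  set T' : Set (Cm n) := T ∩ (e.target ∩ e.symm ⁻¹' e'.source) with hT'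
  have ho : IsOpen (e.target ∩ e.symm ⁻¹' e'.source) :=
    e.continuousOn_symm.isOpen_inter_preimage e.open_target e'.open_source
  have hT'm : MeasurableSet T' := hT.inter ho.measurableSet
  have hd : ∀ z ∈ T', DifferentiableAt ℂ (fun z => e' (e.symm z)) z := by
    intro z hz
    have hx : At e (e.symm z) := ⟨he, e.map_target hz.2.1⟩
    have hx' : At e' (e.symm z) := ⟨he', hz.2.2⟩
    have h := transition_contDiffAt hx hx'
    rw [e.right_inv hz.2.1] at h
    exact h.differentiableAt (by simp)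
  have hi : InjOn (fun z => e' (e.symm z)) T' := by
    intro a ha b hb hab
    have h1 : e.symm a = e.symm b := e'.injOn ha.2.2 hb.2.2 hab
    rw [← e.right_inv ha.2.1, ← e.right_inv hb.2.1, h1]
  have himg : (fun z => e' (e.symm z)) '' T' =
      {z | z ∈ e'.target ∧ e'.symm z ∈ e.symm '' T} := by
    ext z
    constructor
    · rintro ⟨y, hy, rfl⟩
      refine ⟨e'.map_source hy.2.2, y, hy.1, ?_⟩
      show e.symm y = e'.symm (e' (e.symm y))
      rw [e'.left_inv hy.2.2]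
    · rintro ⟨hz, y, hy, hyz⟩
      have h1 : e.symm y ∈ e'.source := by rw [hyz]; exact e'.map_target hz
      refine ⟨y, ⟨hy, hTs hy, h1⟩, ?_⟩
      show e' (e.symm y) = z
      rw [hyz, e'.right_inv hz]
  refine ⟨himg ▸ measurable_image_holo hT'm hd hi, ?_⟩
  have e1 : ∫⁻ y in T, φ (e.symm y) * D e y = ∫⁻ y in T', φ (e.symm y) * D e y := by
    rw [← lintegral_inter_add_sdiff (fun y => φ (e.symm y) * D e y) T ho.measurableSet]
    have : ∫⁻ y in T \ (e.target ∩ e.symm ⁻¹' e'.source), φ (e.symm y) * D e y = 0 := by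
      rw [setLIntegral_congr_fun (g := fun _ => 0) (hT.diff ho.measurableSet) fun y hy => ?_,
        lintegral_zero]
      have h1 : e.symm y ∉ e'.source := fun h => hy.2 ⟨hTs hy.1, h⟩
      simp only [hφ _ h1, zero_mul]
    rw [this, add_zero]
  rw [e1, ← himg, lint_image hT'm hd hi]
  refine setLIntegral_congr_fun hT'm fun z hz => ?_
  have hx : At e (e.symm z) := ⟨he, e.map_target hz.2.1⟩
  have hx' : At e' (e.symm z) := ⟨he', hz.2.2⟩
  have hch := hD.change e e' (e.symm z) hx hx'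
  rw [e.right_inv hz.2.1] at hch
  have hj : ‖(fderiv ℂ (fun z => e' (e.symm z)) z).det‖ₑ ^ 2 =
      ‖(jacM e e' (e.symm z)).det‖ₑ ^ 2 := by
    have h1 := det_trans hx hx'
    rw [e.right_inv hz.2.1] at h1
    have h2 : fderiv ℝ (fun z => e' (e.symm z)) z =
        (fderiv ℂ (fun z => e' (e.symm z)) z).restrictScalars ℝ :=
      ((hd z hz).hasFDerivAt.restrictScalars ℝ).fderiv
    rw [h2, det_real] at h1
    rw [← ofReal_norm_eq_enorm, ← ofReal_norm_eq_enorm, ← ENNReal.ofReal_pow (norm_nonneg _),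
      ← ENNReal.ofReal_pow (norm_nonneg _), h1]
  have hl : e'.symm (e' (e.symm z)) = e.symm z := e'.left_inv hz.2.2
  rw [hj, hl, hch]
  ring

lemma tsum_ind_le {κ : Type*} (M : κ → Prop) [DecidablePred M] {N₀ : ℕ}
    (h : {k | M k}.encard ≤ N₀) : ∑' k, (if M k then (1 : ℝ≥0∞) else 0) ≤ N₀ := by
  have h1 : ∑' k, (if M k then (1 : ℝ≥0∞) else 0) = ∑' _ : {k | M k}, (1 : ℝ≥0∞) := by
    rw [tsum_subtype {k | M k} (fun _ => (1 : ℝ≥0∞))]
    refine tsum_congr fun k => ?_
    simp [indicator_apply]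
  rw [h1, ENNReal.tsum_set_one]
  exact_mod_cast h

variable [T2Space Z] [CompactSpace Z]

/-- total mass -/
def massX (D : Chart n Z → Cm n → ℝ≥0∞) : ℝ≥0∞ :=
  ∑ i, ∫⁻ z in ((part n Z).e i).target,
    ENNReal.ofReal ((part n Z).ρ i (((part n Z).e i).symm z)) * D ((part n Z).e i) z

/-- area inequality for injective pieces -/
theorem area_inj {D : Chart n Z → Cm n → ℝ≥0∞} (hD : IsEDens D) {κ : Type*} [Countable κ]
    {e : κ → Chart n Z} (he : ∀ k, e k ∈ atlas (Cm n) Z) {A : κ → Set (Cm n)}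
    (hA : ∀ k, MeasurableSet (A k)) {f : κ → Cm n → Cm n}
    (hf : ∀ k, ∀ z ∈ A k, DifferentiableAt ℂ (f k) z) (hi : ∀ k, InjOn (f k) (A k))
    (hm : ∀ k, MapsTo (f k) (A k) (e k).target) {N₀ : ℕ}
    (hN : ∀ x : Z, {k | x ∈ (fun z => (e k).symm (f k z)) '' A k}.encard ≤ N₀) :
    ∑' k, ∫⁻ z in A k, ‖(fderiv ℂ (f k) z).det‖ₑ ^ 2 * D (e k) (f k z) ≤ N₀ * massX D := by
  classical
  set P := part n Z with hP
  set M : κ → Fin P.N → Set (Cm n) := fun k i =>
    {z | z ∈ (P.e i).target ∧ (P.e i).symm z ∈ (e k).symm '' (f k '' A k)} with hM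
  have hSm : ∀ k, MeasurableSet (f k '' A k) := fun k =>
    measurable_image_holo (hA k) (hf k) (hi k)
  have hSt : ∀ k, f k '' A k ⊆ (e k).target := fun k => (hm k).image_subset
  have hρ0 : ∀ i x, x ∉ (P.e i).source → ENNReal.ofReal (P.ρ i x) = 0 := by
    intro i x hx
    rw [image_eq_zero_of_notMem_tsupport fun h => hx (P.supp i h), ENNReal.ofReal_zero]
  have hMm : ∀ k i, MeasurableSet (M k i) := fun k i =>
    (lchange hD (he k) (P.mem i) (hSm k) (hSt k) (hρ0 i)).1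
  have hρm : ∀ (e' : Chart n Z), ∀ i, AEMeasurable (fun y => ENNReal.ofReal (P.ρ i (e'.symm y)))
      (volume.restrict e'.target) := by
    intro e' i
    refine ContinuousOn.aemeasurable ?_ e'.open_target.measurableSet
    exact (ENNReal.continuous_ofReal.comp (P.cont i)).comp_continuousOn e'.continuousOn_symm
  -- one piece
  have hone : ∀ k, ∫⁻ z in A k, ‖(fderiv ℂ (f k) z).det‖ₑ ^ 2 * D (e k) (f k z) =
      ∑ i, ∫⁻ z in (P.e i).target, (if z ∈ M k i then (1 : ℝ≥0∞) else 0) *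
        (ENNReal.ofReal (P.ρ i ((P.e i).symm z)) * D (P.e i) z) := by
    intro k
    rw [← lint_image (hA k) (hf k) (hi k)]
    have e1 : ∫⁻ y in f k '' A k, D (e k) y =
        ∫⁻ y in f k '' A k, ∑ i, ENNReal.ofReal (P.ρ i ((e k).symm y)) * D (e k) y := by
      refine lintegral_congr fun y => ?_
      rw [← Finset.sum_mul, ← ENNReal.ofReal_sum_of_nonneg fun i _ => P.nonneg i _, P.sum,
        ENNReal.ofReal_one, one_mul]
    rw [e1, lintegral_finsetSum' _ fun i _ => ?_]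
    · refine Finset.sum_congr rfl fun i _ => ?_
      rw [(lchange hD (he k) (P.mem i) (hSm k) (hSt k) (hρ0 i)).2]
      have e2 : ∀ z, (if z ∈ M k i then (1 : ℝ≥0∞) else 0) *
          (ENNReal.ofReal (P.ρ i ((P.e i).symm z)) * D (P.e i) z) =
          (M k i).indicator (fun z => ENNReal.ofReal (P.ρ i ((P.e i).symm z)) * D (P.e i) z) z := by
        intro z
        by_cases hz : z ∈ M k i
        · rw [if_pos hz, one_mul, indicator_of_mem hz]
        · rw [if_neg hz, zero_mul, indicator_of_notMem hz]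
      simp only [e2]
      rw [lintegral_indicator (hMm k i), Measure.restrict_restrict (hMm k i),
        inter_eq_left.mpr fun z hz => hz.1]
    · exact ((hρm (e k) i).mul (hD.meas _ (he k))).mono_measure
        (Measure.restrict_mono (hSt k) le_rfl)
  simp only [hone]
  rw [Summable.tsum_finsetSum (fun _ _ => ENNReal.summable), massX, Finset.mul_sum]
  refine Finset.sum_le_sum fun i _ => ?_
  have hGm : AEMeasurable (fun z => ENNReal.ofReal (P.ρ i ((P.e i).symm z)) * D (P.e i) z)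
      (volume.restrict (P.e i).target) := (hρm _ i).mul (hD.meas _ (P.mem i))
  rw [← lintegral_tsum fun k => ?_]
  · rw [← lintegral_const_mul'' _ hGm]
    refine lintegral_mono fun z => ?_
    rw [ENNReal.tsum_mul_right]
    refine mul_le_mul' ?_ le_rfl
    refine tsum_ind_le (fun k => z ∈ M k i) ((encard_le_encard ?_).trans (hN ((P.e i).symm z)))
    rintro k ⟨-, y, ⟨z', hz', rfl⟩, hy⟩
    exact ⟨z', hz', hy⟩
  · refine AEMeasurable.mul ?_ hGm
    exact (Measurable.ite (hMm k i) measurable_const measurable_const).aemeasurable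

omit [IsManifold 𝓘(ℂ, Cm n) ω Z] [T2Space Z] [CompactSpace Z] [TopologicalSpace Z]
  [ChartedSpace (Cm n) Z] in
lemma loc_inj {f : Cm n → Cm n} {z : Cm n} (hf : AnalyticAt ℂ f z)
    (hd : (fderiv ℂ f z).det ≠ 0) : ∃ V : Set (Cm n), IsOpen V ∧ z ∈ V ∧ InjOn f V := by
  set L := ContinuousLinearMap.toContinuousLinearEquivOfDetNeZero (fderiv ℂ f z) hd with hL
  have h1 : HasStrictFDerivAt f (L : Cm n →L[ℂ] Cm n) z := by
    rw [hL, ContinuousLinearMap.coe_toContinuousLinearEquivOfDetNeZero]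
    exact hf.hasStrictFDerivAt
  refine ⟨(h1.toOpenPartialHomeomorph f).source, (h1.toOpenPartialHomeomorph f).open_source,
    h1.mem_toOpenPartialHomeomorph_source, ?_⟩
  have := (h1.toOpenPartialHomeomorph f).injOn
  rwa [h1.toOpenPartialHomeomorph_coe] at this

omit [IsManifold 𝓘(ℂ, Cm n) ω Z] [T2Space Z] [CompactSpace Z] [TopologicalSpace Z]
  [ChartedSpace (Cm n) Z] in
lemma exists_inj_cover {f : Cm n → Cm n} {A : Set (Cm n)} (hf : ∀ z ∈ A, AnalyticAt ℂ f z)
    (hd : ∀ z ∈ A, (fderiv ℂ f z).det ≠ 0) :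
    ∃ U : ℕ → Set (Cm n), (∀ l, IsOpen (U l)) ∧ (∀ l, InjOn f (U l)) ∧ A ⊆ ⋃ l, U l := by
  rcases A.eq_empty_or_nonempty with rfl | hne
  · exact ⟨fun _ => ∅, fun _ => isOpen_empty, fun _ => injOn_empty _, empty_subset _⟩
  have h1 : ∀ z ∈ A, ∃ V : Set (Cm n), IsOpen V ∧ z ∈ V ∧ InjOn f V := fun z hz =>
    loc_inj (hf z hz) (hd z hz)
  choose! V hVo hzV hVi using h1
  obtain ⟨t, htA, htc, ht⟩ := TopologicalSpace.countable_cover_nhdsWithin (f := V) (s := A)
    fun z hz => mem_nhdsWithin_of_mem_nhds ((hVo z hz).mem_nhds (hzV z hz))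
  have htn : t.Nonempty := by
    obtain ⟨a, ha⟩ := hne
    obtain ⟨x, hx⟩ := mem_iUnion.mp (ht ha)
    obtain ⟨hx, -⟩ := mem_iUnion.mp hx
    exact ⟨x, hx⟩
  obtain ⟨g, hg⟩ := htc.exists_eq_range htn
  have hgA : ∀ l, g l ∈ A := fun l => htA (hg ▸ mem_range_self l)
  refine ⟨fun l => V (g l), fun l => hVo _ (hgA l), fun l => hVi _ (hgA l), fun a ha => ?_⟩
  obtain ⟨x, hx⟩ := mem_iUnion.mp (ht ha)
  obtain ⟨hx, hax⟩ := mem_iUnion.mp hx
  rw [hg] at hx
  obtain ⟨l, rfl⟩ := hx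
  exact mem_iUnion.mpr ⟨l, hax⟩

/-- **area inequality** -/
theorem area {D : Chart n Z → Cm n → ℝ≥0∞} (hD : IsEDens D) {κ : Type*} [Countable κ]
    {e : κ → Chart n Z} (he : ∀ k, e k ∈ atlas (Cm n) Z) {A : κ → Set (Cm n)}
    (hA : ∀ k, MeasurableSet (A k)) {f : κ → Cm n → Cm n}
    (hf : ∀ k, ∀ z ∈ A k, AnalyticAt ℂ (f k) z) (hd : ∀ k, ∀ z ∈ A k, (fderiv ℂ (f k) z).det ≠ 0)
    (hm : ∀ k, MapsTo (f k) (A k) (e k).target) {N₀ : ℕ}
    (hN : ∀ x : Z, {p : κ × Cm n | p.2 ∈ A p.1 ∧ (e p.1).symm (f p.1 p.2) = x}.encard ≤ N₀) :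
    ∑' k, ∫⁻ z in A k, ‖(fderiv ℂ (f k) z).det‖ₑ ^ 2 * D (e k) (f k z) ≤ N₀ * massX D := by
  have h1 := fun k => exists_inj_cover (hf k) (hd k)
  choose U hUo hUi hUA using h1
  set B : κ × ℕ → Set (Cm n) := fun c => A c.1 ∩ disjointed (U c.1) c.2 with hB
  have hBm : ∀ c, MeasurableSet (B c) := fun c =>
    (hA c.1).inter (MeasurableSet.disjointed (fun l => (hUo c.1 l).measurableSet) c.2)
  have hBU : ∀ c, B c ⊆ U c.1 c.2 := fun c => inter_subset_right.trans (disjointed_subset _ _)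
  have hBA : ∀ c, B c ⊆ A c.1 := fun c => inter_subset_left
  have hdis : ∀ k, Pairwise (Function.onFun Disjoint fun l => B (k, l)) := by
    intro k l l' hll
    exact ((disjoint_disjointed (U k)) hll).mono inter_subset_right inter_subset_right
  have hun : ∀ k, A k = ⋃ l, B (k, l) := by
    intro k
    rw [hB]
    simp only
    rw [← inter_iUnion, iUnion_disjointed, inter_eq_left.mpr (hUA k)]
  have h2 := area_inj hD (κ := κ × ℕ) (e := fun c => e c.1) (fun c => he c.1) hBm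
    (f := fun c => f c.1) (fun c z hz => (hf c.1 z (hBA c hz)).differentiableAt)
    (fun c => (hUi c.1 c.2).mono (hBU c)) (fun c z hz => hm c.1 (hBA c hz)) (N₀ := N₀) ?_
  · refine le_trans (le_of_eq ?_) h2
    refine Eq.trans ?_ (ENNReal.tsum_prod (f := fun k l => ∫⁻ z in B (k, l),
      ‖(fderiv ℂ (f k) z).det‖ₑ ^ 2 * D (e k) (f k z))).symm
    refine tsum_congr fun k => ?_
    conv_lhs => rw [hun k]
    exact lintegral_iUnion (fun l => hBm (k, l)) (hdis k) _
  · intro x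
    refine le_trans ?_ (hN x)
    have h3 : ∀ c : κ × ℕ, x ∈ (fun z => (e c.1).symm (f c.1 z)) '' B c →
        ∃ z, z ∈ B c ∧ (e c.1).symm (f c.1 z) = x := fun c hc => hc
    choose! g hg1 hg2 using h3
    refine encard_le_encard_of_injOn (f := fun c => (c.1, g c)) ?_ ?_
    · intro c hc
      exact ⟨hBA c (hg1 c hc), hg2 c hc⟩
    · rintro ⟨k, l⟩ hc ⟨k', l'⟩ hc' hcc
      simp only [Prod.mk.injEq] at hcc
      obtain ⟨rfl, hgg⟩ := hcc
      have h4 := hg1 _ hc
      have h5 := hg1 _ hc'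
      rw [← hgg] at h5
      by_contra hne
      have hll : l ≠ l' := fun h => hne (by rw [h])
      exact (Set.disjoint_left.mp (hdis k hll)) h4 h5

end

end Vale.Agent.P284.H451
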