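import Mathlib.Analysis.Calculus.BumpFunction.Normed
import Mathlib.Analysis.Calculus.BumpFunction.FiniteDimension
import Mathlib.Analysis.SpecialFunctions.Log.Deriv
import Mathlib.MeasureTheory.Integral.IntervalIntegral.FundThmCalculus
import Mathlib.MeasureTheory.Measure.Lebesgue.EqHaar

/-!
# P284 (helper451), COUNT: cut-off profiles
-/

open Filter Set Metric MeasureTheory Topology
open scoped ContDiff

noncomputable section

namespace Vale.Agent.P284.H451

/-- profile functions: `K'' = k' = b ≥ 0` -/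
structure Prof (K k b : ℝ → ℝ) (c : ℝ) : Prop where
  sK : ContDiff ℝ ∞ K
  sk : ContDiff ℝ ∞ k
  dK : ∀ s, HasDerivAt K (k s) s
  dk : ∀ s, HasDerivAt k (b s) s
  zK : ∀ s, s ≤ -2 → K s = 0
  zk : ∀ s, s ≤ -2 → k s = 0
  ok : ∀ s, -1 ≤ s → k s = 1
  nk : ∀ s, 0 ≤ k s
  lk : ∀ s, k s ≤ 1
  nb : ∀ s, 0 ≤ b s
  lb : ∀ s, b s ≤ c
  c0 : 0 < c

theorem exists_prof : ∃ (K k b : ℝ → ℝ) (c : ℝ), Prof K k b c := by
  let φ : ContDiffBump (-(3 / 2) : ℝ) := ⟨1 / 4, 1 / 2, by norm_num, by norm_num⟩
  set b : ℝ → ℝ := φ.normed volume with hb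
  have hbs : ContDiff ℝ ∞ b := φ.contDiff_normed
  have hbc : Continuous b := hbs.continuous
  have hb0 : ∀ s, 0 ≤ b s := fun s => φ.nonneg_normed s
  have hbz : ∀ s, s ≤ -2 ∨ -1 ≤ s → b s = 0 := by
    intro s hs
    have : s ∉ Function.support b := by
      rw [hb, φ.support_normed_eq, mem_ball, Real.dist_eq, not_lt]
      show 1 / 2 ≤ |s - -(3 / 2)|
      rcases hs with hs | hs
      · rw [abs_of_nonpos (by linarith)]; linarith
      · rw [abs_of_nonneg (by linarith)]; linarith
    simpa using this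
  obtain ⟨c, hc⟩ : ∃ c, ∀ s, b s ≤ c := by
    obtain ⟨c, hc⟩ := (hbc.bounded_above_of_compact_support (by
      rw [hb]; exact φ.hasCompactSupport_normed))
    exact ⟨c, fun s => (le_abs_self _).trans (by simpa using hc s)⟩
  set k : ℝ → ℝ := fun s => ∫ t in (-2 : ℝ)..s, b t with hk
  have hdk : ∀ s, HasDerivAt k (b s) s := fun s =>
    intervalIntegral.integral_hasDerivAt_right (hbc.intervalIntegrable _ _)
      hbc.stronglyMeasurable.stronglyMeasurableAtFilter hbc.continuousAt
  have hks : ContDiff ℝ ∞ k := by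
    rw [contDiff_infty_iff_deriv]
    refine ⟨fun s => (hdk s).differentiableAt, ?_⟩
    have : deriv k = b := funext fun s => (hdk s).deriv
    rw [this]; exact hbs
  have hkc : Continuous k := hks.continuous
  have hkz : ∀ s, s ≤ -2 → k s = 0 := by
    intro s hs
    rw [hk]
    simp only
    rw [intervalIntegral.integral_symm, intervalIntegral.integral_congr (g := fun _ => (0 : ℝ)),
      intervalIntegral.integral_zero, neg_zero]
    intro t ht
    rw [uIcc_of_le hs] at ht
    exact hbz t (Or.inl ht.2)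
  have hmono : Monotone k := monotone_of_deriv_nonneg (fun s => (hdk s).differentiableAt)
    fun s => by rw [(hdk s).deriv]; exact hb0 s
  have hint : ∫ t, b t = 1 := φ.integral_normed
  have hko : ∀ s, -1 ≤ s → k s = 1 := by
    intro s hs
    rw [← hint, hk]
    simp only
    rw [intervalIntegral.integral_of_le (by linarith)]
    refine setIntegral_eq_integral_of_forall_compl_eq_zero fun t ht => ?_
    refine hbz t ?_
    by_contra hcon
    push Not at hcon
    exact ht ⟨hcon.1, by linarith [hcon.2]⟩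
  have hk0 : ∀ s, 0 ≤ k s := by
    intro s
    rcases le_total s (-2) with h | h
    · rw [hkz s h]
    · rw [← hkz (-2) le_rfl]; exact hmono h
  have hk1 : ∀ s, k s ≤ 1 := by
    intro s
    rcases le_total (-1) s with h | h
    · rw [hko s h]
    · rw [← hko (-1) le_rfl]; exact hmono h
  set K : ℝ → ℝ := fun s => ∫ t in (-2 : ℝ)..s, k t with hK
  have hdK : ∀ s, HasDerivAt K (k s) s := fun s =>
    intervalIntegral.integral_hasDerivAt_right (hkc.intervalIntegrable _ _)
      hkc.stronglyMeasurable.stronglyMeasurableAtFilter hkc.continuousAt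
  have hKs : ContDiff ℝ ∞ K := by
    rw [contDiff_infty_iff_deriv]
    refine ⟨fun s => (hdK s).differentiableAt, ?_⟩
    have : deriv K = k := funext fun s => (hdK s).deriv
    rw [this]; exact hks
  have hKz : ∀ s, s ≤ -2 → K s = 0 := by
    intro s hs
    rw [hK]
    simp only
    rw [intervalIntegral.integral_symm, intervalIntegral.integral_congr (g := fun _ => (0 : ℝ)),
      intervalIntegral.integral_zero, neg_zero]
    intro t ht
    rw [uIcc_of_le hs] at ht
    exact hkz t ht.2
  refine ⟨K, k, b, |c| + 1, ⟨hKs, hks, hdK, hdk, hKz, hkz, hko, hk0, hk1, hb0, fun s =>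
    (hc s).trans (by linarith [le_abs_self c]), by positivity⟩⟩

/-- `F (log t / j)`, extended by `0` -/
def exF (F : ℝ → ℝ) (j t : ℝ) : ℝ := if t ≤ 0 then 0 else F (Real.log t / j)

lemma exF_zero {F : ℝ → ℝ} {j t : ℝ} (hj : 0 < j) (h0 : ∀ s, s ≤ -2 → F s = 0)
    (ht : t ≤ Real.exp (-(2 * j))) : exF F j t = 0 := by
  unfold exF
  split_ifs with h
  · rfl
  · apply h0
    rw [div_le_iff₀ hj]
    have := (Real.log_le_iff_le_exp (not_le.mp h)).mpr ht
    linarith

lemma exF_pos {F : ℝ → ℝ} {j t : ℝ} (ht : 0 < t) : exF F j t = F (Real.log t / j) := by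
  unfold exF
  rw [if_neg (not_le.mpr ht)]

lemma exF_smooth {F : ℝ → ℝ} (hF : ContDiff ℝ ∞ F) (h0 : ∀ s, s ≤ -2 → F s = 0) {j : ℝ}
    (hj : 0 < j) : ContDiff ℝ ∞ (exF F j) := by
  rw [contDiff_iff_contDiffAt]
  intro t
  rcases le_or_gt t 0 with ht | ht
  · have h1 : exF F j =ᶠ[𝓝 t] fun _ => 0 := by
      filter_upwards [(isOpen_Iio (a := Real.exp (-(2 * j)))).mem_nhds
        (show t < _ from lt_of_le_of_lt ht (Real.exp_pos _))] with s hs
      exact exF_zero hj h0 (le_of_lt hs)
    exact contDiffAt_const.congr_of_eventuallyEq h1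
  · have h1 : exF F j =ᶠ[𝓝 t] fun s => F (Real.log s / j) := by
      filter_upwards [(isOpen_Ioi (a := (0 : ℝ))).mem_nhds ht] with s hs
      exact exF_pos hs
    refine ContDiffAt.congr_of_eventuallyEq ?_ h1
    exact hF.contDiffAt.comp t ((Real.contDiffAt_log.mpr ht.ne').div_const j)

end Vale.Agent.P284.H451
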