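import Mathlib.Analysis.Calculus.ContDiff.Basic
import Mathlib.MeasureTheory.Integral.IntervalIntegral.FundThmCalculus
import Mathlib.MeasureTheory.Constructions.Pi
import Mathlib.MeasureTheory.Measure.Haar.OfBasis
import Mathlib.MeasureTheory.Measure.Lebesgue.EqHaar
import Mathlib.Analysis.Calculus.FDeriv.Measurable
import Mathlib.Analysis.Calculus.Deriv.Mul
import Mathlib.Order.CompletePartialOrder
import Mathlib.Data.ENat.Lattice
import Mathlib.MeasureTheory.Integral.Bochner.Basic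

/-!
# P284 (helper451), COUNT: functions with small gradient in `L¹` (energy argument, abstract part)
-/

open Filter Set Metric MeasureTheory Topology
open scoped ENNReal

noncomputable section

namespace Vale.Agent.P284.H451

variable {E : Type*} [NormedAddCommGroup E] [NormedSpace ℝ E] [FiniteDimensional ℝ E]
  [MeasurableSpace E] [BorelSpace E] (μ : Measure E) [μ.IsAddHaarMeasure]

/-- translations and the gradient -/
theorem shift_le {g : E → ℝ} {B : Set E} (hB : IsOpen B) (hc : Convex ℝ B)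
    (hg : ContDiffOn ℝ 1 g B) {D : Set E} (hD : MeasurableSet D) (hDB : D ⊆ B) {h : E}
    (hh : ∀ x ∈ D, x + h ∈ B) :
    ∫⁻ x in D, ‖g (x + h) - g x‖ₑ ∂μ ≤ ‖h‖ₑ * ∫⁻ x in B, ‖fderiv ℝ g x‖ₑ ∂μ := by
  have hfc : ContinuousOn (fderiv ℝ g) B :=
    hg.continuousOn_fderiv_of_isOpen hB le_rfl
  -- pointwise bound
  have h1 : ∀ x ∈ D, ‖g (x + h) - g x‖ₑ ≤
      ∫⁻ t in Icc (0 : ℝ) 1, ‖h‖ₑ * B.indicator (fun y => ‖fderiv ℝ g y‖ₑ) (x + t • h) := by
    intro x hx
    have hseg : ∀ t ∈ Icc (0 : ℝ) 1, x + t • h ∈ B := by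
      intro t ht
      have := hc.add_smul_sub_mem (hDB hx) (hh x hx) ht
      simpa using this
    have hder : ∀ t ∈ uIcc (0 : ℝ) 1,
        HasDerivAt (fun t : ℝ => g (x + t • h)) (fderiv ℝ g (x + t • h) h) t := by
      intro t ht
      rw [uIcc_of_le zero_le_one] at ht
      have h2 : HasFDerivAt g (fderiv ℝ g (x + t • h)) (x + t • h) :=
        ((hg.differentiableOn one_ne_zero).differentiableAt (hB.mem_nhds (hseg t ht))).hasFDerivAt
      have h3 : HasDerivAt (fun t : ℝ => x + t • h) h t := by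
        simpa using ((hasDerivAt_id' t).smul_const h).const_add x
      exact h2.comp_hasDerivAt t h3
    have hcont : ContinuousOn (fun t : ℝ => fderiv ℝ g (x + t • h) h) (uIcc (0 : ℝ) 1) := by
      have h3 : ContinuousOn (fun t : ℝ => x + t • h) (uIcc (0 : ℝ) 1) := by fun_prop
      have h4 : ContinuousOn (fun t : ℝ => fderiv ℝ g (x + t • h)) (uIcc (0 : ℝ) 1) :=
        hfc.comp h3 fun t ht => hseg t (by rwa [uIcc_of_le zero_le_one] at ht)
      exact h4.clm_apply continuousOn_const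
    have hint := intervalIntegral.integral_eq_sub_of_hasDerivAt hder hcont.intervalIntegrable
    simp only [one_smul, zero_smul, add_zero] at hint
    rw [← hint, intervalIntegral.integral_of_le zero_le_one, ← integral_Icc_eq_integral_Ioc]
    refine (enorm_integral_le_lintegral_enorm _).trans ?_
    refine setLIntegral_mono' measurableSet_Icc fun t ht => ?_
    rw [indicator_of_mem (hseg t ht), mul_comm]
    exact (fderiv ℝ g (x + t • h)).le_opENorm h
  calc ∫⁻ x in D, ‖g (x + h) - g x‖ₑ ∂μ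
      ≤ ∫⁻ x in D, (∫⁻ t in Icc (0 : ℝ) 1,
          ‖h‖ₑ * B.indicator (fun y => ‖fderiv ℝ g y‖ₑ) (x + t • h)) ∂μ :=
        setLIntegral_mono' hD h1
    _ = ∫⁻ t in Icc (0 : ℝ) 1, (∫⁻ x in D,
          ‖h‖ₑ * B.indicator (fun y => ‖fderiv ℝ g y‖ₑ) (x + t • h) ∂μ) := by
        refine lintegral_lintegral_swap ?_
        refine AEMeasurable.const_mul ?_ _
        have hm : Measurable (B.indicator fun y => ‖fderiv ℝ g y‖ₑ) :=
          (measurable_fderiv ℝ g).enorm.indicator hB.measurableSet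
        exact (hm.comp (by fun_prop : Measurable fun p : E × ℝ => p.1 + p.2 • h)).aemeasurable
    _ ≤ ∫⁻ _t in Icc (0 : ℝ) 1, ‖h‖ₑ * ∫⁻ x in B, ‖fderiv ℝ g x‖ₑ ∂μ := by
        refine lintegral_mono fun t => ?_
        rw [lintegral_const_mul' _ _ enorm_ne_top]
        refine mul_le_mul' le_rfl ?_
        calc ∫⁻ x in D, B.indicator (fun y => ‖fderiv ℝ g y‖ₑ) (x + t • h) ∂μ
            ≤ ∫⁻ x, B.indicator (fun y => ‖fderiv ℝ g y‖ₑ) (x + t • h) ∂μ :=
              setLIntegral_le_lintegral _ _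
          _ = ∫⁻ x, B.indicator (fun y => ‖fderiv ℝ g y‖ₑ) x ∂μ :=
              lintegral_add_right_eq_self (B.indicator fun y => ‖fderiv ℝ g y‖ₑ) (t • h)
          _ = _ := lintegral_indicator hB.measurableSet _
    _ = _ := by
        simp

lemma ofReal_ind_meas {B : Set E} (hB : IsOpen B) {g : E → ℝ} (hg : ContinuousOn g B) :
    Measurable (B.indicator fun x => ENNReal.ofReal (g x)) := by
  classical
  have h1 : ContinuousOn (fun x => ENNReal.ofReal (g x)) B :=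
    ENNReal.continuous_ofReal.comp_continuousOn hg
  have h2 := h1.measurable_piecewise (g := fun _ => (0 : ℝ≥0∞)) continuousOn_const
    hB.measurableSet
  exact (Set.piecewise_eq_indicator (f := fun x => ENNReal.ofReal (g x)) (s := B)) ▸ h2

/-- transfer of a lower bound from one ball to another one -/
theorem transfer {g : E → ℝ} {B : Set E} (hB : IsOpen B) (hc : Convex ℝ B)
    (hg : ContDiffOn ℝ 1 g B) {ε : ℝ≥0∞} (hε : ∫⁻ x in B, ‖fderiv ℝ g x‖ₑ ∂μ ≤ ε) {D : Set E}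
    (hD : MeasurableSet D) (hDB : D ⊆ B) {h : E} (hh : ∀ x ∈ D, x + h ∈ B) {k : ℕ}
    (hk : ∀ x ∈ D, (k : ℝ) ≤ g x) :
    (k : ℝ≥0∞) * μ D ≤ ∫⁻ x in D, ENNReal.ofReal (g (x + h)) ∂μ + ‖h‖ₑ * ε := by
  have h1 := (shift_le μ hB hc hg hD hDB hh).trans (mul_le_mul' le_rfl hε)
  have hm : Measurable fun x => B.indicator (fun x => ENNReal.ofReal (g x)) (x + h) :=
    (ofReal_ind_meas hB hg.continuousOn).comp (measurable_id.add_const h)
  have h2 : ∫⁻ x in D, ENNReal.ofReal (g (x + h)) ∂μ =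
      ∫⁻ x in D, B.indicator (fun x => ENNReal.ofReal (g x)) (x + h) ∂μ := by
    refine setLIntegral_congr_fun hD fun x hx => ?_
    rw [indicator_of_mem (hh x hx)]
  calc (k : ℝ≥0∞) * μ D = ∫⁻ _x in D, (k : ℝ≥0∞) ∂μ := by
        rw [setLIntegral_const]
    _ ≤ ∫⁻ x in D, (B.indicator (fun x => ENNReal.ofReal (g x)) (x + h) +
          ‖g (x + h) - g x‖ₑ) ∂μ := by
        refine setLIntegral_mono' hD fun x hx => ?_
        rw [indicator_of_mem (hh x hx)]
        have h3 : (k : ℝ) ≤ g (x + h) + |g (x + h) - g x| := by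
          have := hk x hx
          have := neg_abs_le (g (x + h) - g x)
          linarith
        calc (k : ℝ≥0∞) = ENNReal.ofReal (k : ℝ) := (ENNReal.ofReal_natCast k).symm
          _ ≤ ENNReal.ofReal (g (x + h) + |g (x + h) - g x|) := ENNReal.ofReal_le_ofReal h3
          _ ≤ ENNReal.ofReal (g (x + h)) + ENNReal.ofReal |g (x + h) - g x| :=
              ENNReal.ofReal_add_le
          _ = _ := by
              rw [Real.enorm_eq_ofReal_abs]
    _ = ∫⁻ x in D, B.indicator (fun x => ENNReal.ofReal (g x)) (x + h) ∂μ +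
          ∫⁻ x in D, ‖g (x + h) - g x‖ₑ ∂μ := lintegral_add_left hm _
    _ ≤ _ := by
        rw [← h2]
        gcongr

/-- **the energy argument**, abstract form -/
theorem cnt_of {b₀ : E} {r₀ : ℝ} (hr₀ : 0 < r₀) {g : ℕ → E → ℝ} {A : ℝ≥0∞} (hA : A ≠ ⊤)
    {ε : ℕ → ℝ≥0∞} (hε : Tendsto ε atTop (𝓝 0)) {cnt : E → ℕ∞}
    (hg : ∀ j, ContDiffOn ℝ 1 (g j) (ball b₀ r₀))
    (h1 : ∀ j, ∫⁻ x in ball b₀ r₀, ENNReal.ofReal (g j x) ∂μ ≤ A)
    (h2 : ∀ j, ∫⁻ x in ball b₀ r₀, ‖fderiv ℝ (g j) x‖ₑ ∂μ ≤ ε j)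
    (h3 : ∀ j, ∀ x ∈ ball b₀ r₀, ∀ k : ℕ, cnt x ≤ k → g j x ≤ k)
    (h4 : ∀ x ∈ ball b₀ r₀, ∀ k : ℕ, (k : ℕ∞) ≤ cnt x → ∃ x' ρ', 0 < ρ' ∧
      ball x' ρ' ⊆ ball b₀ r₀ ∧ ∀ᶠ j in atTop, ∀ y ∈ ball x' ρ', (k : ℝ) ≤ g j y) :
    ∃ d : ℕ, (∀ x ∈ ball b₀ r₀, cnt x ≤ d) ∧
      ball b₀ r₀ ⊆ closure {x | x ∈ ball b₀ r₀ ∧ cnt x = d} := by
  set B := ball b₀ r₀ with hB
  have hBo : IsOpen B := isOpen_ball
  have hBc : Convex ℝ B := convex_ball _ _
  set v := μ (ball b₀ (r₀ / 2)) with hv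
  have hv0 : v ≠ 0 := (measure_ball_pos μ b₀ (half_pos hr₀)).ne'
  have hvt : v ≠ ⊤ := measure_ball_lt_top.ne
  -- Step 1: boundedness
  have hbd : ∀ x ∈ B, ∀ k : ℕ, (k : ℕ∞) ≤ cnt x → (k : ℝ≥0∞) * v ≤ A := by
    intro x hx k hk
    obtain ⟨x', ρ₁, hρ₁, hρB, hj⟩ := h4 x hx k hk
    set ρ := min ρ₁ (r₀ / 2) with hρ
    have hρ0 : 0 < ρ := lt_min hρ₁ (half_pos hr₀)
    set D := ball x' ρ with hD
    have hDB : D ⊆ B := (ball_subset_ball (min_le_left _ _)).trans hρB
    have hx'B : x' ∈ B := hDB (mem_ball_self hρ0)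
    have hD0 : μ D ≠ 0 := (measure_ball_pos μ x' hρ0).ne'
    have hDt : μ D ≠ ⊤ := measure_ball_lt_top.ne
    set T : Set E := {h | x' + h ∈ ball b₀ (r₀ / 2)} with hT
    have hTm : MeasurableSet T := (measurable_const_add x') isOpen_ball.measurableSet
    have hTv : μ T = v := by
      have : T = (fun h => x' + h) ⁻¹' ball b₀ (r₀ / 2) := rfl
      rw [this, measure_preimage_add]
    have hTB : ∀ h ∈ T, ∀ y ∈ D, y + h ∈ B := by
      intro h hh y hy
      have e1 : dist (y + h) (x' + h) < r₀ / 2 := by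
        rw [dist_add_right]
        exact lt_of_lt_of_le (mem_ball.mp hy) (min_le_right _ _)
      have e2 : dist (x' + h) b₀ < r₀ / 2 := hh
      rw [hB, mem_ball]
      calc dist (y + h) b₀ ≤ dist (y + h) (x' + h) + dist (x' + h) b₀ := dist_triangle _ _ _
        _ < r₀ := by linarith
    have hTn : ∀ h ∈ T, ‖h‖ₑ ≤ ENNReal.ofReal (2 * r₀) := by
      intro h hh
      have e2 : dist (x' + h) b₀ < r₀ / 2 := hh
      have e3 : dist x' b₀ < r₀ := hx'B
      have e4 : ‖h‖ ≤ 2 * r₀ := by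
        have : h = (x' + h - b₀) - (x' - b₀) := by abel
        rw [this]
        refine (norm_sub_le _ _).trans ?_
        rw [← dist_eq_norm, ← dist_eq_norm]
        linarith
      rw [← ofReal_norm_eq_enorm]
      exact ENNReal.ofReal_le_ofReal e4
    have key : ∀ᶠ j in atTop, (k : ℝ≥0∞) * v * μ D ≤
        A * μ D + (ENNReal.ofReal (2 * r₀) * v) * ε j := by
      filter_upwards [hj] with j hj
      have hm := ofReal_ind_meas hBo (hg j).continuousOn
      set f := B.indicator (fun x => ENNReal.ofReal (g j x)) with hf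
      have e1 : ∀ h ∈ T, (k : ℝ≥0∞) * μ D ≤
          ∫⁻ x in D, f (x + h) ∂μ + ENNReal.ofReal (2 * r₀) * ε j := by
        intro h hh
        have e2 := transfer μ hBo hBc (hg j) (h2 j) (D := D) isOpen_ball.measurableSet hDB
          (h := h) (fun y hy => hTB h hh y hy) (k := k)
          (fun y hy => hj y (ball_subset_ball (min_le_left _ _) hy))
        refine e2.trans (add_le_add (le_of_eq ?_) (mul_le_mul' (hTn h hh) le_rfl))
        refine setLIntegral_congr_fun isOpen_ball.measurableSet fun y hy => ?_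
        simp only [hf]
        rw [indicator_of_mem (hTB h hh y hy)]
      calc (k : ℝ≥0∞) * v * μ D = ∫⁻ _h in T, (k : ℝ≥0∞) * μ D ∂μ := by
            rw [setLIntegral_const, hTv]; ring
        _ ≤ ∫⁻ h in T, (∫⁻ x in D, f (x + h) ∂μ + ENNReal.ofReal (2 * r₀) * ε j) ∂μ :=
            setLIntegral_mono' hTm e1
        _ = ∫⁻ h in T, (∫⁻ x in D, f (x + h) ∂μ) ∂μ + ENNReal.ofReal (2 * r₀) * ε j * v := by
            rw [lintegral_add_right _ measurable_const, setLIntegral_const, hTv]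
        _ = ∫⁻ x in D, (∫⁻ h in T, f (x + h) ∂μ) ∂μ + ENNReal.ofReal (2 * r₀) * ε j * v := by
            congr 1
            refine lintegral_lintegral_swap ?_
            exact (hm.comp (by fun_prop : Measurable fun p : E × E => p.2 + p.1)).aemeasurable
        _ ≤ ∫⁻ _x in D, A ∂μ + ENNReal.ofReal (2 * r₀) * ε j * v := by
            refine add_le_add (lintegral_mono fun x => ?_) le_rfl
            calc ∫⁻ h in T, f (x + h) ∂μ ≤ ∫⁻ h, f (x + h) ∂μ := setLIntegral_le_lintegral _ _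
              _ = ∫⁻ h, f h ∂μ := lintegral_add_left_eq_self f x
              _ = ∫⁻ h in B, ENNReal.ofReal (g j h) ∂μ := lintegral_indicator hBo.measurableSet _
              _ ≤ A := h1 j
        _ = _ := by
            rw [setLIntegral_const]; ring
    have hlim : Tendsto (fun j => A * μ D + (ENNReal.ofReal (2 * r₀) * v) * ε j) atTop
        (𝓝 (A * μ D + (ENNReal.ofReal (2 * r₀) * v) * 0)) :=
      tendsto_const_nhds.add (ENNReal.Tendsto.const_mul hε
        (Or.inr (ENNReal.mul_ne_top ENNReal.ofReal_ne_top hvt)))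
    have hle := ge_of_tendsto hlim key
    rw [mul_zero, add_zero] at hle
    exact (ENNReal.mul_le_mul_iff_left hD0 hDt).mp hle
  -- Step 2: the maximum
  obtain ⟨K, hK⟩ : ∃ K : ℕ, A / v ≤ K := by
    obtain ⟨K, hK⟩ := ENNReal.exists_nat_gt (ENNReal.div_ne_top hA hv0)
    exact ⟨K, hK.le⟩
  set S : Set ℕ := {k | ∃ x ∈ B, (k : ℕ∞) ≤ cnt x} with hS
  have hSb : BddAbove S := by
    refine ⟨K, ?_⟩
    rintro k ⟨x, hx, hk⟩
    have e1 := hbd x hx k hk
    have e2 : (k : ℝ≥0∞) ≤ A / v := by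
      rw [ENNReal.le_div_iff_mul_le (Or.inl hv0) (Or.inl hvt)]
      exact e1
    exact_mod_cast e2.trans hK
  have hb₀ : b₀ ∈ B := mem_ball_self hr₀
  have hSn : S.Nonempty := ⟨0, b₀, hb₀, by simp⟩
  set d := sSup S with hd
  obtain ⟨x₁, hx₁, hdx⟩ : d ∈ S := Nat.sSup_mem hSn hSb
  have hle : ∀ x ∈ B, cnt x ≤ d := by
    intro x hx
    by_contra hlt
    rw [not_le] at hlt
    have e1 : ((d + 1 : ℕ) : ℕ∞) ≤ cnt x := by
      rw [Nat.cast_add, Nat.cast_one]
      exact Order.add_one_le_of_lt hlt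
    have e2 : d + 1 ≤ d := le_csSup hSb ⟨x, hx, e1⟩
    omega
  refine ⟨d, hle, fun x₂ hx₂ => ?_⟩
  rw [Metric.mem_closure_iff]
  intro ρ hρ
  rcases Nat.eq_zero_or_pos d with hd0 | hd0
  · refine ⟨x₂, ⟨hx₂, ?_⟩, by rwa [dist_self]⟩
    have := hle x₂ hx₂
    rw [hd0] at this ⊢
    simpa using this
  by_contra hcon
  push Not at hcon
  obtain ⟨x', ρ', hρ', hρB, hj⟩ := h4 x₁ hx₁ d hdx
  have hx₂' : 0 < r₀ - dist x₂ b₀ := sub_pos.mpr hx₂
  set σ := min ρ' (min ρ (r₀ - dist x₂ b₀)) with hσ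
  have hσ0 : 0 < σ := lt_min hρ' (lt_min hρ hx₂')
  set D := ball x' σ with hD
  have hDB : D ⊆ B := (ball_subset_ball (min_le_left _ _)).trans hρB
  have hD0 : μ D ≠ 0 := (measure_ball_pos μ x' hσ0).ne'
  have hDt : μ D ≠ ⊤ := measure_ball_lt_top.ne
  have hDh : ∀ y ∈ D, y + (x₂ - x') ∈ B ∧ dist x₂ (y + (x₂ - x')) < ρ := by
    intro y hy
    have e1 : dist (y + (x₂ - x')) x₂ < σ := by
      have : x₂ = x' + (x₂ - x') := by abel
      nth_rewrite 2 [this]
      rw [dist_add_right]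
      exact hy
    constructor
    · rw [hB, mem_ball]
      have e2 : σ ≤ r₀ - dist x₂ b₀ := (min_le_right _ _).trans (min_le_right _ _)
      calc dist (y + (x₂ - x')) b₀ ≤ dist (y + (x₂ - x')) x₂ + dist x₂ b₀ := dist_triangle _ _ _
        _ < r₀ := by linarith
    · rw [dist_comm]
      exact lt_of_lt_of_le e1 ((min_le_right _ _).trans (min_le_left _ _))
  have key : ∀ᶠ j in atTop, (d : ℝ≥0∞) * μ D ≤
      ((d - 1 : ℕ) : ℝ≥0∞) * μ D + ‖x₂ - x'‖ₑ * ε j := by
    filter_upwards [hj] with j hj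
    have e2 := transfer μ hBo hBc (hg j) (h2 j) (D := D) isOpen_ball.measurableSet hDB
      (h := x₂ - x') (fun y hy => (hDh y hy).1) (k := d)
      (fun y hy => hj y (ball_subset_ball (min_le_left _ _) hy))
    refine e2.trans (add_le_add ?_ le_rfl)
    rw [← setLIntegral_const]
    refine setLIntegral_mono' isOpen_ball.measurableSet fun y hy => ?_
    obtain ⟨e3, e4⟩ := hDh y hy
    have e5 : cnt (y + (x₂ - x')) ≤ ((d - 1 : ℕ) : ℕ∞) := by
      have e6 := hle _ e3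
      have e7 : cnt (y + (x₂ - x')) ≠ d := fun h => absurd e4 (not_lt.mpr (hcon _ ⟨e3, h⟩))
      have e8 : cnt (y + (x₂ - x')) < d := lt_of_le_of_ne e6 e7
      have e9 : (d : ℕ∞) = ((d - 1 : ℕ) : ℕ∞) + 1 := by
        have : d = (d - 1) + 1 := by omega
        exact_mod_cast this
      rw [e9] at e8
      exact Order.le_of_lt_add_one e8
    have e6 := h3 j _ e3 _ e5
    rw [← ENNReal.ofReal_natCast]
    exact ENNReal.ofReal_le_ofReal e6
  have hlim : Tendsto (fun j => ((d - 1 : ℕ) : ℝ≥0∞) * μ D + ‖x₂ - x'‖ₑ * ε j) atTop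
      (𝓝 (((d - 1 : ℕ) : ℝ≥0∞) * μ D + ‖x₂ - x'‖ₑ * 0)) :=
    tendsto_const_nhds.add (ENNReal.Tendsto.const_mul hε (Or.inr enorm_ne_top))
  have hle' := ge_of_tendsto hlim key
  rw [mul_zero, add_zero] at hle'
  have e1 := (ENNReal.mul_le_mul_iff_left hD0 hDt).mp hle'
  have e2 : d ≤ d - 1 := by exact_mod_cast e1
  omega

end Vale.Agent.P284.H451
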