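import Mathlib.Topology.Germ
import Vale.Agent.P284.H812.KOS

/-!
# P284 (helper451): the number of branches is locally constant (module COUNT of T1'), statements

`Z` is compact with positive canonical bundle, `N` a Hilbert weight on `K_Z^m`, immersive where it is
nonzero, `τ` the section of `K_Z^M` from the Kodaira lemma.  `V` is a nowhere zero holomorphic
function on a ball of `ℂⁿ`, `[V]` an immersion.  `G b` is a set of germs at `b` of branches (in the
sense of `H812.IsBranch`), closed under continuation; every point of `Z` is the value of at most `N₀`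
of them.  Then the number of elements of `G b` is bounded by a constant `d`, and is equal to `d` on a
dense set.
-/

open scoped Manifold ContDiff Topology ComplexOrder
open Filter Set Metric

noncomputable section

namespace Vale.Agent.P284.H451

open Vale.Agent.P272.K Vale.Agent.P272.KOD Vale.Agent.P284.H812

/-- A family of branches over `B`, closed under continuation: `G b` is a set of germs at `b` of maps
to `Z`. -/
structure BrFam {n : ℕ} (m : ℕ) {Z : Type*} [TopologicalSpace Z] [ChartedSpace (Cm n) Z]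
    {H' : Type*} [NormedAddCommGroup H'] (N : Chart n Z → Cm n → ℝ) (V : Cm n → H')
    (B : Set (Cm n)) (G : ∀ b : Cm n, Set (Germ (𝓝 b) Z)) : Prop where
  br : ∀ b ∈ B, ∀ γ ∈ G b, ∃ (e : Chart n Z) (f : Cm n → Cm n), IsBranch m N V b e f ∧
    γ = ((fun z => e.symm (f z) : Cm n → Z) : Germ (𝓝 b) Z)
  cont : ∀ (ζ : Cm n) (s : ℝ) (e : Chart n Z) (f : Cm n → Cm n), 0 < s → ball ζ s ⊆ B →
    (∀ z ∈ ball ζ s, IsBranch m N V z e f) →
    ((fun z => e.symm (f z) : Cm n → Z) : Germ (𝓝 ζ) Z) ∈ G ζ →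
    ∀ z ∈ ball ζ s, ((fun z => e.symm (f z) : Cm n → Z) : Germ (𝓝 z) Z) ∈ G z

/-- every point of `Z` is the value of at most `N₀` germs of the family -/
def BrMult {n : ℕ} {Z : Type*} [TopologicalSpace Z] (B : Set (Cm n))
    (G : ∀ b : Cm n, Set (Germ (𝓝 b) Z)) (N₀ : ℕ) : Prop :=
  ∀ x : Z, {p : (b : Cm n) × Germ (𝓝 b) Z | p.1 ∈ B ∧ p.2 ∈ G p.1 ∧ p.2.value = x}.encard ≤ N₀

/-- **COUNT**: the number of branches is bounded, and constant on a dense set. -/
def CntStmt : Prop :=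
  ∀ (n m M : ℕ) (_ : 1 ≤ n) (_ : 1 ≤ m) (Z : Type) [TopologicalSpace Z] [T2Space Z]
    [CompactSpace Z] [ConnectedSpace Z] [ChartedSpace (Cm n) Z] [IsManifold 𝓘(ℂ, Cm n) ω Z]
    (w : Chart n Z → Cm n → ℝ) (_ : IsCanonicalMetric w)
    (_ : ∀ e x, At e x → (cHess (w e) (e x)).PosDef)
    (τ : PSec n M Z) (_ : ∃ e x, At e x ∧ τ.coeff e (e x) ≠ 0)
    (H : Type) [NormedAddCommGroup H] [InnerProductSpace ℂ H] [CompleteSpace H]
    (N : Chart n Z → Cm n → ℝ) (_ : HMet n m Z H N) (_ : HImm n Z H N) (C : ℝ)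
    (_ : ∀ e x, At e x → (‖τ.coeff e (e x)‖ ^ 2 * Real.exp (-(M : ℝ) * w e (e x))) ^ m ≤
      C * (N e (e x) * Real.exp (-(m : ℝ) * w e (e x))) ^ (M + 2))
    (H' : Type) [NormedAddCommGroup H'] [InnerProductSpace ℂ H'] [CompleteSpace H']
    (V : Cm n → H') (b₀ : Cm n) (r₀ r₁ : ℝ) (_ : 0 < r₀) (_ : r₀ < r₁)
    (_ : DifferentiableOn ℂ V (ball b₀ r₁))
    (_ : ∀ b ∈ ball b₀ r₁, V b ≠ 0 ∧ ∀ (ξ : Cm n) (c : ℂ), fderiv ℂ V b ξ = c • V b → ξ = 0)
    (G : ∀ b : Cm n, Set (Germ (𝓝 b) Z)) (_ : BrFam m N V (ball b₀ r₀) G) (N₀ : ℕ)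
    (_ : BrMult (ball b₀ r₀) G N₀),
    ∃ d : ℕ, (∀ b ∈ ball b₀ r₀, (G b).encard ≤ d) ∧
      ball b₀ r₀ ⊆ closure {b | b ∈ ball b₀ r₀ ∧ (G b).encard = d}

end Vale.Agent.P284.H451
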