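import Vale.Agent.P284.H451.CntN
import Vale.Agent.P284.H451.CntS

/-!
# P284 (helper451), COUNT: germs and sections over balls
-/

open scoped Manifold ContDiff Topology ComplexOrder ENNReal
open Filter MeasureTheory Set Metric

set_option linter.all false

noncomputable section

namespace Vale.Agent.P284.H451

open Vale.Agent.P272.K Vale.Agent.P272.K.INT Vale.Agent.P272.KOD Vale.Agent.P284.H812
  Vale.Agent.P284.H213.KL

variable {n m M : ℕ} {Z : Type*} [TopologicalSpace Z] [ChartedSpace (Cm n) Z]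
  {H : Type*} [NormedAddCommGroup H] [InnerProductSpace ℂ H] [CompleteSpace H]
  {N w : Chart n Z → Cm n → ℝ}
  {H' : Type*} [NormedAddCommGroup H'] [InnerProductSpace ℂ H'] [CompleteSpace H']
  {V : Cm n → H'}

/-- the germ of `e.symm ∘ F` at `z` -/
def gr (e : Chart n Z) (F : Cm n → Cm n) (z : Cm n) : Germ (𝓝 z) Z :=
  ((fun y => e.symm (F y) : Cm n → Z) : Germ (𝓝 z) Z)

lemma gr_value (e : Chart n Z) (F : Cm n → Cm n) (z : Cm n) : (gr e F z).value = e.symm (F z) :=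
  rfl

lemma gr_eq_iff {e e' : Chart n Z} {F F' : Cm n → Cm n} {z : Cm n} :
    gr e F z = gr e' F' z ↔ ∀ᶠ y in 𝓝 z, e.symm (F y) = e'.symm (F' y) := Germ.coe_eq

lemma br_cont {e : Chart n Z} {F : Cm n → Cm n} {z : Cm n} (hb : IsBranch m N V z e F) :
    ContinuousAt (fun y => e.symm (F y)) z :=
  ContinuousAt.comp (g := e.symm) (e.continuousAt_symm hb.tgt) hb.an.continuousAt

/-- **Identity theorem for sections.** -/
theorem germ_ident [IsManifold 𝓘(ℂ, Cm n) ω Z] [T2Space Z] {ζ : Cm n} {s : ℝ}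
    {e e' : Chart n Z} {F F' : Cm n → Cm n}
    (h : ∀ z ∈ ball ζ s, IsBranch m N V z e F) (h' : ∀ z ∈ ball ζ s, IsBranch m N V z e' F')
    {z₀ : Cm n} (hz₀ : z₀ ∈ ball ζ s) (heq : gr e F z₀ = gr e' F' z₀) :
    ∀ z ∈ ball ζ s, gr e F z = gr e' F' z := by
  set u : Set (Cm n) := {z | ∀ᶠ y in 𝓝 z, e.symm (F y) = e'.symm (F' y)} with hu
  have huo : IsOpen u := isOpen_setOf_eventually_nhds
  have hsub : ball ζ s ⊆ u := by
    refine (convex_ball ζ s).isPreconnected.subset_of_closure_inter_subset huo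
      ⟨z₀, hz₀, gr_eq_iff.1 heq⟩ ?_
    rintro z ⟨hzc, hz⟩
    have hb := h z hz
    have hb' := h' z hz
    -- equality of the values
    have hval : e.symm (F z) = e'.symm (F' z) := by
      by_contra hne
      have h1 : ∀ᶠ y in 𝓝 z, e.symm (F y) ≠ e'.symm (F' y) :=
        ((br_cont hb).ne_iff_eventually_ne (br_cont hb')).1 hne
      obtain ⟨y, hy1, hy2⟩ := mem_closure_iff_nhds.1 hzc _ h1
      exact hy1 hy2.self_of_nhds
    have hat : At e (e'.symm (F' z)) := hval ▸ br_at hb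
    have hG : AnalyticAt ℂ (brT e' e F') z := brT_analytic hb'.an (br_at hb') hb'.tgt hat
    have h2 : ∀ᶠ y in 𝓝 z, (AnalyticAt ℂ F y ∧ AnalyticAt ℂ (brT e' e F') y) ∧
        (F y ∈ e.target ∧ e'.symm (F' y) ∈ e.source) := by
      refine (hb.an.eventually_analyticAt.and hG.eventually_analyticAt).and ?_
      refine (hb.an.continuousAt.eventually (e.open_target.mem_nhds hb.tgt)).and ?_
      exact (br_cont hb').eventually (e.open_source.mem_nhds hat.2)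
    obtain ⟨ρ, hρ, hρ2⟩ := Metric.eventually_nhds_iff_ball.1 h2
    obtain ⟨y₁, hy₁, hy₁u⟩ := mem_closure_iff_nhds.1 hzc _ (ball_mem_nhds z hρ)
    have h3 : F =ᶠ[𝓝 y₁] brT e' e F' := by
      filter_upwards [hy₁u, isOpen_ball.mem_nhds hy₁] with y hy hyb
      show F y = e (e'.symm (F' y))
      rw [← hy, e.right_inv (hρ2 y hyb).2.1]
    have h4 : EqOn F (brT e' e F') (ball z ρ) :=
      AnalyticOnNhd.eqOn_of_preconnected_of_eventuallyEq (fun y hy => (hρ2 y hy).1.1)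
        (fun y hy => (hρ2 y hy).1.2) (convex_ball z ρ).isPreconnected hy₁ h3
    show ∀ᶠ y in 𝓝 z, e.symm (F y) = e'.symm (F' y)
    filter_upwards [ball_mem_nhds z hρ] with y hy
    rw [h4 hy]
    exact e.left_inv (hρ2 y hy).2.2
  exact fun z hz => gr_eq_iff.2 (hsub hz)

/-- a section over a ball of the family `G`, with the lower bound `σ` for the weight -/
structure Sec (m : ℕ) (N w : Chart n Z → Cm n → ℝ) (V : Cm n → H')
    (G : ∀ b : Cm n, Set (Germ (𝓝 b) Z)) (σ : ℝ) (ζ : Cm n) (s : ℝ) (e : Chart n Z)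
    (F : Cm n → Cm n) : Prop where
  br : ∀ z ∈ ball ζ s, IsBranch m N V z e F
  mem : ∀ z ∈ ball ζ s, gr e F z ∈ G z
  low : ∀ z ∈ ball ζ s, σ ≤ Rc m N w e (F z)

variable {G : ∀ b : Cm n, Set (Germ (𝓝 b) Z)} {B : Set (Cm n)}

/-- germs with values where `N e^{-mw} ≥ δ` are germs of sections -/
theorem sec_of_germ [IsManifold 𝓘(ℂ, Cm n) ω Z]
    (hN : HMet n m Z H N) (hw : IsCanonicalMetric w) (hG : BrFam m N V B G) {δ κ σ : ℝ}
    (hext : ∀ (V : Cm n → H') (ζ : Cm n) (s : ℝ) (e : Chart n Z) (f : Cm n → Cm n),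
      0 < s → DifferentiableOn ℂ V (ball ζ s) → IsBranch m N V ζ e f → V ζ ≠ 0 →
      δ ≤ N e (f ζ) * Real.exp (-(m : ℝ) * w e (f ζ)) →
      (∀ z ∈ ball ζ s, ‖V z - V ζ‖ ≤ κ * ‖V ζ‖) →
      ∃ (e' : Chart n Z) (F : Cm n → Cm n), DifferentiableOn ℂ F (ball ζ s) ∧
        (∀ z ∈ ball ζ s, IsBranch m N V z e' F) ∧ At e' (e.symm (f ζ)) ∧
        F =ᶠ[𝓝 ζ] brT e e' f ∧
        ∀ z ∈ ball ζ s, σ ≤ N e' (F z) * Real.exp (-(m : ℝ) * w e' (F z)))
    {b' : Cm n} {s : ℝ} (hs : 0 < s) (hsB : ball b' (3 * s) ⊆ B)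
    (hVd : DifferentiableOn ℂ V B) (hV0 : ∀ z ∈ B, V z ≠ 0)
    (hosc : ∀ z ∈ ball b' (3 * s), ∀ z' ∈ ball b' (3 * s), ‖V z - V z'‖ ≤ κ * ‖V z'‖)
    {z₀ : Cm n} (hz₀ : z₀ ∈ ball b' s) {γ : Germ (𝓝 z₀) Z} (hγ : γ ∈ G z₀)
    (hδ : δ ≤ rn m N w γ.value) :
    ∃ e F, Sec m N w V G σ b' s e F ∧ γ = gr e F z₀ := by
  have hz₀B : z₀ ∈ B := hsB (ball_subset_ball (by linarith) hz₀)
  have hz₀3 : z₀ ∈ ball b' (3 * s) := ball_subset_ball (by linarith) hz₀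
  have hsub : ball z₀ (2 * s) ⊆ ball b' (3 * s) := by
    intro z hz
    rw [mem_ball] at hz hz₀ ⊢
    have := dist_triangle z z₀ b'
    linarith
  have hsub2 : ball b' s ⊆ ball z₀ (2 * s) := by
    intro z hz
    rw [mem_ball] at hz hz₀ ⊢
    have := dist_triangle z b' z₀
    rw [dist_comm b' z₀] at this
    linarith
  obtain ⟨e, f, hb, rfl⟩ := hG.br z₀ hz₀B γ hγ
  have hR : δ ≤ N e (f z₀) * Real.exp (-(m : ℝ) * w e (f z₀)) := by
    have h1 : δ ≤ rn m N w (e.symm (f z₀)) := hδ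
    have h2 := rn_eq hw hN (br_at hb)
    rw [e.right_inv hb.tgt] at h2
    rw [h2] at h1
    exact h1
  obtain ⟨e', F, hF1, hF2, hat, hF3, hF4⟩ := hext V z₀ (2 * s) e f (by linarith)
    (hVd.mono (hsub.trans hsB)) hb (hV0 z₀ hz₀B) hR fun z hz => hosc z (hsub hz) z₀ hz₀3
  have hgr : ((fun z => e.symm (f z) : Cm n → Z) : Germ (𝓝 z₀) Z) = gr e' F z₀ := by
    refine Germ.coe_eq.2 ?_
    filter_upwards [hF3, br_ev hb.mem hb.an hb.tgt hat] with y hy hy2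
    rw [hy]
    exact (e'.left_inv hy2.2.2.2.2).symm
  refine ⟨e', F, ⟨fun z hz => hF2 z (hsub2 hz), fun z hz => ?_, fun z hz => hF4 z (hsub2 hz)⟩, hgr⟩
  refine hG.cont z₀ (2 * s) e' F (by linarith) (hsub.trans hsB) hF2 ?_ z (hsub2 hz)
  have h5 := hγ
  rw [hgr] at h5
  exact h5

/-- distinct sections have distinct germs everywhere -/
lemma sec_inj [IsManifold 𝓘(ℂ, Cm n) ω Z] [T2Space Z] {σ : ℝ} {ζ : Cm n} {s : ℝ}
    {ι : Type*} {e : ι → Chart n Z} {F : ι → Cm n → Cm n}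
    (hS : ∀ i, Sec m N w V G σ ζ s (e i) (F i)) {z₀ : Cm n} (hz₀ : z₀ ∈ ball ζ s)
    (hinj : Function.Injective fun i => gr (e i) (F i) z₀) {z : Cm n} (hz : z ∈ ball ζ s) :
    Function.Injective fun i => gr (e i) (F i) z := fun i i' hii =>
  hinj (germ_ident (hS i).br (hS i').br hz hii z₀ hz₀)

/-- the multiplicity bound for disjoint pieces -/
lemma sec_mult {N₀ : ℕ} (hM : BrMult B G N₀)
    {κ : Type*} {e : κ → Chart n Z} {F : κ → Cm n → Cm n} {A : κ → Set (Cm n)}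
    (hAB : ∀ i, A i ⊆ B) (hmem : ∀ i, ∀ z ∈ A i, gr (e i) (F i) z ∈ G z)
    (hinj : ∀ i i' z, z ∈ A i → z ∈ A i' → gr (e i) (F i) z = gr (e i') (F i') z → i = i')
    (x : Z) : {p : κ × Cm n | p.2 ∈ A p.1 ∧ (e p.1).symm (F p.1 p.2) = x}.encard ≤ N₀ := by
  refine le_trans (encard_le_encard_of_injOn
    (f := fun p : κ × Cm n => (⟨p.2, gr (e p.1) (F p.1) p.2⟩ : (b : Cm n) × Germ (𝓝 b) Z))
    ?_ ?_) (hM x)
  · rintro ⟨i, z⟩ ⟨hz, hx⟩
    exact ⟨hAB i hz, hmem i z hz, hx⟩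
  · rintro ⟨i, z⟩ ⟨hz, -⟩ ⟨i', z'⟩ ⟨hz', -⟩ h
    simp only [Sigma.mk.injEq] at h
    obtain ⟨rfl, h2⟩ := h
    rw [hinj i i' z hz hz' (eq_of_heq h2)]

end Vale.Agent.P284.H451
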