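import Vale.Agent.P284.H451.CntM4
import Mathlib.LinearAlgebra.Matrix.SchurComplement

/-!
# P284 (helper451), COUNT: pointwise lower bounds for the determinant on the ball
-/

open scoped Manifold ContDiff Topology ComplexOrder ENNReal ComplexConjugate InnerProductSpace
open Filter MeasureTheory Set

set_option linter.all false

noncomputable section

namespace Vale.Agent.P284.H451

open Vale.Agent.P272.K Vale.Agent.P284.H213.KL

variable {n : ℕ}

lemma det_rank_one {a μ : ℝ} (ha : 0 < a) (v : Fin n → ℂ) :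
    ((a : ℂ) • (1 : Matrix (Fin n) (Fin n) ℂ) +
      (μ : ℂ) • Matrix.of fun j k => v j * conj (v k)).det.re =
      a ^ n * (1 + μ / a * ∑ j, ‖v j‖ ^ 2) := by
  have hac : (a : ℂ) ≠ 0 := by exact_mod_cast ha.ne'
  have h1 : (a : ℂ) • (1 : Matrix (Fin n) (Fin n) ℂ) +
      (μ : ℂ) • Matrix.of (fun j k => v j * conj (v k)) =
      (a : ℂ) • (1 + Matrix.replicateCol Unit (fun j => ((μ / a : ℝ) : ℂ) * v j) *
        Matrix.replicateRow Unit (fun k => conj (v k))) := by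
    ext j k
    simp only [Matrix.add_apply, Matrix.smul_apply, smul_eq_mul, Matrix.of_apply, Matrix.mul_apply,
      Matrix.replicateCol_apply, Matrix.replicateRow_apply, Finset.univ_unique,
      Finset.sum_singleton]
    push_cast
    field_simp
  rw [h1, Matrix.det_smul, Matrix.det_one_add_replicateCol_mul_replicateRow, Fintype.card_fin]
  have h2 : (fun k => conj (v k)) ⬝ᵥ (fun j => ((μ / a : ℝ) : ℂ) * v j) =
      ((μ / a * ∑ j, ‖v j‖ ^ 2 : ℝ) : ℂ) := by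
    rw [dotProduct, Complex.ofReal_mul, Complex.ofReal_sum, Finset.mul_sum]
    refine Finset.sum_congr rfl fun j _ => ?_
    have : conj (v j) * v j = ((‖v j‖ ^ 2 : ℝ) : ℂ) := by
      rw [mul_comm, Complex.mul_conj, Complex.normSq_eq_norm_sq]
    rw [← this]; ring
  rw [h2]
  have h3 : (a : ℂ) ^ n * (1 + ((μ / a * ∑ j, ‖v j‖ ^ 2 : ℝ) : ℂ)) =
      ((a ^ n * (1 + μ / a * ∑ j, ‖v j‖ ^ 2) : ℝ) : ℂ) := by push_cast; ring
  rw [h3, Complex.ofReal_re]

lemma qm_one (β : Cm n) : qm (1 : Matrix (Fin n) (Fin n) ℂ) β = ∑ i, ‖β i‖ ^ 2 := by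
  unfold qm
  have h1 : ∑ j, ∑ k, (1 : Matrix (Fin n) (Fin n) ℂ) j k * β j * conj (β k) =
      ((∑ i, ‖β i‖ ^ 2 : ℝ) : ℂ) := by
    rw [Complex.ofReal_sum]
    refine Finset.sum_congr rfl fun j _ => ?_
    rw [Finset.sum_eq_single j]
    · rw [Matrix.one_apply_eq, one_mul, Complex.mul_conj, Complex.normSq_eq_norm_sq]
    · intro k _ hk
      rw [Matrix.one_apply_ne hk.symm, zero_mul, zero_mul]
    · simp
  rw [h1, Complex.ofReal_re]

/-- the real gradient of a real function -/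
lemma fderiv_le_dz {g : Cm n → ℝ} {z : Cm n} (hg : DifferentiableAt ℝ g z) :
    ‖fderiv ℝ g z‖ ^ 2 ≤ 4 * n * ∑ j, ‖dz j (fun y => (g y : ℂ)) z‖ ^ 2 := by
  have h1 : ∀ v : Cm n, ((fderiv ℝ g z v : ℝ) : ℂ) = fderiv ℝ (fun y => (g y : ℂ)) z v := by
    intro v
    have : HasFDerivAt (fun y => (g y : ℂ)) (Complex.ofRealCLM.comp (fderiv ℝ g z)) z :=
      Complex.ofRealCLM.hasFDerivAt.comp z hg.hasFDerivAt
    rw [this.fderiv]; rfl
  have hreal : ∀ i, dzb i (fun y => (g y : ℂ)) z = conj (dz i (fun y => (g y : ℂ)) z) := by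
    intro i
    rw [Vale.Agent.P272.K.C2.dzb_real i hg]
  have h2 : ‖fderiv ℝ g z‖ ≤ 2 * ∑ j, ‖dz j (fun y => (g y : ℂ)) z‖ := by
    refine ContinuousLinearMap.opNorm_le_bound _ (by positivity) fun v => ?_
    have h3 : ‖fderiv ℝ g z v‖ = ‖fderiv ℝ (fun y => (g y : ℂ)) z v‖ := by
      rw [← h1, Complex.norm_real]
    rw [h3, INT.fderiv_apply]
    refine (norm_sum_le _ _).trans ?_
    rw [Finset.mul_sum, Finset.sum_mul]
    refine Finset.sum_le_sum fun i _ => ?_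
    refine (norm_add_le _ _).trans ?_
    rw [norm_mul, norm_mul, hreal, Complex.norm_conj, Complex.norm_conj]
    have h4 : ‖v i‖ ≤ ‖v‖ := norm_le_pi_norm v i
    have h5 : 0 ≤ ‖dz i (fun y => (g y : ℂ)) z‖ := norm_nonneg _
    nlinarith
  have h6 : (∑ j, ‖dz j (fun y => (g y : ℂ)) z‖) ^ 2 ≤
      (Finset.univ : Finset (Fin n)).card * ∑ j, ‖dz j (fun y => (g y : ℂ)) z‖ ^ 2 :=
    sq_sum_le_card_mul_sum_sq
  rw [Finset.card_univ, Fintype.card_fin] at h6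
  calc ‖fderiv ℝ g z‖ ^ 2 ≤ (2 * ∑ j, ‖dz j (fun y => (g y : ℂ)) z‖) ^ 2 :=
        pow_le_pow_left₀ (norm_nonneg _) h2 2
    _ = 4 * (∑ j, ‖dz j (fun y => (g y : ℂ)) z‖) ^ 2 := by ring
    _ ≤ 4 * (n * ∑ j, ‖dz j (fun y => (g y : ℂ)) z‖ ^ 2) := by gcongr
    _ = _ := by ring

/-- the pointwise bounds -/
theorem pt_bound (hn : 1 ≤ n) {c c₁ : ℝ} (hc : 0 < c) (hc₁ : 0 < c₁) :
    ∃ A₀ C₁ : ℝ, 0 < A₀ ∧ 0 < C₁ ∧ ∀ (j : ℝ) (φ g : Cm n → ℝ) (z : Cm n), 0 < j →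
      ContDiffAt ℝ 2 φ z → DifferentiableAt ℝ g z →
      (∀ β, c₁ * ∑ i, ‖β i‖ ^ 2 ≤ lev φ z β) →
      A₀ ≤ (bm (1 / 2) (j / c) φ g z).det.re ∧
      ‖fderiv ℝ g z‖ ≤ C₁ / Real.sqrt j * (bm (1 / 2) (j / c) φ g z).det.re := by
  set a : ℝ := c₁ / 2 with ha
  have ha0 : 0 < a := by positivity
  have hn0 : (0 : ℝ) < n := by exact_mod_cast hn
  set q : ℝ := 1 / (4 * n * a * c) with hq
  have hq0 : 0 < q := by positivity
  refine ⟨a ^ n, (2 * a ^ n * Real.sqrt q)⁻¹, by positivity, by positivity, ?_⟩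
  intro j φ g z hj hφ hg hlev
  set G := (bm (1 / 2) (j / c) φ g z).det.re with hG
  set v : Fin n → ℂ := fun i => dz i (fun y => (g y : ℂ)) z with hv
  set A : Matrix (Fin n) (Fin n) ℂ := (a : ℂ) • (1 : Matrix (Fin n) (Fin n) ℂ) +
      ((j / c : ℝ) : ℂ) • Matrix.of fun i k => v i * conj (v k) with hA
  have hAg : A = (a : ℂ) • (1 : Matrix (Fin n) (Fin n) ℂ) + ((j / c : ℝ) : ℂ) • gm g z := rfl
  have hAh : A.IsHermitian := by
    rw [hAg]
    exact (Matrix.isHermitian_one.smul (by simp [IsSelfAdjoint])).add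
      ((gm_herm g z).smul (by simp [IsSelfAdjoint]))
  have h1 : A.det.re ≤ G := by
    refine det_psd_le (psd_of_qm hAh fun β => ?_) (psd_of_qm ((bm_herm hφ).sub hAh) fun β => ?_)
    · rw [hAg, qm_add, qm_smul, qm_smul, qm_one, qm_gm]
      positivity
    · rw [qm_sub, qm_bm, hAg, qm_add, qm_smul, qm_smul, qm_one, qm_gm]
      have := hlev β
      have h2 : a * ∑ i, ‖β i‖ ^ 2 ≤ 1 / 2 * lev φ z β := by
        rw [ha]; linarith
      linarith
  have h2 : A.det.re = a ^ n * (1 + (j / c) / a * ∑ i, ‖v i‖ ^ 2) := det_rank_one ha0 v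
  have h3 := fderiv_le_dz hg
  set t := ‖fderiv ℝ g z‖ with ht
  have ht0 : 0 ≤ t := norm_nonneg _
  have h4 : j * q * t ^ 2 ≤ (j / c) / a * ∑ i, ‖v i‖ ^ 2 := by
    have h5 : j * q * t ^ 2 ≤ j * q * (4 * n * ∑ i, ‖v i‖ ^ 2) := by gcongr
    refine h5.trans (le_of_eq ?_)
    rw [hq]; field_simp
  have h6 : a ^ n * (1 + j * q * t ^ 2) ≤ G := by
    refine le_trans ?_ h1
    rw [h2]
    gcongr
  constructor
  · have : 0 ≤ a ^ n * (j * q * t ^ 2) := by positivity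
    linarith
  · set r := Real.sqrt q with hr
    set s := Real.sqrt j with hs
    have hr2 : r ^ 2 = q := Real.sq_sqrt hq0.le
    have hs2 : s ^ 2 = j := Real.sq_sqrt hj.le
    have hr0 : 0 < r := Real.sqrt_pos.mpr hq0
    have hs0 : 0 < s := Real.sqrt_pos.mpr hj
    have h7 : 2 * (s * r * t) ≤ 1 + j * q * t ^ 2 := by
      have : 0 ≤ (s * r * t - 1) ^ 2 := sq_nonneg _
      have h8 : (s * r * t) ^ 2 = j * q * t ^ 2 := by rw [mul_pow, mul_pow, hs2, hr2]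
      nlinarith
    have h8 : a ^ n * (2 * (s * r * t)) ≤ G := le_trans (by gcongr) h6
    have h9 : t = (2 * a ^ n * r)⁻¹ / s * (a ^ n * (2 * (s * r * t))) := by
      field_simp
    rw [h9]
    gcongr

end Vale.Agent.P284.H451
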