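import Vale.Agent.P284.H451.CntG

/-!
# P284 (helper451), COUNT: area of the sections, finiteness, local structure
-/

open scoped Manifold ContDiff Topology ComplexOrder ENNReal
open Filter MeasureTheory Set Metric

set_option linter.all false

noncomputable section

namespace Vale.Agent.P284.H451

open Vale.Agent.P272.K Vale.Agent.P272.K.INT Vale.Agent.P272.KOD Vale.Agent.P284.H812
  Vale.Agent.P284.H213.KL

variable {n m M : ℕ} {Z : Type*} [TopologicalSpace Z] [ChartedSpace (Cm n) Z]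
  [IsManifold 𝓘(ℂ, Cm n) ω Z] [T2Space Z]
  {H : Type*} [NormedAddCommGroup H] [InnerProductSpace ℂ H] [CompleteSpace H]
  {N w : Chart n Z → Cm n → ℝ} {K k b : ℝ → ℝ} {c : ℝ}
  {H' : Type*} [NormedAddCommGroup H'] [InnerProductSpace ℂ H'] [CompleteSpace H']
  {V : Cm n → H'} {G : ∀ b : Cm n, Set (Germ (𝓝 b) Z)} {B : Set (Cm n)} {N₀ : ℕ}

/-- area of disjoint pieces of sections -/
theorem area_sec [CompactSpace Z] (P : Prof K k b c) {j δ : ℝ} (hj : 0 < j) (hδ : 0 < δ)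
    (hm : 1 ≤ m)
    (hN : HMet n m Z H N) (hw : IsCanonicalMetric w) (τ : PSec n M Z) (hM : BrMult B G N₀)
    (hVc : ∀ z ∈ B, ContinuousAt V z) (hV0 : ∀ z ∈ B, V z ≠ 0)
    {κ : Type*} [Countable κ] {e : κ → Chart n Z} (he : ∀ i, e i ∈ atlas (Cm n) Z)
    {F : κ → Cm n → Cm n} {A : κ → Set (Cm n)} (hA : ∀ i, MeasurableSet (A i))
    (hAB : ∀ i, A i ⊆ B) (hbr : ∀ i, ∀ z ∈ A i, IsBranch m N V z (e i) (F i))
    (hmem : ∀ i, ∀ z ∈ A i, gr (e i) (F i) z ∈ G z)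
    (hlow : ∀ i, ∀ z ∈ A i, δ < Rc m N w (e i) (F i z))
    (hinj : ∀ i i' z, z ∈ A i → z ∈ A i' → gr (e i) (F i) z = gr (e i') (F i') z → i = i')
    {C₀ : ℝ≥0∞} (hC₀ : massX (De (n := n) (Z := Z) m k c j δ τ N w) ≤ C₀) :
    ∑' i, ∫⁻ z in A i, ENNReal.ofReal (bm (1 / 2) (j / c) (fun y => Real.log (‖V y‖ ^ 2))
        (fun y => Xc k j τ w (e i) (F i y)) z).det.re ≤ N₀ * C₀ := by
  have h1 := area (isEDens_De P hj hδ hN hw τ) he hA
    (fun i z hz => (hbr i z hz).an)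
    (fun i z hz => (br_ne hm (hbr i z hz) (hV0 z (hAB i hz))).2)
    (fun i z hz => (hbr i z hz).tgt)
    (sec_mult hM hAB hmem hinj)
  refine le_trans (le_of_eq (tsum_congr fun i => ?_)) (h1.trans (mul_le_mul' le_rfl hC₀))
  refine setLIntegral_congr_fun (hA i) fun z hz => ?_
  exact (br_De P hj hδ hm hN hw τ (hbr i z hz) (hV0 z (hAB i hz)) (hVc z (hAB i hz))
    (hlow i z hz)).symm

/-- **Finiteness of the number of sections over a ball.** -/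
theorem sec_finite [CompactSpace Z] (P : Prof K k b c) (hn : 1 ≤ n) (hm : 1 ≤ m)
    (hN : HMet n m Z H N) (hw : IsCanonicalMetric w)
    (hpos : ∀ e x, At e x → (cHess (w e) (e x)).PosDef) (τ : PSec n M Z) (hM : BrMult B G N₀)
    (hVa : ∀ z ∈ B, AnalyticAt ℂ V z) (hV0 : ∀ z ∈ B, V z ≠ 0) {c₁ : ℝ} (hc₁ : 0 < c₁)
    (hlev : ∀ z ∈ B, ∀ β, c₁ * ∑ i, ‖β i‖ ^ 2 ≤ lev (fun y => Real.log (‖V y‖ ^ 2)) z β)
    {σ : ℝ} (hσ : 0 < σ) {b' : Cm n} {s : ℝ} (hs : 0 < s) (hsB : ball b' s ⊆ B) :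
    {γ : Germ (𝓝 b') Z | ∃ e F, Sec m N w V G σ b' s e F ∧ γ = gr e F b'}.Finite := by
  by_contra hinf
  rw [← Set.Infinite] at hinf
  obtain ⟨C₀, hC₀, hmass⟩ := mass_De P hN hw hpos τ
  obtain ⟨A₀, C₁, hA₀, -, hpt⟩ := pt_bound hn P.c0 hc₁
  set emb := hinf.natEmbedding
  have h1 : ∀ i : ℕ, ∃ e F, Sec m N w V G σ b' s e F ∧ (emb i : Germ (𝓝 b') Z) = gr e F b' :=
    fun i => (emb i).2
  choose e F hS hγ using h1
  have hb' : b' ∈ ball b' s := mem_ball_self hs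
  have hinj0 : Function.Injective fun i => gr (e i) (F i) b' := by
    intro i i' hii
    simp only [← hγ] at hii
    exact emb.injective (Subtype.ext hii)
  have h2 := area_sec (κ := ℕ) P one_pos (half_pos hσ) hm hN hw τ hM
    (fun z hz => (hVa z hz).continuousAt) hV0 (e := e) (fun i => ((hS i).br b' hb').mem)
    (F := F) (A := fun _ => ball b' s) (fun _ => measurableSet_ball) (fun _ => hsB)
    (fun i z hz => (hS i).br z hz) (fun i z hz => (hS i).mem z hz)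
    (fun i z hz => lt_of_lt_of_le (half_lt_self hσ) ((hS i).low z hz))
    (fun i i' z hz _ hii => sec_inj hS hb' hinj0 hz hii) (hmass 1 (σ / 2) one_pos (half_pos hσ))
  have h3 : ∑' i : ℕ, ENNReal.ofReal A₀ * volume (ball b' s) ≤ N₀ * C₀ := by
    refine le_trans (ENNReal.tsum_le_tsum fun i => ?_) h2
    rw [← setLIntegral_const]
    refine setLIntegral_mono' measurableSet_ball fun z hz => ENNReal.ofReal_le_ofReal ?_
    have hzB := hsB hz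
    refine (hpt 1 _ _ z one_pos ?_ ?_ (hlev z hzB)).1
    · exact (smooth_logV (hVa z hzB) (hV0 z hzB)).of_le (by norm_cast)
    · exact (Xc_comp_smooth P one_pos hw τ ((hS i).br z hz)).differentiableAt (by norm_cast)
  have h4 : ENNReal.ofReal A₀ * volume (ball b' s) ≠ 0 :=
    mul_ne_zero (ENNReal.ofReal_pos.2 hA₀).ne' (measure_ball_pos _ _ hs).ne'
  rw [ENNReal.tsum_const_eq_top_of_ne_zero h4, top_le_iff] at h3
  exact (ENNReal.mul_ne_top (ENNReal.natCast_ne_top N₀) hC₀) h3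

/-- small oscillation on a small ball -/
lemma exists_osc {b' : Cm n} (hB : B ∈ 𝓝 b') (hVc : ContinuousAt V b') (h0 : V b' ≠ 0) {κ : ℝ}
    (hκ : 0 < κ) : ∃ s : ℝ, 0 < s ∧ ball b' (3 * s) ⊆ B ∧
      ∀ z ∈ ball b' (3 * s), ∀ z' ∈ ball b' (3 * s), ‖V z - V z'‖ ≤ κ * ‖V z'‖ := by
  set η : ℝ := κ / (2 + κ) with hη
  have hη0 : 0 < η := by positivity
  have hV : 0 < ‖V b'‖ := norm_pos_iff.2 h0
  have h1 : ∀ᶠ z in 𝓝 b', ‖V z - V b'‖ < η * ‖V b'‖ := by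
    have := Metric.tendsto_nhds.1 hVc (η * ‖V b'‖) (by positivity)
    simpa only [dist_eq_norm] using this
  obtain ⟨ρ, hρ, hρ2⟩ := Metric.eventually_nhds_iff_ball.1 (h1.and hB)
  refine ⟨ρ / 3, by positivity, ?_, ?_⟩
  · rw [mul_div_cancel₀ _ (by norm_num : (3 : ℝ) ≠ 0)]
    exact fun z hz => (hρ2 z hz).2
  · rw [mul_div_cancel₀ _ (by norm_num : (3 : ℝ) ≠ 0)]
    intro z hz z' hz'
    have h2 := (hρ2 z hz).1
    have h3 := (hρ2 z' hz').1
    have h4 : ‖V z - V z'‖ ≤ ‖V z - V b'‖ + ‖V z' - V b'‖ := by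
      rw [← sub_sub_sub_cancel_right (V z) (V z') (V b')]
      exact norm_sub_le _ _
    have h5 : ‖V b'‖ ≤ ‖V z'‖ + ‖V z' - V b'‖ := by
      have : V b' = V z' - (V z' - V b') := by abel
      calc ‖V b'‖ = ‖V z' - (V z' - V b')‖ := by rw [← this]
        _ ≤ _ := norm_sub_le _ _
    have h6 : η * (2 + κ) = κ := by rw [hη]; field_simp
    have h7 : κ * ((1 - η) * ‖V b'‖) ≤ κ * ‖V z'‖ := by
      refine mul_le_mul_of_nonneg_left ?_ hκ.le
      linarith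
    have h8 : 2 * η * ‖V b'‖ = κ * ((1 - η) * ‖V b'‖) := by
      have : 2 * η = κ * (1 - η) := by linarith
      rw [this]; ring
    linarith

/-- **Local structure of the family `G`.** -/
theorem loc_str [CompactSpace Z] (P : Prof K k b c) (hn : 1 ≤ n) (hm : 1 ≤ m)
    (hN : HMet n m Z H N) (hw : IsCanonicalMetric w)
    (hpos : ∀ e x, At e x → (cHess (w e) (e x)).PosDef) (τ : PSec n M Z) (hM : BrMult B G N₀)
    (hG : BrFam m N V B G) (hBo : IsOpen B)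
    (hVd : DifferentiableOn ℂ V B) (hV0 : ∀ z ∈ B, V z ≠ 0) {c₁ : ℝ} (hc₁ : 0 < c₁)
    (hlev : ∀ z ∈ B, ∀ β, c₁ * ∑ i, ‖β i‖ ^ 2 ≤ lev (fun y => Real.log (‖V y‖ ^ 2)) z β)
    {δ κ σ : ℝ} (hκ : 0 < κ) (hσ : 0 < σ)
    (hext : ∀ (V : Cm n → H') (ζ : Cm n) (s : ℝ) (e : Chart n Z) (f : Cm n → Cm n),
      0 < s → DifferentiableOn ℂ V (ball ζ s) → IsBranch m N V ζ e f → V ζ ≠ 0 →
      δ ≤ N e (f ζ) * Real.exp (-(m : ℝ) * w e (f ζ)) →
      (∀ z ∈ ball ζ s, ‖V z - V ζ‖ ≤ κ * ‖V ζ‖) →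
      ∃ (e' : Chart n Z) (F : Cm n → Cm n), DifferentiableOn ℂ F (ball ζ s) ∧
        (∀ z ∈ ball ζ s, IsBranch m N V z e' F) ∧ At e' (e.symm (f ζ)) ∧
        F =ᶠ[𝓝 ζ] brT e e' f ∧
        ∀ z ∈ ball ζ s, σ ≤ N e' (F z) * Real.exp (-(m : ℝ) * w e' (F z)))
    {b' : Cm n} (hb' : b' ∈ B) :
    ∃ s : ℝ, 0 < s ∧ ball b' s ⊆ B ∧ ∃ (p : ℕ) (e : Fin p → Chart n Z)
      (F : Fin p → Cm n → Cm n), (∀ i, Sec m N w V G σ b' s (e i) (F i)) ∧
      (∀ z ∈ ball b' s, Function.Injective fun i => gr (e i) (F i) z) ∧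
      ∀ z ∈ ball b' s, ∀ γ ∈ G z, δ ≤ rn m N w γ.value → ∃ i, γ = gr (e i) (F i) z := by
  have hVa : ∀ z ∈ B, AnalyticAt ℂ V z := fun z hz => analyticAt_of_diffOn hBo hVd hz
  obtain ⟨s, hs, hsB, hosc⟩ := exists_osc (hBo.mem_nhds hb') (hVa b' hb').continuousAt
    (hV0 b' hb') hκ
  have hsB1 : ball b' s ⊆ B := (ball_subset_ball (by linarith)).trans hsB
  have hfin := sec_finite P hn hm hN hw hpos τ hM hVa hV0 hc₁ hlev hσ hs hsB1
  set T : Set (Germ (𝓝 b') Z) := {γ | ∃ e F, Sec m N w V G σ b' s e F ∧ γ = gr e F b'} with hT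
  haveI : Finite T := hfin
  obtain ⟨p, ⟨φ⟩⟩ := Finite.exists_equiv_fin T
  have h1 : ∀ i : Fin p, ∃ e F, Sec m N w V G σ b' s e F ∧
      ((φ.symm i : T) : Germ (𝓝 b') Z) = gr e F b' := fun i => (φ.symm i).2
  choose e F hS hγ using h1
  have hb0 : b' ∈ ball b' s := mem_ball_self hs
  have hinj0 : Function.Injective fun i => gr (e i) (F i) b' := by
    intro i i' hii
    simp only [← hγ] at hii
    exact φ.symm.injective (Subtype.ext hii)
  refine ⟨s, hs, hsB1, p, e, F, hS, fun z hz => sec_inj hS hb0 hinj0 hz, ?_⟩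
  intro z hz γ hγz hδ
  obtain ⟨e', F', hS', rfl⟩ := sec_of_germ hN hw hG hext hs hsB hVd hV0 hosc hz hγz hδ
  have h2 : gr e' F' b' ∈ T := ⟨e', F', hS', rfl⟩
  refine ⟨φ ⟨_, h2⟩, ?_⟩
  have h3 := hγ (φ ⟨_, h2⟩)
  rw [Equiv.symm_apply_apply] at h3
  exact germ_ident hS'.br (hS _).br hb0 h3 z hz

end Vale.Agent.P284.H451
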