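import Vale.Agent.P284.H451.CntM

/-!
# P284 (helper451), COUNT: pull-back of `c i∂∂̄φ + μ ∂χ∧∂̄χ` by a holomorphic map
-/

open scoped Manifold ContDiff Topology ComplexOrder ENNReal ComplexConjugate InnerProductSpace
open Filter MeasureTheory

set_option linter.all false

noncomputable section

namespace Vale.Agent.P284.H451

open Vale.Agent.P272.K

variable {n : ℕ}

/-- `c i∂∂̄φ + μ ∂χ∧∂̄χ` -/
def bm (c μ : ℝ) (φ χ : Cm n → ℝ) (z : Cm n) : Matrix (Fin n) (Fin n) ℂ :=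
  (c : ℂ) • cHess φ z + (μ : ℂ) • gm χ z

lemma gm_congr {χ χ' : Cm n → ℝ} {z : Cm n} (h : χ =ᶠ[𝓝 z] χ') : gm χ z = gm χ' z := by
  ext j k
  rw [gm, gm, Matrix.of_apply, Matrix.of_apply]
  have h1 : (fun y => (χ y : ℂ)) =ᶠ[𝓝 z] fun y => (χ' y : ℂ) := by
    filter_upwards [h] with y hy
    rw [hy]
  rw [Vale.Agent.P272.K.dz_congr h1, Vale.Agent.P272.K.dz_congr h1]

lemma gm_pull {χ : Cm n → ℝ} {T : Cm n → Cm n} {z : Cm n} (hT : ContDiffAt ℂ ω T z)
    (hχ : DifferentiableAt ℝ χ (T z)) :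
    gm (fun y => χ (T y)) z =
      (jmat T z).transpose * gm χ (T z) * (jmat T z).map (starRingEnd ℂ) := by
  have hd : DifferentiableAt ℝ (fun y => (χ y : ℂ)) (T z) :=
    Complex.ofRealCLM.differentiableAt.comp (T z) hχ
  have h1 : ∀ j, dz j (fun y => ((χ (T y) : ℝ) : ℂ)) z =
      ∑ p, jmat T z p j * dz p (fun y => (χ y : ℂ)) (T z) := by
    intro j
    have := dz_comp_holo (f := fun y => (χ y : ℂ)) (i := j) hd (hT.differentiableAt (by simp))
    rw [this]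
    exact Finset.sum_congr rfl fun p _ => mul_comm _ _
  ext j k
  rw [gm, Matrix.of_apply, h1, h1, map_sum]
  simp only [Matrix.mul_apply, Matrix.transpose_apply, Matrix.map_apply, gm, Matrix.of_apply,
    map_mul, Finset.sum_mul, Finset.mul_sum]
  refine Finset.sum_congr rfl fun q _ => Finset.sum_congr rfl fun p _ => ?_
  ring

/-- pull-back -/
theorem bm_pull {c μ : ℝ} {φ φ' χ χ' : Cm n → ℝ} {T : Cm n → Cm n} {z : Cm n}
    (hT : ContDiffAt ℂ ω T z) (hφ : ContDiffAt ℝ 2 φ (T z)) (hχ : DifferentiableAt ℝ χ (T z))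
    {h : Cm n → ℂ} (hh : ContDiffAt ℂ ω h z) (h0 : h z ≠ 0) (m : ℕ)
    (h1 : φ' =ᶠ[𝓝 z] fun y => φ (T y) + m * Real.log (‖h y‖ ^ 2))
    (h2 : χ' =ᶠ[𝓝 z] fun y => χ (T y)) :
    bm c μ φ' χ' z = (jmat T z).transpose * bm c μ φ χ (T z) * (jmat T z).map (starRingEnd ℂ) := by
  have hT2 : ContDiffAt ℝ 2 T z := (hT.restrict_scalars ℝ).of_le (by exact le_top)
  have h3 : ContDiffAt ℝ 2 (fun y => φ (T y)) z := ContDiffAt.comp z (g := φ) hφ hT2
  have h4 : ContDiffAt ℝ 2 (fun y => Real.log (‖h y‖ ^ 2)) z := by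
    have hd : ContDiffAt ℝ 2 h z := (hh.restrict_scalars ℝ).of_le (by exact le_top)
    exact (hd.norm_sq ℝ).log (pow_ne_zero 2 (norm_ne_zero_iff.2 h0))
  have h5 : cHess φ' z =
      (jmat T z).transpose * cHess φ (T z) * (jmat T z).map (starRingEnd ℂ) := by
    rw [Vale.Agent.P272.K.cHess_congr h1, Vale.Agent.P272.K.cHess_add h3 (contDiffAt_const.mul h4),
      Vale.Agent.P272.K.cHess_const_mul _ h4, cHess_log_norm_sq hh h0, smul_zero, add_zero,
      Vale.Agent.P272.K.cHess_comp hφ hT]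
  have h6 : gm χ' z = (jmat T z).transpose * gm χ (T z) * (jmat T z).map (starRingEnd ℂ) := by
    rw [gm_congr h2, gm_pull hT hχ]
  unfold bm
  rw [h5, h6, Matrix.mul_add, Matrix.add_mul, Matrix.mul_smul, Matrix.smul_mul, Matrix.mul_smul,
    Matrix.smul_mul]

lemma det_pull (J b : Matrix (Fin n) (Fin n) ℂ) :
    (J.transpose * b * J.map (starRingEnd ℂ)).det.re = ‖J.det‖ ^ 2 * b.det.re := by
  have h1 : (J.transpose * b * J.map (starRingEnd ℂ)).det =
      ((‖J.det‖ ^ 2 : ℝ) : ℂ) * b.det := by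
    rw [Matrix.det_mul, Matrix.det_mul, Matrix.det_transpose]
    have : (J.map (starRingEnd ℂ)).det = (starRingEnd ℂ) J.det := by
      rw [RingHom.map_det]; rfl
    rw [this]
    have h2 : J.det * (starRingEnd ℂ) J.det = ((‖J.det‖ ^ 2 : ℝ) : ℂ) := by
      rw [Complex.mul_conj, Complex.normSq_eq_norm_sq]
    linear_combination b.det * h2
  rw [h1, Complex.re_ofReal_mul]

lemma det_jmat {T : Cm n → Cm n} {z : Cm n} (hT : DifferentiableAt ℂ T z) :
    (jmat T z).det = (fderiv ℂ T z).det := by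
  have h3 : LinearMap.det (fderiv ℂ T z : Cm n →ₗ[ℂ] Cm n) = (jmat T z).det := by
    rw [← LinearMap.det_toMatrix']
    congr 1
    ext p i
    rw [LinearMap.toMatrix'_apply, jmat_apply hT]
    rfl
  rw [← h3]

lemma bm_herm {c μ : ℝ} {φ χ : Cm n → ℝ} {z : Cm n} (hφ : ContDiffAt ℝ 2 φ z) :
    (bm c μ φ χ z).IsHermitian := by
  unfold bm
  refine Matrix.IsHermitian.add ?_ ?_
  · exact (Vale.Agent.P272.K.cHess_isHermitian hφ).smul (by simp [IsSelfAdjoint])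
  · exact (gm_herm χ z).smul (by simp [IsSelfAdjoint])

lemma qm_bm {c μ : ℝ} {φ χ : Cm n → ℝ} {z : Cm n} (β : Cm n) :
    qm (bm c μ φ χ z) β = c * Vale.Agent.P284.H213.KL.lev φ z β +
      μ * ‖Vale.Agent.P284.H213.KL.dd χ z β‖ ^ 2 := by
  unfold bm
  rw [qm_add, qm_smul, qm_smul, qm_gm, ← lev_eq_qm]

end Vale.Agent.P284.H451
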