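import Vale.Agent.P284.H451.KLF
import Mathlib.Analysis.Complex.AbsMax

/-!
# P284 (helper451), Kodaira lemma, part G: pointwise bounds from the singular norm; division.
-/

open scoped Manifold ContDiff ComplexOrder Topology ENNReal
open Filter Set Metric MeasureTheory

set_option linter.all false

noncomputable section

namespace Vale.Agent.P284.H451

open Vale.Agent.P272.K Vale.Agent.P272.KOD Vale.Agent.P284.H812 Vale.Agent.P284.H213.KL

lemma limit_rad {A B t₀ r₀ : ℝ} {k : ℕ} (h : t₀ < r₀)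
    (hH : ∀ ρ, t₀ < ρ → ρ < r₀ → A ≤ B * (ρ ^ 2) ^ k) : A ≤ B * (t₀ ^ 2) ^ k := by
  have h1 : Tendsto (fun ρ : ℝ => B * (ρ ^ 2) ^ k) (𝓝[>] t₀) (𝓝 (B * (t₀ ^ 2) ^ k)) := by
    have : Continuous fun ρ : ℝ => B * (ρ ^ 2) ^ k := by fun_prop
    exact this.continuousAt.tendsto.mono_left nhdsWithin_le_nhds
  refine ge_of_tendsto h1 ?_
  filter_upwards [Ioo_mem_nhdsGT h] with ρ hρ using hH ρ hρ.1 hρ.2

/-- the radius comparison: near a point, `v` is bounded by a multiple of the radius -/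
lemma exists_rad {n : ℕ} {H : Type*} [NormedAddCommGroup H] [InnerProductSpace ℂ H]
    [CompleteSpace H] {v : Cm n → H} {c : Cm n} (hv : AnalyticAt ℂ v c) {P : Cm n → Prop}
    (hP : ∀ᶠ z in 𝓝 c, P z) :
    ∃ (r t K : ℝ), 0 < r ∧ 0 < t ∧ 0 < K ∧ (∀ z ∈ ball c (2 * r), P z) ∧
      ∀ z ∈ ball c r, t * ‖v z‖ < r ∧ ∀ ρ, t * ‖v z‖ < ρ → ρ < r → ∀ y, ‖y - z‖ ≤ ρ →
        y ∈ ball c (2 * r) ∧ ‖v y‖ ^ 2 ≤ K * ρ ^ 2 := by
  obtain ⟨L, s, hs, hL⟩ := (hv.contDiffAt (n := 1)).exists_lipschitzOnWith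
  have hb : ∀ᶠ z in 𝓝 c, ‖v z‖ < ‖v c‖ + 1 :=
    hv.continuousAt.norm.eventually_lt_const (by linarith)
  obtain ⟨R, hR, hball⟩ := Metric.eventually_nhds_iff_ball.1 (hP.and (hb.and hs))
  set r : ℝ := R / 2 with hr
  have hrp : 0 < r := by positivity
  have h2r : 2 * r = R := by rw [hr]; ring
  set M : ℝ := ‖v c‖ + 1 with hM
  have hMp : 0 < M := by positivity
  set t : ℝ := r / M with ht
  have htp : 0 < t := by positivity
  refine ⟨r, t, (1 / t + L) ^ 2, hrp, htp, by positivity, fun z hz => ?_, fun z hz => ⟨?_, ?_⟩⟩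
  · rw [h2r] at hz; exact (hball z hz).1
  · have hzR : z ∈ ball c R := ball_subset_ball (by linarith) hz
    have h1 := (hball z hzR).2.1
    rw [ht, div_mul_eq_mul_div, div_lt_iff₀ hMp]
    gcongr
  · intro ρ hρ hρr y hy
    have hρp : 0 < ρ := lt_of_le_of_lt (by positivity) hρ
    have hzR : z ∈ ball c R := ball_subset_ball (by linarith) hz
    have hyR : y ∈ ball c (2 * r) := by
      rw [mem_ball] at hz ⊢
      calc dist y c ≤ dist y z + dist z c := dist_triangle _ _ _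
        _ < r + r := by
          rw [dist_eq_norm]
          exact add_lt_add_of_le_of_lt (hy.trans hρr.le) hz
        _ = 2 * r := by ring
    refine ⟨hyR, ?_⟩
    rw [h2r] at hyR
    have h2 : ‖v y‖ ≤ ‖v z‖ + L * ρ := by
      have h3 := hL.dist_le_mul y (hball y hyR).2.2 z (hball z hzR).2.2
      rw [dist_eq_norm, dist_eq_norm] at h3
      have h4 : ‖v y‖ ≤ ‖v z‖ + ‖v y - v z‖ := by
        calc ‖v y‖ = ‖v z + (v y - v z)‖ := by congr 1; abel
          _ ≤ _ := norm_add_le _ _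
      have h5 : (L : ℝ) * ‖y - z‖ ≤ L * ρ := by gcongr
      linarith
    have h6 : ‖v z‖ ≤ 1 / t * ρ := by
      rw [one_div, inv_mul_eq_div, le_div_iff₀ htp]
      linarith
    calc ‖v y‖ ^ 2 ≤ ((1 / t + L) * ρ) ^ 2 := by
          apply pow_le_pow_left₀ (norm_nonneg _)
          nlinarith
      _ = _ := by ring

section
variable {n m : ℕ} {Z : Type*} [TopologicalSpace Z] [ChartedSpace (Cm n) Z]
  {H : Type*} [NormedAddCommGroup H] [InnerProductSpace ℂ H]
  [CompleteSpace H] {N w : Chart n Z → Cm n → ℝ}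

/-- pointwise squared norm of a section of `K^p` -/
def sn (w : Chart n Z → Cm n → ℝ) (p : ℕ) (c : Chart n Z → Cm n → ℂ) (x : Z) : ℝ :=
  ‖c (chartAt (Cm n) x) (chartAt (Cm n) x x)‖ ^ 2 *
    Real.exp (-(p : ℝ) * w (chartAt (Cm n) x) (chartAt (Cm n) x x))

/-- the function `N e^{-m w}` -/
def rn (m : ℕ) (N w : Chart n Z → Cm n → ℝ) (x : Z) : ℝ :=
  N (chartAt (Cm n) x) (chartAt (Cm n) x x) *
    Real.exp (-(m : ℝ) * w (chartAt (Cm n) x) (chartAt (Cm n) x x))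

lemma sn_nonneg (w : Chart n Z → Cm n → ℝ) (p : ℕ) (c : Chart n Z → Cm n → ℂ) (x : Z) :
    0 ≤ sn w p c x := by unfold sn; positivity

lemma rn_nonneg (hN : HMet n m Z H N) (x : Z) : 0 ≤ rn m N w x := by
  obtain ⟨v, -, h2⟩ := hN.loc _ _ (at_chartAt x)
  unfold rn
  rw [h2.self_of_nhds]; positivity

variable [IsManifold 𝓘(ℂ, Cm n) ω Z]

lemma sn_eq (hw : IsCanonicalMetric w) {p : ℕ} {c : Chart n Z → Cm n → ℂ}
    (hc : ∀ (e e' : Chart n Z) (x : Z), At e x → At e' x →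
      c e (e x) = c e' (e' x) * (jacM e e' x).det ^ p) {e : Chart n Z} {x : Z} (h : At e x) :
    sn w p c x = ‖c e (e x)‖ ^ 2 * Real.exp (-(p : ℝ) * w e (e x)) :=
  norm_change hw hc (at_chartAt x) h

lemma rn_eq (hw : IsCanonicalMetric w) (hN : HMet n m Z H N) {e : Chart n Z} {x : Z}
    (h : At e x) : rn m N w x = N e (e x) * Real.exp (-(m : ℝ) * w e (e x)) := by
  unfold rn
  set e' : Chart n Z := chartAt (Cm n) x with he'
  have h' : At e' x := at_chartAt x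
  have hd : 0 < ‖(jacM e' e x).det‖ ^ 2 :=
    pow_pos (norm_pos_iff.2 (jacM_det_ne_zero h' h)) 2
  have h1 : Real.exp (-(m : ℝ) * w e' (e' x)) =
      Real.exp (-(m : ℝ) * w e (e x)) * ((‖(jacM e' e x).det‖ ^ 2) ^ m)⁻¹ := by
    rw [hw.change e' e x h' h, mul_add, Real.exp_add]
    congr 1
    rw [neg_mul, Real.exp_neg, ← Real.log_pow, Real.exp_log (pow_pos hd m)]
  rw [h1, hN.change e' e x h' h]
  have : (‖(jacM e' e x).det‖ ^ 2) ^ m ≠ 0 := (pow_pos hd m).ne'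
  field_simp

omit [IsManifold 𝓘(ℂ, Cm n) ω Z] [ChartedSpace (Cm n) Z] in
lemma glob [CompactSpace Z] {F G : Z → ℝ} (k : ℕ) (hG : ∀ x, 0 ≤ G x)
    (h : ∀ x, ∃ B : ℝ, 0 ≤ B ∧ ∀ᶠ y in 𝓝 x, F y ≤ B * G y ^ k) :
    ∃ B : ℝ, 0 ≤ B ∧ ∀ x, F x ≤ B * G x ^ k := by
  have h1 : ∃ B : ℝ, 0 ≤ B ∧ ∀ x ∈ (univ : Set Z), F x ≤ B * G x ^ k := by
    refine isCompact_univ.induction_on (p := fun S => ∃ B : ℝ, 0 ≤ B ∧ ∀ x ∈ S, F x ≤ B * G x ^ k)
      ⟨0, le_rfl, fun x hx => hx.elim⟩ ?_ ?_ ?_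
    · rintro S T hST ⟨B, hB, hT⟩
      exact ⟨B, hB, fun x hx => hT x (hST hx)⟩
    · rintro S T ⟨B, hB, hS⟩ ⟨B', hB', hT⟩
      refine ⟨B + B', by positivity, fun x hx => ?_⟩
      have hGk : 0 ≤ G x ^ k := pow_nonneg (hG x) k
      rcases hx with hx | hx
      · have := hS x hx
        nlinarith
      · have := hT x hx
        nlinarith
    · intro x _
      obtain ⟨B, hB, hx⟩ := h x
      exact ⟨{y | F y ≤ B * G y ^ k}, mem_nhdsWithin_of_mem_nhds hx, B, hB, fun y hy => hy⟩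
  obtain ⟨B, hB, h2⟩ := h1
  exact ⟨B, hB, fun x => h2 x (mem_univ x)⟩

omit [IsManifold 𝓘(ℂ, Cm n) ω Z] in
/-- a smooth weight is bounded near a point -/
lemma exp_w_bdd (hw : IsCanonicalMetric w) {e : Chart n Z} {x : Z} (h : At e x) (q : ℝ) :
    ∃ E : ℝ, 0 < E ∧ ∀ᶠ z in 𝓝 (e x), Real.exp (q * w e z) ≤ E := by
  have h1 : ContinuousAt (fun z => Real.exp (q * w e z)) (e x) :=
    (continuousAt_const.mul (hw.smooth e x h).continuousAt).rexp
  refine ⟨Real.exp (q * w e (e x)) + 1, by positivity, ?_⟩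
  exact (h1.eventually_lt_const (by linarith)).mono fun z hz => hz.le

/-- **The mean value bound**: a section of finite singular norm is bounded by `N^{a-n}`. -/
theorem sup_of_snrm [CompactSpace Z] (hw : IsCanonicalMetric w) (hN : HMet n m Z H N)
    (C : PCov n Z) {a b : ℕ} (hna : n ≤ a) (s : PSec n (m * a + b) Z)
    (hs : ∀ i, snrm a b (N (C.e i)) (w (C.e i)) (C.V i) (s.coeff (C.e i)) < ⊤) :
    ∃ B : ℝ, 0 ≤ B ∧ ∀ x, sn w (m * a + b) s.coeff x ≤ B * rn m N w x ^ (a - n) := by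
  refine glob _ (fun x => rn_nonneg hN x) fun x₀ => ?_
  obtain ⟨i, hxs, hxV⟩ := pcov_cov C x₀
  set e := C.e i with he
  have hx : At e x₀ := ⟨C.mem i, hxs⟩
  have hVt : C.V i ⊆ e.target := ball_subset_closedBall.trans (C.sub i)
  obtain ⟨v, hv, hNv⟩ := hN.loc e x₀ hx
  have hVo : IsOpen (C.V i) := isOpen_ball
  obtain ⟨E, hE0, hE⟩ := exp_w_bdd hw hx (b : ℝ)
  obtain ⟨E', hE'0, hE'⟩ := exp_w_bdd hw hx (-((m * n + b : ℕ) : ℝ))
  obtain ⟨r, t, K, hr, ht, hK, hP, hrad⟩ := exists_rad hv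
    ((hVo.eventually_mem hxV).and (hNv.and (hE.and hE')))
  set f := s.coeff e with hf
  set S : ℝ := (snrm a b (N e) (w e) (C.V i) f).toReal with hS
  have hSt : snrm a b (N e) (w e) (C.V i) f ≠ ⊤ := (hs i).ne
  have hS0 : 0 ≤ S := ENNReal.toReal_nonneg
  have hfd : DifferentiableOn ℂ f (C.V i) := by
    intro z hz
    have h1 := s.holo e _ (At.of_target (C.mem i) (hVt hz))
    rw [e.right_inv (hVt hz)] at h1
    exact h1.differentiableAt.differentiableWithinAt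
  set V₁ : ℝ := (volume (ball (0 : Cm n) 1)).toReal with hV₁
  have hV₁t : volume (ball (0 : Cm n) 1) ≠ ⊤ := measure_ball_lt_top.ne
  have hV₁p : 0 < V₁ := ENNReal.toReal_pos (measure_ball_pos _ _ one_pos).ne' hV₁t
  have hloc : ∀ z ∈ ball (e x₀) r,
      ‖f z‖ ^ 2 ≤ (E * K ^ a * S / V₁) * ((t * ‖v z‖) ^ 2) ^ (a - n) := by
    intro z hz
    refine limit_rad (hrad z hz).1 fun ρ hρ hρr => ?_
    have hρp : 0 < ρ := lt_of_le_of_lt (by positivity) hρ
    have hy := (hrad z hz).2 ρ hρ hρr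
    have hsub : ball z ρ ⊆ C.V i := fun y hyb =>
      (hP y (hy y (by rw [← dist_eq_norm]; exact (mem_ball.1 hyb).le)).1).1
    have h1 := Vale.Agent.P271.H408.enorm_sq_mul_volume_le (f := f) (z := z) (r := ρ)
      (hfd.mono hsub)
    have hvol : volume (ball z ρ) = ENNReal.ofReal (ρ ^ (2 * n) * V₁) := by
      rw [Measure.addHaar_ball_of_pos volume z hρp, ENNReal.ofReal_mul (by positivity), hV₁,
        ENNReal.ofReal_toReal hV₁t]
      have hfr : Module.finrank ℝ (Cm n) = 2 * n := by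
        rw [Module.finrank_pi_fintype]
        simp [Complex.finrank_real_complex, mul_comm]
      rw [hfr]
    have h2 : ∫⁻ y in ball z ρ, ‖f y‖ₑ ^ 2 ≤ ENNReal.ofReal (E * (K * ρ ^ 2) ^ a * S) := by
      calc ∫⁻ y in ball z ρ, ‖f y‖ₑ ^ 2 ≤ ∫⁻ y in ball z ρ,
          ENNReal.ofReal (E * (K * ρ ^ 2) ^ a) *
            (ENNReal.ofReal (‖f y‖ ^ 2 * Real.exp (-(b : ℝ) * w e y)) *
              (ENNReal.ofReal (N e y))⁻¹ ^ a) := by
            refine setLIntegral_mono' measurableSet_ball fun y hyb => ?_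
            obtain ⟨hy1, hy2⟩ := hy y (by rw [← dist_eq_norm]; exact (mem_ball.1 hyb).le)
            obtain ⟨-, hNy, hEy, -⟩ := hP y hy1
            have hNK : N e y ≤ K * ρ ^ 2 := by rw [hNy]; exact hy2
            have hKρ : 0 < K * ρ ^ 2 := by positivity
            have e1 : (ENNReal.ofReal (K * ρ ^ 2))⁻¹ ^ a ≤ (ENNReal.ofReal (N e y))⁻¹ ^ a := by
              gcongr
            have e2 : ENNReal.ofReal ((K * ρ ^ 2) ^ a) * (ENNReal.ofReal (K * ρ ^ 2))⁻¹ ^ a = 1 := by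
              rw [ENNReal.ofReal_pow hKρ.le, ← mul_pow,
                ENNReal.mul_inv_cancel (ENNReal.ofReal_pos.2 hKρ).ne' ENNReal.ofReal_ne_top,
                one_pow]
            have e3 : ‖f y‖ₑ ^ 2 ≤ ENNReal.ofReal E *
                ENNReal.ofReal (‖f y‖ ^ 2 * Real.exp (-(b : ℝ) * w e y)) := by
              rw [← ofReal_norm, ← ENNReal.ofReal_pow (norm_nonneg _),
                ← ENNReal.ofReal_mul hE0.le]
              apply ENNReal.ofReal_le_ofReal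
              have e4 : Real.exp ((b : ℝ) * w e y) * Real.exp (-(b : ℝ) * w e y) = 1 := by
                rw [← Real.exp_add]; simp
              calc ‖f y‖ ^ 2 = (Real.exp ((b : ℝ) * w e y) * Real.exp (-(b : ℝ) * w e y)) *
                    ‖f y‖ ^ 2 := by rw [e4, one_mul]
                _ ≤ (E * Real.exp (-(b : ℝ) * w e y)) * ‖f y‖ ^ 2 := by gcongr
                _ = _ := by ring
            calc ‖f y‖ₑ ^ 2 ≤ ENNReal.ofReal E *
                  ENNReal.ofReal (‖f y‖ ^ 2 * Real.exp (-(b : ℝ) * w e y)) * 1 := by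
                  rw [mul_one]; exact e3
              _ = ENNReal.ofReal E * ENNReal.ofReal (‖f y‖ ^ 2 * Real.exp (-(b : ℝ) * w e y)) *
                  (ENNReal.ofReal ((K * ρ ^ 2) ^ a) * (ENNReal.ofReal (K * ρ ^ 2))⁻¹ ^ a) := by
                  rw [e2]
              _ ≤ ENNReal.ofReal E * ENNReal.ofReal (‖f y‖ ^ 2 * Real.exp (-(b : ℝ) * w e y)) *
                  (ENNReal.ofReal ((K * ρ ^ 2) ^ a) * (ENNReal.ofReal (N e y))⁻¹ ^ a) := by
                  gcongr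
              _ = _ := by
                  rw [ENNReal.ofReal_mul hE0.le]; ring
        _ = ENNReal.ofReal (E * (K * ρ ^ 2) ^ a) * snrm a b (N e) (w e) (ball z ρ) f := by
            rw [lintegral_const_mul' _ _ ENNReal.ofReal_ne_top]
            rfl
        _ ≤ ENNReal.ofReal (E * (K * ρ ^ 2) ^ a) * snrm a b (N e) (w e) (C.V i) f := by
            gcongr
            exact lintegral_mono_set hsub
        _ = ENNReal.ofReal (E * (K * ρ ^ 2) ^ a * S) := by
            rw [ENNReal.ofReal_mul (by positivity : (0 : ℝ) ≤ E * (K * ρ ^ 2) ^ a), hS,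
              ENNReal.ofReal_toReal hSt]
    have h3 : ENNReal.ofReal (‖f z‖ ^ 2 * (ρ ^ (2 * n) * V₁)) ≤
        ENNReal.ofReal (E * (K * ρ ^ 2) ^ a * S) := by
      rw [ENNReal.ofReal_mul (by positivity), ← hvol, ENNReal.ofReal_pow (norm_nonneg _),
        ofReal_norm]
      exact h1.trans h2
    have h4 := (ENNReal.ofReal_le_ofReal_iff (by positivity)).1 h3
    have h5 : E * (K * ρ ^ 2) ^ a * S =
        (E * K ^ a * S / V₁) * (ρ ^ 2) ^ (a - n) * (ρ ^ (2 * n) * V₁) := by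
      have h6 : (ρ ^ 2) ^ a = (ρ ^ 2) ^ (a - n) * ρ ^ (2 * n) := by
        rw [pow_mul, ← pow_add, Nat.sub_add_cancel hna]
      rw [mul_pow, h6]
      field_simp
    rw [h5] at h4
    exact le_of_mul_le_mul_right h4 (by positivity)
  refine ⟨(E * K ^ a * S / V₁) * (t ^ 2) ^ (a - n) * E', by positivity, ?_⟩
  have h7 : ∀ᶠ y in 𝓝 x₀, e y ∈ ball (e x₀) r :=
    (e.continuousAt hxs).eventually_mem (isOpen_ball.mem_nhds (mem_ball_self hr))
  filter_upwards [h7, e.open_source.mem_nhds hxs] with y hy hys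
  have hay : At e y := ⟨C.mem i, hys⟩
  have h8 := hloc (e y) hy
  obtain ⟨-, hNy, -, hE'y⟩ := hP (e y) (ball_subset_ball (by linarith) hy)
  rw [sn_eq hw s.change hay, rn_eq hw hN hay]
  have h9 : Real.exp (-((m * a + b : ℕ) : ℝ) * w e (e y)) =
      (Real.exp (-(m : ℝ) * w e (e y))) ^ (a - n) *
        Real.exp (-((m * n + b : ℕ) : ℝ) * w e (e y)) := by
    rw [← Real.exp_nat_mul, ← Real.exp_add]
    congr 1
    rw [Nat.cast_sub hna]
    push_cast
    ring
  have h10 : ((t * ‖v (e y)‖) ^ 2) ^ (a - n) = (t ^ 2) ^ (a - n) * N e (e y) ^ (a - n) := by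
    rw [hNy, mul_pow, mul_pow]
  rw [h10] at h8
  rw [h9]
  have hN0 : 0 ≤ N e (e y) := by rw [hNy]; positivity
  calc ‖s.coeff e (e y)‖ ^ 2 * (Real.exp (-(m : ℝ) * w e (e y)) ^ (a - n) *
        Real.exp (-((m * n + b : ℕ) : ℝ) * w e (e y)))
      ≤ ((E * K ^ a * S / V₁) * ((t ^ 2) ^ (a - n) * N e (e y) ^ (a - n))) *
        (Real.exp (-(m : ℝ) * w e (e y)) ^ (a - n) * E') := by
        gcongr
    _ = _ := by rw [mul_pow]; ring

end

end Vale.Agent.P284.H451
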