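import Vale.Agent.P284.H213.KL.SK2
import Vale.Agent.P284.H451.KLG
import Vale.Agent.P272.Sz.Det
import Vale.Agent.P284.H451.CntA
import Vale.Agent.P284.H451.CntB

/-!
# P284 (helper451), COUNT: the pointwise matrix inequality
-/

open scoped Manifold ContDiff Topology ComplexOrder ENNReal ComplexConjugate InnerProductSpace
open Filter MeasureTheory

set_option linter.all false

noncomputable section

namespace Vale.Agent.P284.H451

open Vale.Agent.P272.K Vale.Agent.P272.K.C2 Vale.Agent.P272.KOD Vale.Agent.P284.H812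
  Vale.Agent.P284.H213.KL

variable {n : ℕ}

/-- the Hermitian form of a matrix (real part) -/
def qm (A : Matrix (Fin n) (Fin n) ℂ) (β : Cm n) : ℝ := (∑ j, ∑ k, A j k * β j * conj (β k)).re

lemma lev_eq_qm (f : Cm n → ℝ) (z β : Cm n) : lev f z β = qm (cHess f z) β := rfl

/-- the matrix `∂g ∂g^*` -/
def gm (g : Cm n → ℝ) (z : Cm n) : Matrix (Fin n) (Fin n) ℂ :=
  Matrix.of fun j k => dz j (fun y => (g y : ℂ)) z * conj (dz k (fun y => (g y : ℂ)) z)

lemma qm_add (A B : Matrix (Fin n) (Fin n) ℂ) (β : Cm n) : qm (A + B) β = qm A β + qm B β := by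
  unfold qm
  rw [← Complex.add_re, ← Finset.sum_add_distrib]
  congr 1
  refine Finset.sum_congr rfl fun j _ => ?_
  rw [← Finset.sum_add_distrib]
  refine Finset.sum_congr rfl fun k _ => ?_
  rw [Matrix.add_apply]; ring

lemma qm_smul (c : ℝ) (A : Matrix (Fin n) (Fin n) ℂ) (β : Cm n) :
    qm ((c : ℂ) • A) β = c * qm A β := by
  unfold qm
  rw [← Complex.re_ofReal_mul, Finset.mul_sum]
  congr 1
  refine Finset.sum_congr rfl fun j _ => ?_
  rw [Finset.mul_sum]
  refine Finset.sum_congr rfl fun k _ => ?_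
  rw [Matrix.smul_apply, smul_eq_mul]; ring

lemma qm_neg (A : Matrix (Fin n) (Fin n) ℂ) (β : Cm n) : qm (-A) β = -qm A β := by
  have := qm_smul (-1) A β
  simpa using this

lemma qm_sub (A B : Matrix (Fin n) (Fin n) ℂ) (β : Cm n) : qm (A - B) β = qm A β - qm B β := by
  rw [sub_eq_add_neg, qm_add, qm_neg, sub_eq_add_neg]

lemma qm_gm (g : Cm n → ℝ) (z β : Cm n) : qm (gm g z) β = ‖dd g z β‖ ^ 2 := by
  have h1 : ∑ j, ∑ k, gm g z j k * β j * conj (β k) = dd g z β * conj (dd g z β) := by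
    unfold dd
    rw [map_sum, Finset.sum_mul]
    refine Finset.sum_congr rfl fun j _ => ?_
    rw [Finset.mul_sum]
    refine Finset.sum_congr rfl fun k _ => ?_
    rw [map_mul, gm, Matrix.of_apply]
    ring
  unfold qm
  rw [h1, Complex.mul_conj, Complex.ofReal_re, Complex.normSq_eq_norm_sq]

lemma gm_herm (g : Cm n → ℝ) (z : Cm n) : (gm g z).IsHermitian := by
  ext j k
  rw [Matrix.conjTranspose_apply, gm, Matrix.of_apply, Matrix.of_apply, Complex.star_def, map_mul,
    Complex.conj_conj, mul_comm]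

lemma psd_of_qm {A : Matrix (Fin n) (Fin n) ℂ} (hA : A.IsHermitian) (h : ∀ β, 0 ≤ qm A β) :
    A.PosSemidef := by
  refine Matrix.PosSemidef.of_dotProduct_mulVec_nonneg hA fun x => ?_
  have h1 : (star x ⬝ᵥ A.mulVec x) = ∑ j, ∑ k, A j k * star x j * conj (star x k) := by
    rw [dotProduct]
    refine Finset.sum_congr rfl fun j _ => ?_
    rw [Matrix.mulVec, dotProduct, Finset.mul_sum]
    refine Finset.sum_congr rfl fun k _ => ?_
    simp only [Pi.star_apply, Complex.star_def, Complex.conj_conj]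
    ring
  have h2 : 0 ≤ (star x ⬝ᵥ A.mulVec x).re := by
    rw [h1]; exact h (star x)
  have h3 : (star x ⬝ᵥ A.mulVec x).im = 0 := by
    have := hA.im_star_dotProduct_mulVec_self x
    simpa using this
  rw [Complex.le_def]
  exact ⟨h2, h3.symm⟩

lemma det_psd_le {A B : Matrix (Fin n) (Fin n) ℂ} (hA : A.PosSemidef)
    (hAB : (B - A).PosSemidef) : A.det.re ≤ B.det.re := by
  have hB : B.PosSemidef := by
    have := hA.add hAB
    rwa [add_sub_cancel] at this
  by_cases h : A.det = 0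
  · rw [h]
    exact (Complex.le_def.mp hB.det_nonneg).1
  · have hp : A.PosDef := by
      rw [hA.posDef_iff_isUnit, Matrix.isUnit_iff_isUnit_det]
      exact isUnit_iff_ne_zero.mpr h
    exact (Complex.le_def.mp (Vale.Agent.P272.Sz.det_le_det hp hAB)).1

/-- `log (A + B)` -/
lemma lev_log_add_ge {A B : Cm n → ℝ} {z : Cm n} (hA : ContDiffAt ℝ 2 A z)
    (hB : ContDiffAt ℝ 2 B z) (hA0 : 0 < A z) (hB0 : 0 < B z) {β : Cm n}
    (hlB : 0 ≤ lev (fun y => Real.log (B y)) z β) :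
    A z / (A z + B z) * lev (fun y => Real.log (A y)) z β ≤
      lev (fun y => Real.log (A y + B y)) z β := by
  have hdA : DifferentiableAt ℝ A z := hA.differentiableAt (by norm_num)
  have hdB : DifferentiableAt ℝ B z := hB.differentiableAt (by norm_num)
  rw [lev_log (u := fun y => A y + B y) (hA.add hB) (by positivity) β, lev_add hA hB,
    dd_add hdA hdB, lev_log hA hA0]
  rw [lev_log hB hB0] at hlB
  set a := A z
  set b := B z
  set p := ‖dd A z β‖
  set r := ‖dd B z β‖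
  set LA := lev A z β
  set LB := lev B z β
  have h1 : ‖dd A z β + dd B z β‖ ≤ p + r := norm_add_le _ _
  have h2 : ‖dd A z β + dd B z β‖ ^ 2 ≤ (p + r) ^ 2 := pow_le_pow_left₀ (norm_nonneg _) h1 2
  have h3 : (p + r) ^ 2 ≤ (a + b) * (p ^ 2 / a + r ^ 2 / b) := by
    have : (a + b) * (p ^ 2 / a + r ^ 2 / b) - (p + r) ^ 2 = (b * p - a * r) ^ 2 / (a * b) := by
      field_simp
      ring
    have h4 : 0 ≤ (b * p - a * r) ^ 2 / (a * b) := by positivity
    linarith
  have h5 : r ^ 2 / b ≤ LB := by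
    have h6 := mul_nonneg hB0.le hlB
    have h7 : b * (b⁻¹ * LB - (b ^ 2)⁻¹ * r ^ 2) = LB - r ^ 2 / b := by
      field_simp
    linarith
  have h8 : ((a + b) ^ 2)⁻¹ * ‖dd A z β + dd B z β‖ ^ 2 ≤ (a + b)⁻¹ * (p ^ 2 / a + LB) := by
    calc ((a + b) ^ 2)⁻¹ * ‖dd A z β + dd B z β‖ ^ 2
        ≤ ((a + b) ^ 2)⁻¹ * ((a + b) * (p ^ 2 / a + r ^ 2 / b)) := by
          gcongr
          exact h2.trans h3
      _ = (a + b)⁻¹ * (p ^ 2 / a + r ^ 2 / b) := by field_simp
      _ ≤ _ := by gcongr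
  have h9 : a / (a + b) * (a⁻¹ * LA - (a ^ 2)⁻¹ * p ^ 2) = (a + b)⁻¹ * (LA - p ^ 2 / a) := by
    field_simp
  rw [h9]
  have h10 : (a + b)⁻¹ * (LA + LB) - (a + b)⁻¹ * (p ^ 2 / a + LB) =
      (a + b)⁻¹ * (LA - p ^ 2 / a) := by ring
  linarith

end Vale.Agent.P284.H451
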