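import Vale.Agent.P284.H451.CntL

/-!
# P284 (helper451), COUNT: the Levi form of the total weight
-/

open scoped Manifold ContDiff Topology ComplexOrder ENNReal ComplexConjugate InnerProductSpace
open Filter MeasureTheory

set_option linter.all false

noncomputable section

namespace Vale.Agent.P284.H451

open Vale.Agent.P272.K Vale.Agent.P272.KOD Vale.Agent.P284.H812 Vale.Agent.P284.H213.KL

variable {n : ℕ}

lemma dd_congr {f g : Cm n → ℝ} {z : Cm n} (h : f =ᶠ[𝓝 z] g) (β : Cm n) : dd f z β = dd g z β := by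
  unfold dd
  refine Finset.sum_congr rfl fun j _ => ?_
  have h1 : (fun y => (f y : ℂ)) =ᶠ[𝓝 z] fun y => (g y : ℂ) := by
    filter_upwards [h] with y hy
    rw [hy]
  rw [Vale.Agent.P272.K.dz_congr h1]

lemma dd_const (c : ℝ) (z β : Cm n) : dd (fun _ : Cm n => c) z β = 0 := by
  unfold dd
  refine Finset.sum_eq_zero fun j _ => ?_
  have : dz j (fun _ : Cm n => (c : ℂ)) z = 0 := by
    unfold dz
    simp
  rw [this, mul_zero]

section
variable {H : Type*} [NormedAddCommGroup H] [InnerProductSpace ℂ H] [CompleteSpace H]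

lemma lev_logN_nonneg {v : Cm n → H} {z : Cm n} (hv : AnalyticAt ℂ v z) (h0 : v z ≠ 0) (β : Cm n) :
    0 ≤ lev (fun y => Real.log (‖v y‖ ^ 2)) z β := by
  have h2 : ContDiffAt ℝ 2 (fun y => ‖v y‖ ^ 2) z := (contDiffAt_normSq hv).of_le (by norm_cast)
  have hp : 0 < ‖v z‖ ^ 2 := by positivity
  rw [lev_log h2 hp, lev_normSq hv, dd_normSq hv]
  have h3 := norm_inner_le_norm (𝕜 := ℂ) (v z) (fderiv ℂ v z β)
  have h4 : ‖⟪v z, fderiv ℂ v z β⟫_ℂ‖ ^ 2 ≤ ‖v z‖ ^ 2 * ‖fderiv ℂ v z β‖ ^ 2 := by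
    rw [← mul_pow]
    exact pow_le_pow_left₀ (norm_nonneg _) h3 2
  have h5 : ((‖v z‖ ^ 2) ^ 2)⁻¹ * ‖⟪v z, fderiv ℂ v z β⟫_ℂ‖ ^ 2 ≤
      ((‖v z‖ ^ 2) ^ 2)⁻¹ * (‖v z‖ ^ 2 * ‖fderiv ℂ v z β‖ ^ 2) :=
    mul_le_mul_of_nonneg_left h4 (by positivity)
  have h6 : ((‖v z‖ ^ 2) ^ 2)⁻¹ * (‖v z‖ ^ 2 * ‖fderiv ℂ v z β‖ ^ 2) =
      (‖v z‖ ^ 2)⁻¹ * ‖fderiv ℂ v z β‖ ^ 2 := by field_simp
  linarith

end

lemma lev_log_tau {t : Cm n → ℂ} {z : Cm n} (ht : AnalyticAt ℂ t z) (h0 : t z ≠ 0) (β : Cm n) :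
    lev (fun y => Real.log (‖t y‖ ^ 2)) z β = 0 := by
  rw [lev_eq_qm, cHess_log_norm_sq ht.contDiffAt h0]
  simp [qm]

section tau
variable {K k b : ℝ → ℝ} {c : ℝ}

theorem lev_tau (P : Prof K k b c) {j : ℝ} (hj : 0 < j) {t : Cm n → ℂ} {z : Cm n}
    (ht : AnalyticAt ℂ t z) {W : Cm n → ℝ} (hW : ContDiffAt ℝ 2 W z) (M : ℕ) {β : Cm n}
    (hβ : 0 ≤ lev W z β) :
    j / c * ‖dd (fun y => exF k j (‖t y‖ ^ 2 * Real.exp (-(M : ℝ) * W y))) z β‖ ^ 2 ≤
      lev (fun y => (M : ℝ) * W y +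
        exF (fun s => j * K s) j (‖t y‖ ^ 2 * Real.exp (-(M : ℝ) * W y))) z β := by
  have hc := P.c0
  have hc1 : ContinuousAt (fun y => ‖t y‖ ^ 2 * Real.exp (-(M : ℝ) * W y)) z :=
    (ht.continuousAt.norm.pow 2).mul (continuousAt_const.mul hW.continuousAt).rexp
  by_cases h0 : t z = 0
  · have h1 : ∀ᶠ y in 𝓝 z, ‖t y‖ ^ 2 * Real.exp (-(M : ℝ) * W y) < Real.exp (-(2 * j)) := by
      refine hc1.eventually_lt_const ?_
      show ‖t z‖ ^ 2 * Real.exp (-(M : ℝ) * W z) < Real.exp (-(2 * j))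
      rw [h0, norm_zero]
      simp [Real.exp_pos]
    have h2 : (fun y => exF k j (‖t y‖ ^ 2 * Real.exp (-(M : ℝ) * W y))) =ᶠ[𝓝 z] fun _ => 0 := by
      filter_upwards [h1] with y hy
      exact exF_zero hj P.zk hy.le
    have h3 : (fun y => (M : ℝ) * W y +
        exF (fun s => j * K s) j (‖t y‖ ^ 2 * Real.exp (-(M : ℝ) * W y))) =ᶠ[𝓝 z]
        fun y => (M : ℝ) * W y := by
      filter_upwards [h1] with y hy
      rw [exF_zero hj (fun s hs => by rw [P.zK s hs, mul_zero]) hy.le, add_zero]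
    rw [dd_congr h2, dd_const, lev_congr h3, lev_const_mul hW]
    simp only [norm_zero, ne_eq, OfNat.ofNat_ne_zero, not_false_eq_true, zero_pow, mul_zero]
    positivity
  · set u : Cm n → ℝ := fun y => Real.log (‖t y‖ ^ 2) - (M : ℝ) * W y with hu
    have ht2 : ContDiffAt ℝ 2 (fun y => Real.log (‖t y‖ ^ 2)) z := by
      have hd : ContDiffAt ℝ 2 t z := (ht.contDiffAt (n := ω)).restrict_scalars ℝ |>.of_le le_top
      exact (hd.norm_sq ℝ).log (pow_ne_zero 2 (norm_ne_zero_iff.2 h0))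
    have hu2 : ContDiffAt ℝ 2 u z := ht2.sub (contDiffAt_const.mul hW)
    have hud : DifferentiableAt ℝ u z := hu2.differentiableAt (by norm_num)
    have h1 : ∀ᶠ y in 𝓝 z, 0 < ‖t y‖ ^ 2 * Real.exp (-(M : ℝ) * W y) ∧
        Real.log (‖t y‖ ^ 2 * Real.exp (-(M : ℝ) * W y)) = u y := by
      filter_upwards [ht.continuousAt.eventually_ne h0] with y hy
      have hp : 0 < ‖t y‖ ^ 2 := by positivity
      refine ⟨by positivity, ?_⟩
      rw [Real.log_mul hp.ne' (Real.exp_pos _).ne', Real.log_exp, hu]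
      ring
    have h2 : (fun y => exF k j (‖t y‖ ^ 2 * Real.exp (-(M : ℝ) * W y))) =ᶠ[𝓝 z]
        fun y => k (u y / j) := by
      filter_upwards [h1] with y hy
      rw [exF_pos hy.1, hy.2]
    have h3 : (fun y => (M : ℝ) * W y +
        exF (fun s => j * K s) j (‖t y‖ ^ 2 * Real.exp (-(M : ℝ) * W y))) =ᶠ[𝓝 z]
        fun y => (M : ℝ) * W y + j * K (u y / j) := by
      filter_upwards [h1] with y hy
      rw [exF_pos hy.1, hy.2]
    have hd1 : ∀ s, HasDerivAt (fun s => j * K (s / j)) (k (s / j)) s := by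
      intro s
      have := ((P.dK (s / j)).comp s ((hasDerivAt_id' s).div_const j)).const_mul j
      refine this.congr_deriv ?_
      field_simp
    have hd2 : ∀ s, HasDerivAt (fun s => k (s / j)) (b (s / j) / j) s := by
      intro s
      have := (P.dk (s / j)).comp s ((hasDerivAt_id' s).div_const j)
      refine this.congr_deriv ?_
      field_simp
    have hlu : lev u z β = -((M : ℝ) * lev W z β) := by
      have e1 : lev u z β = lev (fun y => Real.log (‖t y‖ ^ 2) + (-(M : ℝ)) * W y) z β := by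
        congr 1
        funext y
        rw [hu]; ring
      rw [e1, lev_add ht2 (contDiffAt_const.mul hW), lev_log_tau ht h0, lev_const_mul hW]
      ring
    have hKs : ContDiffAt ℝ 2 (fun y => j * K (u y / j)) z := by
      have : ContDiffAt ℝ 2 K (u z / j) := P.sK.contDiffAt.of_le (by norm_cast)
      exact contDiffAt_const.mul (this.comp z (hu2.div_const j))
    rw [dd_congr h2, lev_congr h3, lev_add (contDiffAt_const.mul hW) hKs, lev_const_mul hW,
      lev_comp (ψ := fun s => j * K (s / j)) (ψ₁ := fun s => k (s / j))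
        (ψ₂ := b (u z / j) / j) (Eventually.of_forall hd1) (hd2 (u z)) hu2,
      dd_comp (ψ := fun s => k (s / j)) (hd2 (u z)) hud, hlu, norm_mul, mul_pow,
      Complex.norm_real, Real.norm_eq_abs, sq_abs]
    have e1 := P.nb (u z / j)
    have e2 := P.lb (u z / j)
    have e3 := P.lk (u z / j)
    have e4 := P.nk (u z / j)
    set B := b (u z / j)
    set κ := k (u z / j)
    set D := ‖dd u z β‖ ^ 2 with hD
    have hD0 : 0 ≤ D := by positivity
    have e5 : j / c * ((B / j) ^ 2 * D) ≤ B / j * D := by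
      have : j / c * ((B / j) ^ 2 * D) = (B / c) * (B / j * D) := by field_simp
      rw [this]
      have h6 : B / c ≤ 1 := (div_le_one hc).mpr e2
      have h7 : 0 ≤ B / j * D := by positivity
      nlinarith
    have e6 : 0 ≤ (1 - κ) * ((M : ℝ) * lev W z β) := mul_nonneg (by linarith) (by positivity)
    linarith

end tau

end Vale.Agent.P284.H451
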