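import Vale.Agent.P284.H451.CntM2

/-!
# P284 (helper451), COUNT: the total weight and its mass
-/

open scoped Manifold ContDiff Topology ComplexOrder ENNReal ComplexConjugate InnerProductSpace
open Filter MeasureTheory

set_option linter.all false

noncomputable section

namespace Vale.Agent.P284.H451

open Vale.Agent.P272.K Vale.Agent.P272.K.INT Vale.Agent.P272.KOD Vale.Agent.P284.H812
  Vale.Agent.P284.H213.KL

variable {n m M : ℕ} {Z : Type*} [TopologicalSpace Z] [ChartedSpace (Cm n) Z]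
  {H : Type*} [NormedAddCommGroup H] [InnerProductSpace ℂ H] [CompleteSpace H]
  {N w : Chart n Z → Cm n → ℝ}

/-- `|τ|² e^{-Mw}` in a chart -/
def Sc (τ : PSec n M Z) (w : Chart n Z → Cm n → ℝ) (e : Chart n Z) (z : Cm n) : ℝ :=
  ‖τ.coeff e z‖ ^ 2 * Real.exp (-(M : ℝ) * w e z)

/-- `N e^{-mw}` in a chart -/
def Rc (m : ℕ) (N w : Chart n Z → Cm n → ℝ) (e : Chart n Z) (z : Cm n) : ℝ :=
  N e z * Real.exp (-(m : ℝ) * w e z)

omit [CompleteSpace H] in
lemma Rc_nonneg (hN : HMet n m Z H N) {e : Chart n Z} {x : Z} (h : At e x) :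
    0 ≤ Rc m N w e (e x) :=
  mul_nonneg (HMet.nonneg hN h) (Real.exp_pos _).le

lemma Sc_nonneg (τ : PSec n M Z) (w : Chart n Z → Cm n → ℝ) (e : Chart n Z) (z : Cm n) :
    0 ≤ Sc τ w e z := by unfold Sc; positivity

lemma Sc_smooth (hw : IsCanonicalMetric w) (τ : PSec n M Z) {e : Chart n Z} {x : Z} (h : At e x) :
    ContDiffAt ℝ ∞ (Sc τ w e) (e x) := by
  have hd : ContDiffAt ℝ ∞ (τ.coeff e) (e x) :=
    ((τ.holo e x h).contDiffAt (n := ω)).restrict_scalars ℝ |>.of_le (by exact le_top)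
  exact (hd.norm_sq ℝ).mul (contDiffAt_const.mul (hw.smooth e x h)).exp

lemma Rc_smooth (hN : HMet n m Z H N) (hw : IsCanonicalMetric w) {e : Chart n Z} {x : Z}
    (h : At e x) : ContDiffAt ℝ ∞ (Rc m N w e) (e x) :=
  (smooth_N hN h).mul (contDiffAt_const.mul (hw.smooth e x h)).exp

section tot
variable {K k b : ℝ → ℝ} {c : ℝ}

/-- the cut-off function in a chart -/
def Xc (k : ℝ → ℝ) (j : ℝ) (τ : PSec n M Z) (w : Chart n Z → Cm n → ℝ) (e : Chart n Z) (z : Cm n) :
    ℝ := exF k j (Sc τ w e z)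

/-- the total weight in a chart -/
def Psi (m : ℕ) (K : ℝ → ℝ) (j δ : ℝ) (τ : PSec n M Z) (N w : Chart n Z → Cm n → ℝ)
    (e : Chart n Z) (z : Cm n) : ℝ :=
  ((m + M : ℕ) : ℝ) * w e z +
    (Real.log (Rc m N w e z + δ) + exF (fun s => j * K s) j (Sc τ w e z))

lemma smooth_exF_Sc (hw : IsCanonicalMetric w) (τ : PSec n M Z) {e : Chart n Z} {x : Z}
    (h : At e x) {F : ℝ → ℝ} (hF : ContDiff ℝ ∞ F) (h0 : ∀ s, s ≤ -2 → F s = 0) {j : ℝ}
    (hj : 0 < j) : ContDiffAt ℝ ∞ (fun z => exF F j (Sc τ w e z)) (e x) :=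
  (exF_smooth hF h0 hj).contDiffAt.comp (e x) (Sc_smooth hw τ h)

lemma smooth_logR (hN : HMet n m Z H N) (hw : IsCanonicalMetric w) {δ : ℝ} (hδ : 0 < δ)
    {e : Chart n Z} {x : Z} (h : At e x) :
    ContDiffAt ℝ ∞ (fun z => Real.log (Rc m N w e z + δ)) (e x) :=
  ((Rc_smooth hN hw h).add contDiffAt_const).log
    (add_pos_of_nonneg_of_pos (Rc_nonneg hN h) hδ).ne'

theorem lev_tot (P : Prof K k b c) {j δ : ℝ} (hj : 0 < j) (hδ : 0 < δ)
    (hN : HMet n m Z H N) (hw : IsCanonicalMetric w) (τ : PSec n M Z) {e : Chart n Z} {x : Z}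
    (h : At e x) {β : Cm n} (hβ : 0 ≤ lev (w e) (e x) β) :
    j / c * ‖dd (Xc k j τ w e) (e x) β‖ ^ 2 ≤ lev (Psi m K j δ τ N w e) (e x) β ∧
    (N e (e x) ≠ 0 → δ ≤ Rc m N w e (e x) →
      1 / 2 * lev (fun y => Real.log (N e y)) (e x) β +
        j / c * ‖dd (Xc k j τ w e) (e x) β‖ ^ 2 ≤ lev (Psi m K j δ τ N w e) (e x) β) := by
  obtain ⟨v, hv, hNv⟩ := hN.loc e x h
  have hw2 : ContDiffAt ℝ 2 (w e) (e x) := (hw.smooth e x h).of_le (by norm_cast)
  have hlog : ContDiffAt ℝ 2 (fun z => Real.log (regN m δ N w e z)) (e x) :=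
    (smooth_log hN hw hδ h).of_le (by norm_cast)
  have hat : ∀ᶠ y in 𝓝 (e x), At e (e.symm y) ∧ e (e.symm y) = y := by
    filter_upwards [h.nhds_target] with y hy
    exact ⟨At.of_target h.1 hy, e.right_inv hy⟩
  have h1 : Psi m K j δ τ N w e =ᶠ[𝓝 (e x)] fun y => Real.log (regN m δ N w e y) +
      ((M : ℝ) * w e y + exF (fun s => j * K s) j (Sc τ w e y)) := by
    filter_upwards [hat] with y hy
    obtain ⟨hy1, hy2⟩ := hy
    have h2 := Rc_nonneg (w := w) hN hy1
    rw [hy2] at h2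
    have h3 : 0 < Rc m N w e y + δ := by positivity
    have h4 : regN m δ N w e y = (Rc m N w e y + δ) * Real.exp ((m : ℝ) * w e y) := by
      unfold regN Rc
      rw [add_mul, mul_assoc, ← Real.exp_add]
      have : -(m : ℝ) * w e y + m * w e y = 0 := by ring
      rw [this, Real.exp_zero, mul_one]
    unfold Psi
    rw [h4, Real.log_mul h3.ne' (Real.exp_pos _).ne', Real.log_exp]
    push_cast
    ring
  have hKs : ContDiffAt ℝ 2 (fun y => (M : ℝ) * w e y +
      exF (fun s => j * K s) j (Sc τ w e y)) (e x) := by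
    refine (contDiffAt_const.mul hw2).add ?_
    exact (smooth_exF_Sc hw τ h (contDiff_const.mul P.sK)
      (fun s hs => by rw [P.zK s hs, mul_zero]) hj).of_le (by norm_cast)
  have h5 := lev_tau P hj (τ.holo e x h) hw2 M hβ
  rw [lev_congr h1, lev_add hlog hKs]
  have h6 : lev (fun z => Real.log (regN m δ N w e z)) (e x) β =
      lev (fun y => Real.log (‖v y‖ ^ 2 + δ * Real.exp ((m : ℝ) * w e y))) (e x) β := by
    apply lev_congr
    filter_upwards [hNv] with y hy
    unfold regN; rw [hy]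
  refine ⟨?_, fun hNe hδR => ?_⟩
  · have h7 : 0 ≤ lev (fun z => Real.log (regN m δ N w e z)) (e x) β := by
      rw [h6]; exact lev_log_add hv hw2 β hβ hδ m
    have h8 : j / c * ‖dd (Xc k j τ w e) (e x) β‖ ^ 2 ≤
        lev (fun y => (M : ℝ) * w e y + exF (fun s => j * K s) j (Sc τ w e y)) (e x) β := h5
    linarith
  · have h8 : j / c * ‖dd (Xc k j τ w e) (e x) β‖ ^ 2 ≤
        lev (fun y => (M : ℝ) * w e y + exF (fun s => j * K s) j (Sc τ w e y)) (e x) β := h5
    have hv0 : v (e x) ≠ 0 := by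
      intro h0
      apply hNe
      rw [hNv.self_of_nhds, h0]; simp
    have hA2 : ContDiffAt ℝ 2 (fun y => ‖v y‖ ^ 2) (e x) :=
      (contDiffAt_normSq hv).of_le (by norm_cast)
    have hB2 : ContDiffAt ℝ 2 (fun y => δ * Real.exp ((m : ℝ) * w e y)) (e x) :=
      contDiffAt_const.mul (contDiffAt_const.mul hw2).exp
    have hlB : 0 ≤ lev (fun y => Real.log (δ * Real.exp ((m : ℝ) * w e y))) (e x) β := by
      have e1 : (fun y => Real.log (δ * Real.exp ((m : ℝ) * w e y))) =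
          fun y => Real.log δ + (m : ℝ) * w e y := by
        funext y
        rw [Real.log_mul hδ.ne' (Real.exp_pos _).ne', Real.log_exp]
      rw [e1, lev_add contDiffAt_const (contDiffAt_const.mul hw2), lev_const_mul hw2]
      have e2 : lev (fun _ : Cm n => Real.log δ) (e x) β = 0 := by
        unfold lev
        rw [Vale.Agent.P272.K.C2.cHess_const]
        simp
      rw [e2]
      positivity
    have hAp : 0 < ‖v (e x)‖ ^ 2 := by positivity
    have h9 := lev_log_add_ge hA2 hB2 hAp (by positivity) hlB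
    rw [← h6] at h9
    have h10 := lev_logN_nonneg hv hv0 β
    have h11 : lev (fun y => Real.log (N e y)) (e x) β =
        lev (fun y => Real.log (‖v y‖ ^ 2)) (e x) β := by
      apply lev_congr
      filter_upwards [hNv] with y hy
      rw [hy]
    have h12 : (1 : ℝ) / 2 ≤ ‖v (e x)‖ ^ 2 / (‖v (e x)‖ ^ 2 + δ * Real.exp ((m : ℝ) * w e (e x))) := by
      rw [div_le_div_iff₀ (by norm_num) (by positivity)]
      have h13 : δ * Real.exp ((m : ℝ) * w e (e x)) ≤ ‖v (e x)‖ ^ 2 := by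
        have h14 : δ ≤ ‖v (e x)‖ ^ 2 * Real.exp (-(m : ℝ) * w e (e x)) := by
          have := hδR
          unfold Rc at this
          rwa [hNv.self_of_nhds] at this
        calc δ * Real.exp ((m : ℝ) * w e (e x))
            ≤ ‖v (e x)‖ ^ 2 * Real.exp (-(m : ℝ) * w e (e x)) *
              Real.exp ((m : ℝ) * w e (e x)) := by gcongr
          _ = ‖v (e x)‖ ^ 2 := by
              rw [mul_assoc, ← Real.exp_add]
              have : -(m : ℝ) * w e (e x) + m * w e (e x) = 0 := by ring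
              rw [this, Real.exp_zero, mul_one]
      linarith
    have h15 : 1 / 2 * lev (fun y => Real.log (‖v y‖ ^ 2)) (e x) β ≤
        ‖v (e x)‖ ^ 2 / (‖v (e x)‖ ^ 2 + δ * Real.exp ((m : ℝ) * w e (e x))) *
          lev (fun y => Real.log (‖v y‖ ^ 2)) (e x) β := mul_le_mul_of_nonneg_right h12 h10
    rw [h11]
    linarith

end tot

end Vale.Agent.P284.H451
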