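import Vale.Agent.P284.H451.CntM3
import Vale.Agent.P284.H451.CntE
import Vale.Agent.P272.K.Inv.Consts

/-!
# P284 (helper451), COUNT: the densities `D_j` and their mass
-/

open scoped Manifold ContDiff Topology ComplexOrder ENNReal ComplexConjugate InnerProductSpace
open Filter MeasureTheory Set

set_option linter.all false

noncomputable section

namespace Vale.Agent.P284.H451

open Vale.Agent.P272.K Vale.Agent.P272.K.INT Vale.Agent.P272.KOD Vale.Agent.P284.H812
  Vale.Agent.P284.H213.KL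

lemma qm_nonneg_of_psd {n : ℕ} {A : Matrix (Fin n) (Fin n) ℂ} (hA : A.PosSemidef) (β : Cm n) :
    0 ≤ qm A β := by
  have h1 : (star (star β) ⬝ᵥ A.mulVec (star β)) = ∑ j, ∑ k, A j k * β j * conj (β k) := by
    rw [dotProduct]
    refine Finset.sum_congr rfl fun j _ => ?_
    rw [Matrix.mulVec, dotProduct, Finset.mul_sum]
    refine Finset.sum_congr rfl fun k _ => ?_
    simp only [Pi.star_apply, Complex.star_def, Complex.conj_conj, star_star]
    ring
  have h2 := hA.dotProduct_mulVec_nonneg (star β)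
  rw [h1] at h2
  exact (Complex.le_def.mp h2).1

section
variable {n m M : ℕ} {Z : Type*} [TopologicalSpace Z] [ChartedSpace (Cm n) Z]
  {H : Type*} [NormedAddCommGroup H] [InnerProductSpace ℂ H] [CompleteSpace H]
  {N w : Chart n Z → Cm n → ℝ} {K k b : ℝ → ℝ} {c : ℝ}

open Classical in
/-- the density `det (½ i∂∂̄ log N + (j/c) ∂χ_j ∧ ∂̄χ_j)` on `{|τ|² e^{-Mw} > e^{-2j}}` -/
def Dj (k : ℝ → ℝ) (c j : ℝ) (τ : PSec n M Z) (N w : Chart n Z → Cm n → ℝ) (e : Chart n Z)
    (z : Cm n) : ℝ≥0∞ :=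
  {z | z ∈ e.target ∧ Real.exp (-(2 * j)) < Sc τ w e z}.indicator
    (fun z => ENNReal.ofReal
      (bm (1 / 2) (j / c) (fun y => Real.log (N e y)) (Xc k j τ w e) z).det.re) z

lemma isOpen_Sc (hw : IsCanonicalMetric w) (τ : PSec n M Z) {e : Chart n Z}
    (he : e ∈ atlas (Cm n) Z) (t : ℝ) : IsOpen {z | z ∈ e.target ∧ t < Sc τ w e z} := by
  have h1 : ContinuousOn (Sc τ w e) e.target := by
    intro z hz
    have := (Sc_smooth hw τ (At.of_target he hz)).continuousAt
    rw [e.right_inv hz] at this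
    exact this.continuousWithinAt
  exact h1.isOpen_inter_preimage e.open_target isOpen_Ioi

lemma smooth_logN (hN : HMet n m Z H N) {e : Chart n Z} {x : Z} (h : At e x)
    (h0 : N e (e x) ≠ 0) : ContDiffAt ℝ ∞ (fun y => Real.log (N e y)) (e x) :=
  (smooth_N hN h).log h0

lemma lev_logN_nn (hN : HMet n m Z H N) {e : Chart n Z} {x : Z} (h : At e x)
    (h0 : N e (e x) ≠ 0) (β : Cm n) : 0 ≤ lev (fun y => Real.log (N e y)) (e x) β := by
  obtain ⟨v, hv, hNv⟩ := hN.loc e x h
  have hv0 : v (e x) ≠ 0 := by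
    intro h1
    apply h0
    rw [hNv.self_of_nhds, h1]; simp
  have h11 : lev (fun y => Real.log (N e y)) (e x) β =
      lev (fun y => Real.log (‖v y‖ ^ 2)) (e x) β := by
    apply lev_congr
    filter_upwards [hNv] with y hy
    rw [hy]
  rw [h11]
  exact lev_logN_nonneg hv hv0 β

lemma contAt_dz {f : Cm n → ℝ} {z : Cm n} (hf : ContDiffAt ℝ ∞ f z) (j : Fin n) :
    ContinuousAt (fun y => dz j (fun y => (f y : ℂ)) y) z :=
  (Vale.Agent.P272.K.contDiffAt_dz (m := ∞) (r := ∞) (Vale.Agent.P272.K.ofReal_contDiffAt hf)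
    (by simp)).continuousAt

lemma cont_det_bm {φ χ : Cm n → ℝ} {z : Cm n} (hφ : ContDiffAt ℝ ∞ φ z)
    (hχ : ContDiffAt ℝ ∞ χ z) (s μ : ℝ) :
    ContinuousAt (fun y => (bm s μ φ χ y).det.re) z := by
  refine Complex.continuous_re.continuousAt.comp ?_
  have h1 : ∀ i j, ContinuousAt (fun y => bm s μ φ χ y i j) z := by
    intro i j
    unfold bm gm
    simp only [Matrix.add_apply, Matrix.smul_apply, smul_eq_mul, Matrix.of_apply]
    refine (continuousAt_const.mul (smooth_cHess hφ i j).continuousAt).add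
      (continuousAt_const.mul ((contAt_dz hχ i).mul ?_))
    exact Complex.continuous_conj.continuousAt.comp (contAt_dz hχ j)
  have h2 : ContinuousAt (fun y => bm s μ φ χ y) z :=
    continuousAt_pi.mpr fun i => continuousAt_pi.mpr fun j => h1 i j
  exact (continuous_id.matrix_det).continuousAt.comp h2

end

section
variable {n m M : ℕ} {Z : Type*} [TopologicalSpace Z] [ChartedSpace (Cm n) Z]
  [IsManifold 𝓘(ℂ, Cm n) ω Z]
  {H : Type*} [NormedAddCommGroup H] [InnerProductSpace ℂ H] [CompleteSpace H]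
  {N w : Chart n Z → Cm n → ℝ} {K k b : ℝ → ℝ} {c : ℝ}

lemma Sc_eq_sn (hw : IsCanonicalMetric w) (τ : PSec n M Z) {e : Chart n Z} {x : Z} (h : At e x) :
    Sc τ w e (e x) = sn w M τ.coeff x := (sn_eq hw τ.change h).symm

lemma Rc_eq_rn (hN : HMet n m Z H N) (hw : IsCanonicalMetric w) {e : Chart n Z} {x : Z}
    (h : At e x) : Rc m N w e (e x) = rn m N w x := (rn_eq hw hN h).symm

/-- `D_j` is a density. -/
theorem isEDens_Dj (P : Prof K k b c) {j : ℝ} (hj : 0 < j) (hN : HMet n m Z H N)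
    (hw : IsCanonicalMetric w) (τ : PSec n M Z)
    (hNτ : ∀ e x, At e x → Sc τ w e (e x) ≠ 0 → N e (e x) ≠ 0) :
    IsEDens (Dj (n := n) (Z := Z) k c j τ N w) := by
  constructor
  · intro e he
    have h1 : ContinuousOn (fun z => (bm (1 / 2) (j / c) (fun y => Real.log (N e y))
        (Xc k j τ w e) z).det.re) {z | z ∈ e.target ∧ Real.exp (-(2 * j)) < Sc τ w e z} := by
      intro z hz
      have hat := At.of_target he hz.1
      have hez := e.right_inv hz.1
      have hS : Sc τ w e z ≠ 0 := ((Real.exp_pos _).trans hz.2).ne'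
      have hNz : N e (e (e.symm z)) ≠ 0 := hNτ e _ hat (by rw [hez]; exact hS)
      have h2 := cont_det_bm (smooth_logN hN hat hNz) (smooth_exF_Sc hw τ hat P.sk P.zk hj)
        (1 / 2) (j / c)
      rw [hez] at h2
      exact h2.continuousWithinAt
    exact (ofReal_ind_meas (isOpen_Sc hw τ he _) h1).aemeasurable
  · intro e e' x h h'
    have hs : Sc τ w e (e x) = Sc τ w e' (e' x) := by
      rw [Sc_eq_sn hw τ h, Sc_eq_sn hw τ h']
    unfold Dj
    by_cases hS : Real.exp (-(2 * j)) < Sc τ w e (e x)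
    · have hS' : Real.exp (-(2 * j)) < Sc τ w e' (e' x) := hs ▸ hS
      rw [indicator_of_mem (show e x ∈ {z | z ∈ e.target ∧ Real.exp (-(2 * j)) < Sc τ w e z} from
          ⟨h.mem_target, hS⟩),
        indicator_of_mem (show e' x ∈ {z | z ∈ e'.target ∧ Real.exp (-(2 * j)) < Sc τ w e' z} from
          ⟨h'.mem_target, hS'⟩)]
      have hN' : N e' (e' x) ≠ 0 := hNτ e' x h' ((Real.exp_pos _).trans hS').ne'
      have h2 : e' (e.symm (e x)) = e' x := by rw [h.left_inv]
      have h3 : (fun y => Real.log (N e y)) =ᶠ[𝓝 (e x)] fun y =>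
          Real.log (N e' (e' (e.symm y))) +
            m * Real.log (‖(jacM e e' (e.symm y)).det‖ ^ 2) := by
        have hcont : ContinuousAt (fun y => N e' (e' (e.symm y))) (e x) := by
          have h4 : ContinuousAt (fun y => e' (e.symm y)) (e x) :=
            (transition h h').continuousAt
          refine ContinuousAt.comp (g := N e') ?_ h4
          rw [h2]
          exact (smooth_N hN h').continuousAt
        have hne : ∀ᶠ y in 𝓝 (e x), N e' (e' (e.symm y)) ≠ 0 := by
          refine hcont.eventually_ne ?_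
          show N e' (e' (e.symm (e x))) ≠ 0
          rw [h2]; exact hN'
        filter_upwards [h.nhds_at h', hne] with y hy hy0
        have h5 := hN.change e e' (e.symm y) hy.2.1 hy.2.2
        rw [e.right_inv hy.1] at h5
        have h6 : 0 < ‖(jacM e e' (e.symm y)).det‖ ^ 2 :=
          pow_pos (norm_pos_iff.2 (jacM_det_ne_zero hy.2.1 hy.2.2)) 2
        rw [h5, Real.log_mul hy0 (pow_pos h6 m).ne', Real.log_pow]
      have h4 : Xc k j τ w e =ᶠ[𝓝 (e x)] fun y => Xc k j τ w e' (e' (e.symm y)) := by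
        filter_upwards [h.nhds_at h'] with y hy
        unfold Xc
        congr 1
        have h5 := Sc_eq_sn hw τ hy.2.1
        have h6 := Sc_eq_sn hw τ hy.2.2
        rw [e.right_inv hy.1] at h5
        rw [h5, h6]
      have h5 := bm_pull (c := 1 / 2) (μ := j / c) (φ := fun y => Real.log (N e' y))
        (φ' := fun y => Real.log (N e y)) (χ := Xc k j τ w e') (χ' := Xc k j τ w e)
        (T := fun y => e' (e.symm y)) (z := e x) (transition h h')
        (by rw [h2]; exact (smooth_logN hN h' hN').of_le (by norm_cast))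
        (by
          rw [h2]
          exact (smooth_exF_Sc hw τ h' P.sk P.zk hj).differentiableAt (by norm_cast))
        (jacM_det_holo h h') (by rw [h.left_inv]; exact jacM_det_ne_zero h h') m h3 h4
      rw [h5, det_pull, ENNReal.ofReal_mul (by positivity), h2, mul_comm]
      congr 1
      rw [← ofReal_norm, ← ENNReal.ofReal_pow (norm_nonneg _)]
      rfl
    · have hS' : ¬ Real.exp (-(2 * j)) < Sc τ w e' (e' x) := hs ▸ hS
      rw [indicator_of_notMem (fun hh => hS hh.2), indicator_of_notMem (fun hh => hS' hh.2),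
        zero_mul]


lemma psd_Psi (P : Prof K k b c) {j δ : ℝ} (hj : 0 < j) (hδ : 0 < δ) (hN : HMet n m Z H N)
    (hw : IsCanonicalMetric w) (hpos : ∀ e x, At e x → (cHess (w e) (e x)).PosDef)
    (τ : PSec n M Z) {e : Chart n Z} {x : Z} (h : At e x) :
    ContDiffAt ℝ 2 (Psi m K j δ τ N w e) (e x) ∧
      (cHess (Psi m K j δ τ N w e) (e x)).PosSemidef := by
  have h1 : ContDiffAt ℝ 2 (Psi m K j δ τ N w e) (e x) := by
    have hw2 : ContDiffAt ℝ 2 (w e) (e x) := (hw.smooth e x h).of_le (by norm_cast)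
    refine (contDiffAt_const.mul hw2).add ?_
    refine ((smooth_logR hN hw hδ h).of_le (by norm_cast)).add ?_
    exact (smooth_exF_Sc hw τ h (contDiff_const.mul P.sK)
      (fun s hs => by rw [P.zK s hs, mul_zero]) hj).of_le (by norm_cast)
  refine ⟨h1, psd_of_qm (Vale.Agent.P272.K.cHess_isHermitian h1) fun β => ?_⟩
  have h2 : 0 ≤ lev (w e) (e x) β := qm_nonneg_of_psd (hpos e x h).posSemidef β
  have h3 := (lev_tot P hj hδ hN hw τ h h2).1
  rw [← lev_eq_qm]
  have hc := P.c0
  refine le_trans ?_ h3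
  positivity

lemma Dj_le (P : Prof K k b c) {j δ : ℝ} (hj : 0 < j) (hδ : 0 < δ) (hN : HMet n m Z H N)
    (hw : IsCanonicalMetric w) (hpos : ∀ e x, At e x → (cHess (w e) (e x)).PosDef)
    (τ : PSec n M Z)
    (hδj : ∀ e x, At e x → Real.exp (-(2 * j)) < Sc τ w e (e x) →
      N e (e x) ≠ 0 ∧ δ ≤ Rc m N w e (e x)) {e : Chart n Z} {x : Z} (h : At e x) :
    Dj k c j τ N w e (e x) ≤ ENNReal.ofReal (cHess (Psi m K j δ τ N w e) (e x)).det.re := by
  unfold Dj
  by_cases hS : e x ∈ {z | z ∈ e.target ∧ Real.exp (-(2 * j)) < Sc τ w e z}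
  · rw [indicator_of_mem hS]
    obtain ⟨hN0, hR⟩ := hδj e x h hS.2
    apply ENNReal.ofReal_le_ofReal
    obtain ⟨h1, h2⟩ := psd_Psi (b := b) P hj hδ hN hw hpos τ h
    have hφ : ContDiffAt ℝ 2 (fun y => Real.log (N e y)) (e x) :=
      (smooth_logN hN h hN0).of_le (by norm_cast)
    have hc := P.c0
    refine det_psd_le (psd_of_qm (bm_herm hφ) fun β => ?_)
      (psd_of_qm ((Vale.Agent.P272.K.cHess_isHermitian h1).sub (bm_herm hφ)) fun β => ?_)
    · rw [qm_bm]
      have := lev_logN_nn hN h hN0 β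
      positivity
    · rw [qm_sub, qm_bm, ← lev_eq_qm, sub_nonneg]
      exact (lev_tot P hj hδ hN hw τ h (qm_nonneg_of_psd (hpos e x h).posSemidef β)).2 hN0 hR
  · rw [indicator_of_notMem hS]
    exact zero_le

variable [T2Space Z] [CompactSpace Z]

lemma massX_mono {D D' : Chart n Z → Cm n → ℝ≥0∞}
    (h : ∀ e x, At e x → D e (e x) ≤ D' e (e x)) : massX D ≤ massX D' := by
  unfold massX
  refine Finset.sum_le_sum fun i _ => ?_
  refine setLIntegral_mono' ((part n Z).e i).open_target.measurableSet fun z hz => ?_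
  refine mul_le_mul' le_rfl ?_
  have := h _ _ (At.of_target ((part n Z).mem i) hz)
  rwa [((part n Z).e i).right_inv hz] at this

lemma massX_ofReal {D : Chart n Z → Cm n → ℝ} (hD : IsDensity D)
    (h : ∀ e x, At e x → 0 ≤ D e (e x)) :
    massX (fun e z => ENNReal.ofReal (D e z)) = ENNReal.ofReal (intX D) := by
  unfold massX intX
  have hnn : ∀ i, ∀ z ∈ ((part n Z).e i).target, 0 ≤ D ((part n Z).e i) z := by
    intro i z hz
    have := h _ _ (At.of_target ((part n Z).mem i) hz)
    rwa [((part n Z).e i).right_inv hz] at this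
  rw [ENNReal.ofReal_sum_of_nonneg fun i _ => ?_]
  · refine Finset.sum_congr rfl fun i _ => ?_
    rw [ofReal_integral_eq_lintegral_ofReal (integrableOn_part (part n Z) hD i)]
    · refine setLIntegral_congr_fun ((part n Z).e i).open_target.measurableSet fun z hz => ?_
      rw [ENNReal.ofReal_mul ((part n Z).nonneg i _)]
    · filter_upwards [self_mem_ae_restrict ((part n Z).e i).open_target.measurableSet] with z hz
      exact mul_nonneg ((part n Z).nonneg i _) (hnn i z hz)
  · exact setIntegral_nonneg ((part n Z).e i).open_target.measurableSet fun z hz =>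
      mul_nonneg ((part n Z).nonneg i _) (hnn i z hz)

/-- **The mass of `D_j` is bounded.** -/
theorem mass_Dj (P : Prof K k b c) (hN : HMet n m Z H N) (hw : IsCanonicalMetric w)
    (hpos : ∀ e x, At e x → (cHess (w e) (e x)).PosDef) (τ : PSec n M Z) {C : ℝ}
    (hC : ∀ e x, At e x → Sc τ w e (e x) ^ m ≤ C * Rc m N w e (e x) ^ (M + 2)) (hm : 1 ≤ m) :
    ∃ C₀ : ℝ≥0∞, C₀ ≠ ⊤ ∧ ∀ j : ℝ, 0 < j → massX (Dj (n := n) (Z := Z) k c j τ N w) ≤ C₀ := by
  set b₀ : Chart n Z → Cm n → Matrix (Fin n) (Fin n) ℂ :=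
    fun e z => (((m + M : ℕ) : ℝ) : ℂ) • cHess (w e) z with hb₀
  have hb : IsClosedForm b₀ := (isClosedForm_canonical hw).smul _
  refine ⟨ENNReal.ofReal (intX fun e z => (b₀ e z).det.re), ENNReal.ofReal_ne_top, fun j hj => ?_⟩
  -- choice of `δ`
  obtain ⟨δ, hδ, hδ'⟩ : ∃ δ : ℝ, 0 < δ ∧ |C| * δ ^ (M + 2) < Real.exp (-(2 * j)) ^ m := by
    have h1 : Tendsto (fun δ : ℝ => |C| * δ ^ (M + 2)) (𝓝[>] 0) (𝓝 (|C| * 0 ^ (M + 2))) :=
      ((continuous_const.mul (continuous_pow (M + 2))).tendsto 0).mono_left nhdsWithin_le_nhds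
    rw [zero_pow (by omega), mul_zero] at h1
    have h2 := h1.eventually_lt_const (show (0 : ℝ) < Real.exp (-(2 * j)) ^ m by positivity)
    obtain ⟨δ, h3, h4⟩ := (h2.and self_mem_nhdsWithin).exists
    exact ⟨δ, h4, h3⟩
  have hδj : ∀ e x, At e x → Real.exp (-(2 * j)) < Sc τ w e (e x) →
      N e (e x) ≠ 0 ∧ δ ≤ Rc m N w e (e x) := by
    intro e x h hS
    have hR : δ ≤ Rc m N w e (e x) := by
      by_contra hlt
      rw [not_le] at hlt
      have h1 := hC e x h
      have h2 := Rc_nonneg (w := w) hN h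
      have h3 : Real.exp (-(2 * j)) ^ m < Sc τ w e (e x) ^ m :=
        pow_lt_pow_left₀ hS (Real.exp_pos _).le (by omega)
      have h4 : C * Rc m N w e (e x) ^ (M + 2) ≤ |C| * δ ^ (M + 2) := by
        have h5 : Rc m N w e (e x) ^ (M + 2) ≤ δ ^ (M + 2) := pow_le_pow_left₀ h2 hlt.le _
        have h6 : 0 ≤ Rc m N w e (e x) ^ (M + 2) := by positivity
        calc C * Rc m N w e (e x) ^ (M + 2) ≤ |C| * Rc m N w e (e x) ^ (M + 2) :=
              mul_le_mul_of_nonneg_right (le_abs_self C) h6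
          _ ≤ _ := mul_le_mul_of_nonneg_left h5 (abs_nonneg C)
      linarith
    refine ⟨fun h0 => ?_, hR⟩
    unfold Rc at hR
    rw [h0, zero_mul] at hR
    linarith
  -- the function on `Z`
  set u : Z → ℝ := fun x => Real.log (rn m N w x + δ) + exF (fun s => j * K s) j (sn w M τ.coeff x)
    with hu
  have huc : ∀ e x, At e x → (fun z => u (e.symm z)) =ᶠ[𝓝 (e x)] fun z =>
      Real.log (Rc m N w e z + δ) + exF (fun s => j * K s) j (Sc τ w e z) := by
    intro e x h
    filter_upwards [h.nhds_target] with z hz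
    have hat := At.of_target h.1 hz
    have h1 := Sc_eq_sn hw τ hat
    have h2 := Rc_eq_rn hN hw hat
    rw [e.right_inv hz] at h1 h2
    rw [hu]
    simp only
    rw [h1, h2]
  have hus : SmoothFn (n := n) u := by
    intro e x h
    refine ContDiffAt.congr_of_eventuallyEq ?_ (huc e x h)
    exact (smooth_logR hN hw hδ h).add (smooth_exF_Sc hw τ h (contDiff_const.mul P.sK)
      (fun s hs => by rw [P.zK s hs, mul_zero]) hj)
  have hPsi : ∀ e x, At e x → cHess (Psi m K j δ τ N w e) (e x) =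
      b₀ e (e x) + cHess (fun y => u (e.symm y)) (e x) := by
    intro e x h
    have hw2 : ContDiffAt ℝ 2 (w e) (e x) := (hw.smooth e x h).of_le (by norm_cast)
    have h1 : Psi m K j δ τ N w e =ᶠ[𝓝 (e x)] fun z =>
        ((m + M : ℕ) : ℝ) * w e z + u (e.symm z) := by
      filter_upwards [huc e x h] with z hz
      unfold Psi
      rw [hz]
    rw [Vale.Agent.P272.K.cHess_congr h1,
      Vale.Agent.P272.K.cHess_add (contDiffAt_const.mul hw2) (SmoothFn.two hus e x h),
      Vale.Agent.P272.K.cHess_const_mul _ hw2]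
  rw [← intX_det_add_cHess hb hus, ← massX_ofReal
    (hb.add (isClosedForm_cHess hus)).isDensity fun e x h => ?_]
  · refine massX_mono fun e x h => ?_
    have h1 := Dj_le P hj hδ hN hw hpos τ hδj h
    rw [hPsi e x h] at h1
    exact h1
  · have h1 := (psd_Psi (b := b) P hj hδ hN hw hpos τ h).2
    rw [hPsi e x h] at h1
    exact (Complex.le_def.mp h1.det_nonneg).1

end

end Vale.Agent.P284.H451
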