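import Vale.Agent.P284.H812.Glob

/-!
# P284 (helper451), COUNT: extension of branches with a lower bound for the weight
-/

open scoped Manifold ContDiff Topology ComplexOrder
open Filter Set Metric

set_option linter.all false

noncomputable section

namespace Vale.Agent.P284.H451

open Vale.Agent.P272.K Vale.Agent.P272.KOD Vale.Agent.P284.H812

section
variable {n m : ℕ} {Z : Type*} [TopologicalSpace Z] [ChartedSpace (Cm n) Z] {H : Type*}
  [NormedAddCommGroup H] [InnerProductSpace ℂ H] {N w : Chart n Z → Cm n → ℝ}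

variable (m N w) in
/-- local extension property at `x`, with a lower bound `σ` for `N e^{-mw}` on the extension -/
def LExt2 (H' : Type*) [NormedAddCommGroup H'] [NormedSpace ℂ H'] (x : Z) (r κ σ : ℝ) : Prop :=
  0 < r ∧ 0 < κ ∧ 0 < σ ∧ ∀ (V : Cm n → H') (ζ : Cm n) (s : ℝ) (f : Cm n → Cm n), 0 < s →
    DifferentiableOn ℂ V (ball ζ s) → IsBranch m N V ζ (chartAt (Cm n) x) f →
    f ζ ∈ ball (chartAt (Cm n) x x) r → V ζ ≠ 0 →
    (∀ z ∈ ball ζ s, ‖V z - V ζ‖ ≤ κ * ‖V ζ‖) →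
    ∃ F : Cm n → Cm n, DifferentiableOn ℂ F (ball ζ s) ∧
      (∀ z ∈ ball ζ s, IsBranch m N V z (chartAt (Cm n) x) F) ∧ F =ᶠ[𝓝 ζ] f ∧
      ∀ z ∈ ball ζ s, σ ≤ N (chartAt (Cm n) x) (F z) *
        Real.exp (-(m : ℝ) * w (chartAt (Cm n) x) (F z))

theorem exists_lExt2 [CompleteSpace H] (hI : HImm n Z H N) (hw : IsCanonicalMetric w)
    (H' : Type*) [NormedAddCommGroup H']
    [InnerProductSpace ℂ H'] [CompleteSpace H'] (x : Z)
    (hx : N (chartAt (Cm n) x) (chartAt (Cm n) x x) ≠ 0) :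
    ∃ r κ σ, LExt2 m N w H' x r κ σ := by
  set e := chartAt (Cm n) x with he
  have h : At e x := at_chartAt x
  obtain ⟨v, hv, hv2, him⟩ := hI e x h hx
  have h0 : v (e x) ≠ 0 := by
    intro h0
    apply hx
    rw [hv2.self_of_nhds, h0]; simp
  set Q : Cm n → ℝ := fun z => ‖v z‖ ^ 2 * Real.exp (-(m : ℝ) * w e z) with hQ
  have hQ0 : 0 < Q (e x) := by
    have : 0 < ‖v (e x)‖ ^ 2 := by positivity
    positivity
  have hQc : ContinuousAt Q (e x) := (hv.continuousAt.norm.pow 2).mul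
    (continuousAt_const.mul (hw.smooth e x h).continuousAt).rexp
  have hQ2 : ∀ᶠ z in 𝓝 (e x), Q (e x) / 2 < Q z :=
    hQc.eventually_const_lt (by linarith)
  obtain ⟨ρ₂, hρ₂, hρ₂2⟩ := Metric.eventually_nhds_iff_ball.1
    (((hv.eventually_analyticAt.and hv2).and h.nhds_target).and hQ2)
  obtain ⟨r, κ, hr, hrρ, hκ, hext⟩ := ext_patch m hρ₂ (fun y hy => (hρ₂2 y hy).1.1.1) h0 him H'
  refine ⟨r, κ, Q (e x) / 2, hr, hκ, by positivity, ?_⟩
  intro V ζ s f hs hV hb hfζ hVζ hκV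
  have hev : ∀ᶠ z in 𝓝 ζ, ‖v (f z)‖ ^ 2 * (‖(fderiv ℂ f z).det‖ ^ 2) ^ m = ‖V z‖ ^ 2 := by
    have h1 : ∀ᶠ z in 𝓝 ζ, f z ∈ ball (e x) ρ₂ := hb.an.continuousAt.eventually
      (isOpen_ball.mem_nhds (ball_subset_ball hrρ hfζ))
    filter_upwards [hb.eq, h1] with z hz hz2
    rw [← hz, (hρ₂2 _ hz2).1.1.2]
  obtain ⟨F, hF1, hF2, hF3, hF4⟩ := hext V ζ s f hs hV hb.an hfζ hev hVζ hκV
  refine ⟨F, hF1, fun z hz => ⟨h.1, (hρ₂2 _ (hF3 hz)).1.2, analyticAt_of_diffOn isOpen_ball hF1 hz,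
    ?_⟩, hF2, fun z hz => ?_⟩
  · filter_upwards [isOpen_ball.mem_nhds hz] with y hy
    rw [(hρ₂2 _ (hF3 hy)).1.1.2, hF4 y hy]
  · rw [(hρ₂2 _ (hF3 hz)).1.1.2]
    exact (hρ₂2 _ (hF3 hz)).2.le

/-- Uniform extension of branches, global form, with a lower bound. -/
theorem ext_global2 [CompleteSpace H] [IsManifold 𝓘(ℂ, Cm n) ω Z] [CompactSpace Z]
    (hN : HMet n m Z H N)
    (hI : HImm n Z H N) (hw : IsCanonicalMetric w) {c : ℝ} (hc : 0 < c) (H' : Type*)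
    [NormedAddCommGroup H'] [InnerProductSpace ℂ H'] [CompleteSpace H'] :
    ∃ κ σ : ℝ, 0 < κ ∧ 0 < σ ∧
      ∀ (V : Cm n → H') (ζ : Cm n) (s : ℝ) (e : Chart n Z) (f : Cm n → Cm n),
      0 < s → DifferentiableOn ℂ V (ball ζ s) → IsBranch m N V ζ e f → V ζ ≠ 0 →
      c ≤ N e (f ζ) * Real.exp (-(m : ℝ) * w e (f ζ)) →
      (∀ z ∈ ball ζ s, ‖V z - V ζ‖ ≤ κ * ‖V ζ‖) →
      ∃ (e' : Chart n Z) (F : Cm n → Cm n), DifferentiableOn ℂ F (ball ζ s) ∧
        (∀ z ∈ ball ζ s, IsBranch m N V z e' F) ∧ At e' (e.symm (f ζ)) ∧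
        F =ᶠ[𝓝 ζ] brT e e' f ∧
        ∀ z ∈ ball ζ s, σ ≤ N e' (F z) * Real.exp (-(m : ℝ) * w e' (F z)) := by
  classical
  set K : Set Z := {x | c ≤ ratio m N w x} with hK
  have hKc : IsCompact K := (isClosed_le continuous_const (continuous_ratio hN hw)).isCompact
  have hloc : ∀ x, x ∈ K → ∃ r κ σ, LExt2 m N w H' x r κ σ := by
    intro x hx
    refine exists_lExt2 hI hw H' x fun h0 => ?_
    have : c ≤ ratio m N w x := hx
    rw [ratio, h0, zero_mul] at this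
    linarith
  choose! r κ σ hrκ using hloc
  obtain ⟨t, htK, htU⟩ := hKc.elim_nhds_subcover
    (fun x => (chartAt (Cm n) x).source ∩ chartAt (Cm n) x ⁻¹' ball (chartAt (Cm n) x x) (r x))
    (fun x hx => by
      refine inter_mem ((chartAt (Cm n) x).open_source.mem_nhds (mem_chart_source _ x)) ?_
      exact ((chartAt (Cm n) x).continuousAt (mem_chart_source _ x)).preimage_mem_nhds
        (ball_mem_nhds _ (hrκ x hx).1))
  rcases t.eq_empty_or_nonempty with ht | ht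
  · refine ⟨1, 1, one_pos, one_pos, ?_⟩
    intro V ζ s e f hs hV hb hVζ hcb
    exfalso
    have hx : e.symm (f ζ) ∈ K := by
      show c ≤ _
      rw [ratio_eq hN.change hw (At.of_target hb.mem hb.tgt), e.right_inv hb.tgt]
      exact hcb
    have := htU hx
    simp [ht] at this
  · obtain ⟨x₀, hx₀, hmin⟩ := t.exists_min_image κ ht
    obtain ⟨x₁, hx₁, hmin₁⟩ := t.exists_min_image σ ht
    refine ⟨κ x₀, σ x₁, (hrκ x₀ (htK x₀ hx₀)).2.1, (hrκ x₁ (htK x₁ hx₁)).2.2.1, ?_⟩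
    intro V ζ s e f hs hV hb hVζ hcb hκV
    have hx : e.symm (f ζ) ∈ K := by
      show c ≤ _
      rw [ratio_eq hN.change hw (At.of_target hb.mem hb.tgt), e.right_inv hb.tgt]
      exact hcb
    obtain ⟨x, hxt, hxU⟩ := Set.mem_iUnion₂.1 (htU hx)
    have hat : At (chartAt (Cm n) x) (e.symm (f ζ)) := ⟨chart_mem_atlas _ x, hxU.1⟩
    obtain ⟨-, hκx, -, hL⟩ := hrκ x (htK x hxt)
    obtain ⟨F, hF1, hF2, hF3, hF4⟩ := hL V ζ s (brT e (chartAt (Cm n) x) f) hs hV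
      (hb.change hN.change hat) hxU.2 hVζ fun z hz => (hκV z hz).trans
        (mul_le_mul_of_nonneg_right (hmin x hxt) (norm_nonneg _))
    exact ⟨chartAt (Cm n) x, F, hF1, hF2, hat, hF3, fun z hz => (hmin₁ x hxt).trans (hF4 z hz)⟩

end

end Vale.Agent.P284.H451
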