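import Vale.Agent.P284.H451.CntH
import Vale.Agent.P284.H451.CntX
import Vale.Agent.P272.K.Inv.Compact

/-!
# P284 (helper451), COUNT: the lower bound for the Levi form of `log ‖V‖²`, the densities `De`, and
the identity on a branch
-/

open scoped Manifold ContDiff Topology ComplexOrder ENNReal ComplexConjugate InnerProductSpace
open Filter MeasureTheory Set

set_option linter.all false

noncomputable section

namespace Vale.Agent.P284.H451

open Vale.Agent.P272.K Vale.Agent.P272.K.INT Vale.Agent.P272.KOD Vale.Agent.P284.H812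
  Vale.Agent.P284.H213.KL

section low
variable {n : ℕ} {H' : Type*} [NormedAddCommGroup H'] [InnerProductSpace ℂ H'] [CompleteSpace H']

lemma smooth_logV {V : Cm n → H'} {z : Cm n} (hV : AnalyticAt ℂ V z) (h0 : V z ≠ 0) :
    ContDiffAt ℝ ∞ (fun y => Real.log (‖V y‖ ^ 2)) z :=
  (contDiffAt_normSq hV).log (pow_ne_zero 2 (norm_ne_zero_iff.2 h0))

lemma lev_logV_pos {V : Cm n → H'} {z : Cm n} (hV : AnalyticAt ℂ V z) (h0 : V z ≠ 0)
    (him : ∀ (ξ : Cm n) (c : ℂ), fderiv ℂ V z ξ = c • V z → ξ = 0) {β : Cm n} (hβ : β ≠ 0) :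
    0 < lev (fun y => Real.log (‖V y‖ ^ 2)) z β := by
  have h2 : ContDiffAt ℝ 2 (fun y => ‖V y‖ ^ 2) z := (contDiffAt_normSq hV).of_le (by norm_cast)
  have hp : 0 < ‖V z‖ ^ 2 := by positivity
  rw [lev_log h2 hp, lev_normSq hV, dd_normSq hV]
  have hne : fderiv ℂ V z β ≠ 0 := by
    intro h
    exact hβ (him β 0 (by rw [h, zero_smul]))
  have h3 : ‖⟪V z, fderiv ℂ V z β⟫_ℂ‖ < ‖V z‖ * ‖fderiv ℂ V z β‖ := by
    refine lt_of_le_of_ne (norm_inner_le_norm (𝕜 := ℂ) _ _) fun h => ?_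
    have h4 : ‖⟪V z, fderiv ℂ V z β⟫_ℂ / (‖V z‖ * ‖fderiv ℂ V z β‖)‖ = 1 := by
      rw [norm_div, h]
      have : ‖((‖V z‖ : ℂ) * (‖fderiv ℂ V z β‖ : ℂ))‖ = ‖V z‖ * ‖fderiv ℂ V z β‖ := by
        rw [norm_mul, Complex.norm_real, Complex.norm_real, norm_norm, norm_norm]
      rw [this, div_self]
      exact mul_ne_zero (norm_ne_zero_iff.2 h0) (norm_ne_zero_iff.2 hne)
    obtain ⟨r, hr, hr2⟩ := (norm_inner_div_norm_mul_norm_eq_one_iff (𝕜 := ℂ) (V z)
      (fderiv ℂ V z β)).1 h4 |>.2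
    exact hβ (him β r hr2)
  have h4 : ‖⟪V z, fderiv ℂ V z β⟫_ℂ‖ ^ 2 < ‖V z‖ ^ 2 * ‖fderiv ℂ V z β‖ ^ 2 := by
    rw [← mul_pow]
    exact pow_lt_pow_left₀ h3 (norm_nonneg _) (by norm_num)
  have h5 : ((‖V z‖ ^ 2) ^ 2)⁻¹ * ‖⟪V z, fderiv ℂ V z β⟫_ℂ‖ ^ 2 <
      ((‖V z‖ ^ 2) ^ 2)⁻¹ * (‖V z‖ ^ 2 * ‖fderiv ℂ V z β‖ ^ 2) :=
    mul_lt_mul_of_pos_left h4 (by positivity)
  have h6 : ((‖V z‖ ^ 2) ^ 2)⁻¹ * (‖V z‖ ^ 2 * ‖fderiv ℂ V z β‖ ^ 2) =
      (‖V z‖ ^ 2)⁻¹ * ‖fderiv ℂ V z β‖ ^ 2 := by field_simp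
  linarith

lemma qm_eq_quad (A : Matrix (Fin n) (Fin n) ℂ) (β : Cm n) : qm A β = (quad A β).re := by
  unfold qm quad
  congr 1
  refine Finset.sum_congr rfl fun i _ => Finset.sum_congr rfl fun j _ => ?_
  show _ = A i j * (β i * conj (β j))
  ring

lemma posDef_of_qm {A : Matrix (Fin n) (Fin n) ℂ} (hA : A.IsHermitian)
    (h : ∀ β, β ≠ 0 → 0 < qm A β) : A.PosDef := by
  refine Matrix.PosDef.of_dotProduct_mulVec_pos hA fun x hx => ?_
  have h1 : (star x ⬝ᵥ A.mulVec x) = ∑ j, ∑ k, A j k * star x j * conj (star x k) := by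
    rw [dotProduct]
    refine Finset.sum_congr rfl fun j _ => ?_
    rw [Matrix.mulVec, dotProduct, Finset.mul_sum]
    refine Finset.sum_congr rfl fun k _ => ?_
    simp only [Pi.star_apply, Complex.star_def, Complex.conj_conj]
    ring
  have h2 : 0 < (star x ⬝ᵥ A.mulVec x).re := by
    rw [h1]
    exact h (star x) (by simpa using hx)
  have h3 : (star x ⬝ᵥ A.mulVec x).im = 0 := by
    have := hA.im_star_dotProduct_mulVec_self x
    simpa using this
  rw [Complex.lt_def]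
  exact ⟨h2, h3.symm⟩

/-- the uniform lower bound on a compact set -/
theorem exists_lev_lower {V : Cm n → H'} {K : Set (Cm n)} (hK : IsCompact K)
    (hV : ∀ z ∈ K, AnalyticAt ℂ V z) (h0 : ∀ z ∈ K, V z ≠ 0)
    (him : ∀ z ∈ K, ∀ (ξ : Cm n) (c : ℂ), fderiv ℂ V z ξ = c • V z → ξ = 0) :
    ∃ c₁ : ℝ, 0 < c₁ ∧ ∀ z ∈ K, ∀ β,
      c₁ * ∑ i, ‖β i‖ ^ 2 ≤ lev (fun y => Real.log (‖V y‖ ^ 2)) z β := by
  obtain ⟨C, hC, h⟩ := exists_quad_lower hK
    (fun z => cHess (fun y => Real.log (‖V y‖ ^ 2)) z) (fun _ => 1)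
    (fun i j z hz => (smooth_cHess (smooth_logV (hV z hz) (h0 z hz)) i
      j).continuousAt.continuousWithinAt)
    (fun i j => continuousOn_const)
    (fun z hz => posDef_of_qm (Vale.Agent.P272.K.cHess_isHermitian
      ((smooth_logV (hV z hz) (h0 z hz)).of_le (by norm_cast)))
      fun β hβ => lev_logV_pos (hV z hz) (h0 z hz) (him z hz) hβ)
  refine ⟨C⁻¹, inv_pos.2 hC, fun z hz β => ?_⟩
  have h1 := h z hz β
  rw [← qm_eq_quad, ← qm_eq_quad, qm_one] at h1
  rw [lev_eq_qm, inv_mul_le_iff₀ hC]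
  exact h1

end low

section dens
variable {n m M : ℕ} {Z : Type*} [TopologicalSpace Z] [ChartedSpace (Cm n) Z]
  {H : Type*} [NormedAddCommGroup H] [InnerProductSpace ℂ H] [CompleteSpace H]
  {N w : Chart n Z → Cm n → ℝ} {K k b : ℝ → ℝ} {c : ℝ}

open Classical in
/-- the density `det (½ i∂∂̄ log N + (j/c) ∂χ_j ∧ ∂̄χ_j)` on `{N e^{-mw} > δ}` -/
def De (m : ℕ) (k : ℝ → ℝ) (c j δ : ℝ) (τ : PSec n M Z) (N w : Chart n Z → Cm n → ℝ)
    (e : Chart n Z) (z : Cm n) : ℝ≥0∞ :=
  {z | z ∈ e.target ∧ δ < Rc m N w e z}.indicator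
    (fun z => ENNReal.ofReal
      (bm (1 / 2) (j / c) (fun y => Real.log (N e y)) (Xc k j τ w e) z).det.re) z

lemma isOpen_Rc (hN : HMet n m Z H N) (hw : IsCanonicalMetric w) {e : Chart n Z}
    (he : e ∈ atlas (Cm n) Z) (t : ℝ) : IsOpen {z | z ∈ e.target ∧ t < Rc m N w e z} := by
  have h1 : ContinuousOn (Rc m N w e) e.target := by
    intro z hz
    have := (Rc_smooth hN hw (At.of_target he hz)).continuousAt
    rw [e.right_inv hz] at this
    exact this.continuousWithinAt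
  exact h1.isOpen_inter_preimage e.open_target isOpen_Ioi

lemma N_ne_of_Rc {δ : ℝ} (hδ : 0 < δ) {e : Chart n Z} {z : Cm n} (h : δ < Rc m N w e z) :
    N e z ≠ 0 := by
  intro h0
  unfold Rc at h
  rw [h0, zero_mul] at h
  linarith

variable [IsManifold 𝓘(ℂ, Cm n) ω Z]

/-- `De` is a density. -/
theorem isEDens_De (P : Prof K k b c) {j δ : ℝ} (hj : 0 < j) (hδ : 0 < δ) (hN : HMet n m Z H N)
    (hw : IsCanonicalMetric w) (τ : PSec n M Z) :
    IsEDens (De (n := n) (Z := Z) m k c j δ τ N w) := by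
  constructor
  · intro e he
    have h1 : ContinuousOn (fun z => (bm (1 / 2) (j / c) (fun y => Real.log (N e y))
        (Xc k j τ w e) z).det.re) {z | z ∈ e.target ∧ δ < Rc m N w e z} := by
      intro z hz
      have hat := At.of_target he hz.1
      have hez := e.right_inv hz.1
      have hNz : N e (e (e.symm z)) ≠ 0 := by rw [hez]; exact N_ne_of_Rc hδ hz.2
      have h2 := cont_det_bm (smooth_logN hN hat hNz) (smooth_exF_Sc hw τ hat P.sk P.zk hj)
        (1 / 2) (j / c)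
      rw [hez] at h2
      exact h2.continuousWithinAt
    exact (ofReal_ind_meas (isOpen_Rc hN hw he _) h1).aemeasurable
  · intro e e' x h h'
    have hs : Rc m N w e (e x) = Rc m N w e' (e' x) := by
      rw [Rc_eq_rn hN hw h, Rc_eq_rn hN hw h']
    unfold De
    by_cases hS : δ < Rc m N w e (e x)
    · have hS' : δ < Rc m N w e' (e' x) := hs ▸ hS
      rw [indicator_of_mem (show e x ∈ {z | z ∈ e.target ∧ δ < Rc m N w e z} from
          ⟨h.mem_target, hS⟩),
        indicator_of_mem (show e' x ∈ {z | z ∈ e'.target ∧ δ < Rc m N w e' z} from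
          ⟨h'.mem_target, hS'⟩)]
      have hN' : N e' (e' x) ≠ 0 := N_ne_of_Rc hδ hS'
      have h2 : e' (e.symm (e x)) = e' x := by rw [h.left_inv]
      have h3 : (fun y => Real.log (N e y)) =ᶠ[𝓝 (e x)] fun y =>
          Real.log (N e' (e' (e.symm y))) +
            m * Real.log (‖(jacM e e' (e.symm y)).det‖ ^ 2) := by
        have hcont : ContinuousAt (fun y => N e' (e' (e.symm y))) (e x) := by
          have h4 : ContinuousAt (fun y => e' (e.symm y)) (e x) :=
            (transition h h').continuousAt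
          refine ContinuousAt.comp (g := N e') ?_ h4
          rw [h2]
          exact (smooth_N hN h').continuousAt
        have hne : ∀ᶠ y in 𝓝 (e x), N e' (e' (e.symm y)) ≠ 0 := by
          refine hcont.eventually_ne ?_
          show N e' (e' (e.symm (e x))) ≠ 0
          rw [h2]; exact hN'
        filter_upwards [h.nhds_at h', hne] with y hy hy0
        have h5 := hN.change e e' (e.symm y) hy.2.1 hy.2.2
        rw [e.right_inv hy.1] at h5
        have h6 : 0 < ‖(jacM e e' (e.symm y)).det‖ ^ 2 :=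
          pow_pos (norm_pos_iff.2 (jacM_det_ne_zero hy.2.1 hy.2.2)) 2
        rw [h5, Real.log_mul hy0 (pow_pos h6 m).ne', Real.log_pow]
      have h4 : Xc k j τ w e =ᶠ[𝓝 (e x)] fun y => Xc k j τ w e' (e' (e.symm y)) := by
        filter_upwards [h.nhds_at h'] with y hy
        unfold Xc
        congr 1
        have h5 := Sc_eq_sn hw τ hy.2.1
        have h6 := Sc_eq_sn hw τ hy.2.2
        rw [e.right_inv hy.1] at h5
        rw [h5, h6]
      have h5 := bm_pull (c := 1 / 2) (μ := j / c) (φ := fun y => Real.log (N e' y))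
        (φ' := fun y => Real.log (N e y)) (χ := Xc k j τ w e') (χ' := Xc k j τ w e)
        (T := fun y => e' (e.symm y)) (z := e x) (transition h h')
        (by rw [h2]; exact (smooth_logN hN h' hN').of_le (by norm_cast))
        (by
          rw [h2]
          exact (smooth_exF_Sc hw τ h' P.sk P.zk hj).differentiableAt (by norm_cast))
        (jacM_det_holo h h') (by rw [h.left_inv]; exact jacM_det_ne_zero h h') m h3 h4
      rw [h5, det_pull, ENNReal.ofReal_mul (by positivity), h2, mul_comm]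
      congr 1
      rw [← ofReal_norm, ← ENNReal.ofReal_pow (norm_nonneg _)]
      rfl
    · have hS' : ¬ δ < Rc m N w e' (e' x) := hs ▸ hS
      rw [indicator_of_notMem (fun hh => hS hh.2), indicator_of_notMem (fun hh => hS' hh.2),
        zero_mul]

lemma De_le (P : Prof K k b c) {j δ : ℝ} (hj : 0 < j) (hδ : 0 < δ) (hN : HMet n m Z H N)
    (hw : IsCanonicalMetric w) (hpos : ∀ e x, At e x → (cHess (w e) (e x)).PosDef)
    (τ : PSec n M Z) {e : Chart n Z} {x : Z} (h : At e x) :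
    De m k c j δ τ N w e (e x) ≤ ENNReal.ofReal (cHess (Psi m K j δ τ N w e) (e x)).det.re := by
  unfold De
  by_cases hS : e x ∈ {z | z ∈ e.target ∧ δ < Rc m N w e z}
  · rw [indicator_of_mem hS]
    have hN0 : N e (e x) ≠ 0 := N_ne_of_Rc hδ hS.2
    apply ENNReal.ofReal_le_ofReal
    obtain ⟨h1, h2⟩ := psd_Psi (b := b) P hj hδ hN hw hpos τ h
    have hφ : ContDiffAt ℝ 2 (fun y => Real.log (N e y)) (e x) :=
      (smooth_logN hN h hN0).of_le (by norm_cast)
    have hc := P.c0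
    refine det_psd_le (psd_of_qm (bm_herm hφ) fun β => ?_)
      (psd_of_qm ((Vale.Agent.P272.K.cHess_isHermitian h1).sub (bm_herm hφ)) fun β => ?_)
    · rw [qm_bm]
      have := lev_logN_nn hN h hN0 β
      positivity
    · rw [qm_sub, qm_bm, ← lev_eq_qm, sub_nonneg]
      exact (lev_tot P hj hδ hN hw τ h (qm_nonneg_of_psd (hpos e x h).posSemidef β)).2 hN0 hS.2.le
  · rw [indicator_of_notMem hS]
    exact zero_le

variable [T2Space Z] [CompactSpace Z]

/-- **The mass of `De` is bounded.** -/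
theorem mass_De (P : Prof K k b c) (hN : HMet n m Z H N) (hw : IsCanonicalMetric w)
    (hpos : ∀ e x, At e x → (cHess (w e) (e x)).PosDef) (τ : PSec n M Z) :
    ∃ C₀ : ℝ≥0∞, C₀ ≠ ⊤ ∧ ∀ j δ : ℝ, 0 < j → 0 < δ →
      massX (De (n := n) (Z := Z) m k c j δ τ N w) ≤ C₀ := by
  set b₀ : Chart n Z → Cm n → Matrix (Fin n) (Fin n) ℂ :=
    fun e z => (((m + M : ℕ) : ℝ) : ℂ) • cHess (w e) z with hb₀
  have hb : IsClosedForm b₀ := (isClosedForm_canonical hw).smul _
  refine ⟨ENNReal.ofReal (intX fun e z => (b₀ e z).det.re), ENNReal.ofReal_ne_top,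
    fun j δ hj hδ => ?_⟩
  -- the function on `Z`
  set u : Z → ℝ := fun x => Real.log (rn m N w x + δ) + exF (fun s => j * K s) j (sn w M τ.coeff x)
    with hu
  have huc : ∀ e x, At e x → (fun z => u (e.symm z)) =ᶠ[𝓝 (e x)] fun z =>
      Real.log (Rc m N w e z + δ) + exF (fun s => j * K s) j (Sc τ w e z) := by
    intro e x h
    filter_upwards [h.nhds_target] with z hz
    have hat := At.of_target h.1 hz
    have h1 := Sc_eq_sn hw τ hat
    have h2 := Rc_eq_rn hN hw hat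
    rw [e.right_inv hz] at h1 h2
    rw [hu]
    simp only
    rw [h1, h2]
  have hus : SmoothFn (n := n) u := by
    intro e x h
    refine ContDiffAt.congr_of_eventuallyEq ?_ (huc e x h)
    exact (smooth_logR hN hw hδ h).add (smooth_exF_Sc hw τ h (contDiff_const.mul P.sK)
      (fun s hs => by rw [P.zK s hs, mul_zero]) hj)
  have hPsi : ∀ e x, At e x → cHess (Psi m K j δ τ N w e) (e x) =
      b₀ e (e x) + cHess (fun y => u (e.symm y)) (e x) := by
    intro e x h
    have hw2 : ContDiffAt ℝ 2 (w e) (e x) := (hw.smooth e x h).of_le (by norm_cast)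
    have h1 : Psi m K j δ τ N w e =ᶠ[𝓝 (e x)] fun z =>
        ((m + M : ℕ) : ℝ) * w e z + u (e.symm z) := by
      filter_upwards [huc e x h] with z hz
      unfold Psi
      rw [hz]
    rw [Vale.Agent.P272.K.cHess_congr h1,
      Vale.Agent.P272.K.cHess_add (contDiffAt_const.mul hw2) (SmoothFn.two hus e x h),
      Vale.Agent.P272.K.cHess_const_mul _ hw2]
  rw [← intX_det_add_cHess hb hus, ← massX_ofReal
    (hb.add (isClosedForm_cHess hus)).isDensity fun e x h => ?_]
  · refine massX_mono fun e x h => ?_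
    have h1 := De_le P hj hδ hN hw hpos τ h
    rw [hPsi e x h] at h1
    exact h1
  · have h1 := (psd_Psi (b := b) P hj hδ hN hw hpos τ h).2
    rw [hPsi e x h] at h1
    exact (Complex.le_def.mp h1.det_nonneg).1

end dens

section br
variable {n m M : ℕ} {Z : Type*} [TopologicalSpace Z] [ChartedSpace (Cm n) Z]
  {H : Type*} [NormedAddCommGroup H] [InnerProductSpace ℂ H] [CompleteSpace H]
  {N w : Chart n Z → Cm n → ℝ} {K k b : ℝ → ℝ} {c : ℝ}
  {H' : Type*} [NormedAddCommGroup H'] [InnerProductSpace ℂ H'] [CompleteSpace H']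
  {V : Cm n → H'} {e : Chart n Z} {F : Cm n → Cm n} {z : Cm n}

lemma br_ne (hm : 1 ≤ m) (hb : IsBranch m N V z e F) (hV : V z ≠ 0) :
    N e (F z) ≠ 0 ∧ (fderiv ℂ F z).det ≠ 0 := by
  have h1 := hb.eq.self_of_nhds
  have h2 : ‖V z‖ ^ 2 ≠ 0 := by positivity
  rw [← h1] at h2
  refine ⟨left_ne_zero_of_mul h2, fun h0 => ?_⟩
  have h3 := right_ne_zero_of_mul h2
  rw [h0, norm_zero, zero_pow two_ne_zero, zero_pow (by omega)] at h3
  exact h3 rfl

lemma br_at (hb : IsBranch m N V z e F) : At e (e.symm (F z)) := At.of_target hb.mem hb.tgt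

/-- the value of the cut-off function on a branch is smooth -/
lemma Xc_comp_smooth (P : Prof K k b c) {j : ℝ} (hj : 0 < j) (hw : IsCanonicalMetric w)
    (τ : PSec n M Z) (hb : IsBranch m N V z e F) :
    ContDiffAt ℝ ∞ (fun y => Xc k j τ w e (F y)) z := by
  have h1 : ContDiffAt ℝ ∞ (Xc k j τ w e) (F z) := by
    have := smooth_exF_Sc hw τ (br_at hb) P.sk P.zk hj
    rw [e.right_inv hb.tgt] at this
    exact this
  have h2 : ContDiffAt ℝ ∞ F z :=
    ((hb.an.contDiffAt (n := ω)).restrict_scalars ℝ).of_le (by exact le_top)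
  exact h1.comp z h2

/-- **the identity on a branch** -/
theorem br_De (P : Prof K k b c) {j δ : ℝ} (hj : 0 < j) (hδ : 0 < δ) (hm : 1 ≤ m)
    (hN : HMet n m Z H N) (hw : IsCanonicalMetric w) (τ : PSec n M Z)
    (hb : IsBranch m N V z e F) (hV : V z ≠ 0) (hVc : ContinuousAt V z)
    (hR : δ < Rc m N w e (F z)) :
    ‖(fderiv ℂ F z).det‖ₑ ^ 2 * De m k c j δ τ N w e (F z) =
      ENNReal.ofReal (bm (1 / 2) (j / c) (fun y => Real.log (‖V y‖ ^ 2))
        (fun y => Xc k j τ w e (F y)) z).det.re := by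
  obtain ⟨hN0, hd0⟩ := br_ne hm hb hV
  have hat := br_at hb
  have hN0' : N e (e (e.symm (F z))) ≠ 0 := by rw [e.right_inv hb.tgt]; exact hN0
  have hF : ContDiffAt ℂ ω F z := hb.an.contDiffAt
  have h3 : (fun y => Real.log (‖V y‖ ^ 2)) =ᶠ[𝓝 z] fun y =>
      Real.log (N e (F y)) + m * Real.log (‖(fderiv ℂ F y).det‖ ^ 2) := by
    filter_upwards [hb.eq, hVc.eventually_ne hV] with y hy hy0
    have h4 : ‖V y‖ ^ 2 ≠ 0 := by positivity
    rw [← hy] at h4
    rw [← hy, Real.log_mul (left_ne_zero_of_mul h4) (right_ne_zero_of_mul h4), Real.log_pow]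
  have h5 := bm_pull (c := 1 / 2) (μ := j / c) (φ := fun y => Real.log (N e y))
    (φ' := fun y => Real.log (‖V y‖ ^ 2)) (χ := Xc k j τ w e)
    (χ' := fun y => Xc k j τ w e (F y)) (T := F) (z := z) hF
    (by
      have := (smooth_logN hN hat hN0').of_le (m := 2) (by norm_cast)
      rwa [e.right_inv hb.tgt] at this)
    (by
      have := (smooth_exF_Sc hw τ hat P.sk P.zk hj).differentiableAt (by norm_cast)
      rwa [e.right_inv hb.tgt] at this)
    (h := fun y => (fderiv ℂ F y).det) (analyticAt_det hb.an).contDiffAt hd0 m h3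
    (EventuallyEq.refl _ _)
  rw [h5, det_pull, det_jmat hb.an.differentiableAt, ENNReal.ofReal_mul (by positivity), De,
    indicator_of_mem (show F z ∈ {z | z ∈ e.target ∧ δ < Rc m N w e z} from ⟨hb.tgt, hR⟩)]
  congr 1
  rw [← ofReal_norm, ← ENNReal.ofReal_pow (norm_nonneg _)]

end br

end Vale.Agent.P284.H451
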