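import Vale.Agent.P284.H451.CntK

/-!
# P284 (helper451), COUNT: the functions `g_j` and their integrals
-/

open scoped Manifold ContDiff Topology ComplexOrder ENNReal
open Filter MeasureTheory Set Metric

set_option linter.all false

noncomputable section

namespace Vale.Agent.P284.H451

open Vale.Agent.P272.K Vale.Agent.P272.K.INT Vale.Agent.P272.KOD Vale.Agent.P284.H812
  Vale.Agent.P284.H213.KL

variable {n m M : ℕ} {Z : Type*} [TopologicalSpace Z] [ChartedSpace (Cm n) Z]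

/-- `Σ_{γ ∈ G z} χ_j(γ(z))` -/
def gj (k : ℝ → ℝ) (j : ℝ) (τ : PSec n M Z) (w : Chart n Z → Cm n → ℝ)
    (G : ∀ b : Cm n, Set (Germ (𝓝 b) Z)) (z : Cm n) : ℝ :=
  ∑ᶠ (γ : Germ (𝓝 z) Z) (_ : γ ∈ G z), exF k j (sn w M τ.coeff γ.value)

/-- the local structure of the family, at level `j` -/
structure LocS {H' : Type*} [NormedAddCommGroup H'] (m : ℕ) (N w : Chart n Z → Cm n → ℝ)
    (V : Cm n → H')
    (G : ∀ b : Cm n, Set (Germ (𝓝 b) Z)) (σ : ℝ) (τ : PSec n M Z) (k : ℝ → ℝ) (j : ℝ)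
    (b' : Cm n) (s : ℝ) {p : ℕ} (e : Fin p → Chart n Z) (F : Fin p → Cm n → Cm n) : Prop where
  sec : ∀ i, Sec m N w V G σ b' s (e i) (F i)
  inj : ∀ z ∈ ball b' s, Function.Injective fun i => gr (e i) (F i) z
  all : ∀ z ∈ ball b' s, ∀ γ ∈ G z, exF k j (sn w M τ.coeff γ.value) ≠ 0 →
    ∃ i, γ = gr (e i) (F i) z

variable [IsManifold 𝓘(ℂ, Cm n) ω Z] [T2Space Z]
  {H : Type*} [NormedAddCommGroup H] [InnerProductSpace ℂ H] [CompleteSpace H]
  {N w : Chart n Z → Cm n → ℝ} {K k b : ℝ → ℝ} {c : ℝ}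
  {H' : Type*} [NormedAddCommGroup H'] [InnerProductSpace ℂ H'] [CompleteSpace H']
  {V : Cm n → H'} {G : ∀ b : Cm n, Set (Germ (𝓝 b) Z)} {B : Set (Cm n)} {N₀ : ℕ}
  {τ : PSec n M Z} {σ j : ℝ} {b' : Cm n} {s : ℝ} {p : ℕ} {e : Fin p → Chart n Z}
  {F : Fin p → Cm n → Cm n}

omit [T2Space Z] in
lemma Xc_value (hw : IsCanonicalMetric w) {e : Chart n Z} {F : Cm n → Cm n} {z : Cm n}
    (hb : IsBranch m N V z e F) :
    exF k j (sn w M τ.coeff (gr e F z).value) = Xc k j τ w e (F z) := by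
  rw [gr_value, ← Sc_eq_sn hw τ (br_at hb), e.right_inv hb.tgt, Xc]

omit [T2Space Z] in
/-- the local formula -/
lemma gj_eq (hw : IsCanonicalMetric w) (hL : LocS m N w V G σ τ k j b' s e F) {z : Cm n}
    (hz : z ∈ ball b' s) : gj k j τ w G z = ∑ i, Xc k j τ w (e i) (F i z) := by
  unfold gj
  have h1 : ∑ᶠ (γ : Germ (𝓝 z) Z) (_ : γ ∈ G z), exF k j (sn w M τ.coeff γ.value) =
      ∑ᶠ (γ : Germ (𝓝 z) Z) (_ : γ ∈ range fun i => gr (e i) (F i) z),
        exF k j (sn w M τ.coeff γ.value) := by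
    refine finsum_mem_inter_support_eq' _ _ _ fun γ hγ => ⟨fun h => ?_, ?_⟩
    · obtain ⟨i, hi⟩ := hL.all z hz γ h hγ
      exact ⟨i, hi.symm⟩
    · rintro ⟨i, rfl⟩
      exact (hL.sec i).mem z hz
  rw [h1, finsum_mem_range (hL.inj z hz), finsum_eq_sum_of_fintype]
  exact Finset.sum_congr rfl fun i _ => Xc_value hw ((hL.sec i).br z hz)

omit [T2Space Z] in
lemma gj_ev (hw : IsCanonicalMetric w) (hL : LocS m N w V G σ τ k j b' s e F) {z : Cm n}
    (hz : z ∈ ball b' s) : gj k j τ w G =ᶠ[𝓝 z] fun y => ∑ i, Xc k j τ w (e i) (F i y) := by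
  filter_upwards [isOpen_ball.mem_nhds hz] with y hy
  exact gj_eq hw hL hy

omit [T2Space Z] in
lemma gj_smooth (P : Prof K k b c) (hj : 0 < j) (hw : IsCanonicalMetric w)
    (hL : LocS m N w V G σ τ k j b' s e F) {z : Cm n}
    (hz : z ∈ ball b' s) : ContDiffAt ℝ ∞ (gj k j τ w G) z := by
  refine ContDiffAt.congr_of_eventuallyEq ?_ (gj_ev hw hL hz)
  exact ContDiffAt.sum fun i _ => Xc_comp_smooth P hj hw τ ((hL.sec i).br z hz)

omit [T2Space Z] in
lemma gj_fderiv_le (P : Prof K k b c) (hj : 0 < j) (hw : IsCanonicalMetric w)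
    (hL : LocS m N w V G σ τ k j b' s e F) {z : Cm n} (hz : z ∈ ball b' s) :
    ‖fderiv ℝ (gj k j τ w G) z‖ₑ ≤ ∑ i, ‖fderiv ℝ (fun y => Xc k j τ w (e i) (F i y)) z‖ₑ := by
  rw [(gj_ev hw hL hz).fderiv_eq, fderiv_fun_sum]
  · exact enorm_sum_le (ε := Cm n →L[ℝ] ℝ) Finset.univ _
  · exact fun i _ => (Xc_comp_smooth P hj hw τ ((hL.sec i).br z hz)).differentiableAt
      (by norm_cast)

omit [T2Space Z] in
lemma exF_le_one (P : Prof K k b c) (t : ℝ) : exF k j t ≤ 1 := by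
  unfold exF
  split_ifs
  · exact zero_le_one
  · exact P.lk _

omit [T2Space Z] in
lemma exF_nonneg (P : Prof K k b c) (t : ℝ) : 0 ≤ exF k j t := by
  unfold exF
  split_ifs
  · exact le_rfl
  · exact P.nk _

lemma ofReal_gj_le (P : Prof K k b c) (hw : IsCanonicalMetric w)
    (hL : LocS m N w V G σ τ k j b' s e F) {z : Cm n} (hz : z ∈ ball b' s) :
    ENNReal.ofReal (gj k j τ w G z) ≤ ∑ i : Fin p, 1 := by
  rw [gj_eq hw hL hz, ENNReal.ofReal_sum_of_nonneg (f := fun i => Xc k j τ w (e i) (F i z))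
    fun i _ => exF_nonneg P _]
  refine Finset.sum_le_sum fun i _ => ?_
  rw [← ENNReal.ofReal_one]
  exact ENNReal.ofReal_le_ofReal (exF_le_one P _)

/-- **the integral inequality** -/
theorem ints [CompactSpace Z] (P : Prof K k b c) (hj : 0 < j) (hσ : 0 < σ) (hm : 1 ≤ m)
    (hN : HMet n m Z H N) (hw : IsCanonicalMetric w) (hM : BrMult B G N₀)
    (hVa : ∀ z ∈ B, AnalyticAt ℂ V z) (hV0 : ∀ z ∈ B, V z ≠ 0)
    (hloc : ∀ b' ∈ B, ∃ s : ℝ, 0 < s ∧ ball b' s ⊆ B ∧ ∃ (p : ℕ) (e : Fin p → Chart n Z)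
      (F : Fin p → Cm n → Cm n), LocS m N w V G σ τ k j b' s e F) (hne : B.Nonempty)
    {C₀ : ℝ≥0∞} (hC₀ : massX (De (n := n) (Z := Z) m k c j (σ / 2) τ N w) ≤ C₀)
    {h : Cm n → ℝ≥0∞} {D : ℝ≥0∞}
    (hh : ∀ b' ∈ B, ∀ (s : ℝ) (p : ℕ) (e : Fin p → Chart n Z) (F : Fin p → Cm n → Cm n),
      LocS m N w V G σ τ k j b' s e F → ball b' s ⊆ B → ∀ z ∈ ball b' s, h z ≤ D * ∑ i,
        ENNReal.ofReal (bm (1 / 2) (j / c) (fun y => Real.log (‖V y‖ ^ 2))
          (fun y => Xc k j τ w (e i) (F i y)) z).det.re) :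
    ∫⁻ z in B, h z ≤ D * (N₀ * C₀) := by
  choose! s hs hsB p e F hL using hloc
  -- countable cover
  obtain ⟨t, htB, htc, ht⟩ := TopologicalSpace.countable_cover_nhdsWithin
    (f := fun x => ball x (s x)) (s := B)
    fun z hz => mem_nhdsWithin_of_mem_nhds (ball_mem_nhds z (hs z hz))
  have htn : t.Nonempty := by
    obtain ⟨a, ha⟩ := hne
    obtain ⟨x, hx⟩ := mem_iUnion.mp (ht ha)
    obtain ⟨hx, -⟩ := mem_iUnion.mp hx
    exact ⟨x, hx⟩
  obtain ⟨g, hg⟩ := htc.exists_eq_range htn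
  have hgB : ∀ l, g l ∈ B := fun l => htB (hg ▸ mem_range_self l)
  set U : ℕ → Set (Cm n) := fun l => ball (g l) (s (g l)) with hU
  set A : ℕ → Set (Cm n) := disjointed U with hA
  have hAU : ∀ l, A l ⊆ U l := fun l => disjointed_subset U l
  have hAm : ∀ l, MeasurableSet (A l) := fun l =>
    MeasurableSet.disjointed (fun l => measurableSet_ball) l
  have hAB : ∀ l, A l ⊆ B := fun l => (hAU l).trans (hsB _ (hgB l))
  have hAd : Pairwise (Function.onFun Disjoint A) := disjoint_disjointed U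
  have hun : B = ⋃ l, A l := by
    rw [hA, iUnion_disjointed]
    refine subset_antisymm (fun a ha => ?_) (iUnion_subset fun l => hsB _ (hgB l))
    obtain ⟨x, hx⟩ := mem_iUnion.mp (ht ha)
    obtain ⟨hx, hax⟩ := mem_iUnion.mp hx
    rw [hg] at hx
    obtain ⟨l, rfl⟩ := hx
    exact mem_iUnion.mpr ⟨l, hax⟩
  set Φ : (l : ℕ) → Fin (p (g l)) → Cm n → ℝ≥0∞ := fun l i z =>
    ENNReal.ofReal (bm (1 / 2) (j / c) (fun y => Real.log (‖V y‖ ^ 2))
      (fun y => Xc k j τ w (e (g l) (hgB l) i) (F (g l) i y)) z).det.re with hΦ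
  have hsec : ∀ l i, Sec m N w V G σ (g l) (s (g l)) (e (g l) (hgB l) i) (F (g l) i) :=
    fun l i => (hL (g l) (hgB l)).sec i
  -- measurability
  have hΦm : ∀ l i, AEMeasurable (Φ l i) (volume.restrict (A l)) := by
    intro l i
    refine ContinuousOn.aemeasurable ?_ (hAm l)
    intro z hz
    have hzB := hAB l hz
    have h1 := cont_det_bm (smooth_logV (hVa z hzB) (hV0 z hzB))
      (Xc_comp_smooth P hj hw τ ((hsec l i).br z (hAU l hz))) (1 / 2) (j / c)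
    exact (ENNReal.continuous_ofReal.continuousAt.comp h1).continuousWithinAt
  -- area
  have harea := area_sec (κ := (l : ℕ) × Fin (p (g l))) P hj (half_pos hσ) hm hN hw τ hM
    (fun z hz => (hVa z hz).continuousAt) hV0 (e := fun q => e (g q.1) (hgB q.1) q.2)
    (fun q => ((hsec q.1 q.2).br (g q.1) (mem_ball_self (hs _ (hgB _)))).mem)
    (F := fun q => F (g q.1) q.2) (A := fun q => A q.1) (fun q => hAm q.1) (fun q => hAB q.1)
    (fun q z hz => (hsec q.1 q.2).br z (hAU q.1 hz))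
    (fun q z hz => (hsec q.1 q.2).mem z (hAU q.1 hz))
    (fun q z hz => lt_of_lt_of_le (half_lt_self hσ) ((hsec q.1 q.2).low z (hAU q.1 hz)))
    (by
      rintro ⟨l, i⟩ ⟨l', i'⟩ z hz hz' hq
      have hll : l = l' := by
        by_contra hne
        exact (Set.disjoint_left.mp (hAd hne)) hz hz'
      subst hll
      have hii : i = i' := (hL (g l) (hgB l)).inj z (hAU l hz) hq
      rw [hii]) hC₀
  have h2 : ∀ l, ∫⁻ z in A l, h z ≤ D * ∑ i, ∫⁻ z in A l, Φ l i z := by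
    intro l
    rw [← lintegral_finsetSum' _ fun i _ => hΦm l i]
    have hsm : AEMeasurable (fun z => ∑ i, Φ l i z) (volume.restrict (A l)) :=
      Finset.aemeasurable_fun_sum _ fun i _ => hΦm l i
    rw [← lintegral_const_mul'' _ hsm]
    refine setLIntegral_mono' (hAm l) fun z hz => ?_
    exact hh (g l) (hgB l) _ _ _ _ (hL (g l) (hgB l)) (hsB _ (hgB l)) z (hAU l hz)
  conv_lhs => rw [hun]
  rw [lintegral_iUnion hAm hAd]
  refine (ENNReal.tsum_le_tsum h2).trans ?_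
  rw [ENNReal.tsum_mul_left]
  refine mul_le_mul' le_rfl (le_trans (le_of_eq ?_) harea)
  rw [ENNReal.tsum_sigma']
  exact tsum_congr fun l => (tsum_fintype _).symm

end Vale.Agent.P284.H451
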