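import Vale.Agent.P284.H608.K.Spec

/-!
# P284 (helper451), theorem K: K1b, part A (adjoint of `dz_c ∧`, the Clifford identity, `A_w = n - p`)
-/

open scoped ComplexConjugate ComplexOrder
open Finset

noncomputable section

namespace Vale.Agent.P284.H451.K1

open Vale.Agent.P284.H608.K Vale.Agent.P272.K

variable {n p : ℕ}

/-- basis vector -/
abbrev eb (a : Fin n) : Cm n := Pi.single a 1

theorem wdz_apply (c : Fin n) (η : Af n p) (v : Fin (p + 1) → Cm n) :
    wdz c η v = ∑ i : Fin (p + 1), (-1 : ℂ) ^ (i : ℕ) * (v i c * η (i.removeNth v)) := by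
  unfold wdz
  rw [ContinuousAlternatingMap.alternatizeUncurryFin_apply]
  refine Finset.sum_congr rfl fun i _ => ?_
  simp [zsmul_eq_mul]

theorem ev_wdz (c : Fin n) (τ : Af n p) (s : Fin (p + 1) → Fin n) :
    ev (wdz c τ) s =
      ∑ i : Fin (p + 1), (-1 : ℂ) ^ (i : ℕ) * ((if s i = c then 1 else 0) * ev τ (i.removeNth s)) := by
  unfold ev
  rw [wdz_apply]
  refine Finset.sum_congr rfl fun i _ => ?_
  congr 2
  rw [Pi.single_apply]
  simp only [eq_comm]

theorem ev_curry (D : Af n (p + 1)) (a : Fin n) (t : Fin p → Fin n) :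
    ev (D.curryLeft (Pi.single a 1)) t = ev D (Fin.cons a t) := by
  unfold ev
  rw [ContinuousAlternatingMap.curryLeft_apply_apply]
  congr 1
  funext i
  refine Fin.cases ?_ (fun j => ?_) i
  · simp
  · simp

theorem ev_insertNth (D : Af n (p + 1)) (i : Fin (p + 1)) (a : Fin n) (t : Fin p → Fin n) :
    (-1 : ℂ) ^ (i : ℕ) * ev D (i.insertNth a t) = ev D (Fin.cons a t) := by
  rw [← ev_curry]
  unfold ev
  rw [ContinuousAlternatingMap.curryLeft_apply_apply,
    ← ContinuousAlternatingMap.neg_one_pow_smul_map_insertNth D i]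
  rw [zsmul_eq_mul]
  push_cast
  congr 2
  funext j
  refine Fin.succAboveCases i ?_ (fun k => ?_) j
  · simp
  · simp

theorem ev_add (A B : Af n p) (s : Fin p → Fin n) : ev (A + B) s = ev A s + ev B s := rfl

theorem ev_smul (c : ℂ) (A : Af n p) (s : Fin p → Fin n) : ev (c • A) s = c * ev A s := rfl

theorem ev_sub (A B : Af n p) (s : Fin p → Fin n) : ev (A - B) s = ev A s - ev B s := rfl

theorem ev_sum {ι : Type*} (S : Finset ι) (A : ι → Af n p) (s : Fin p → Fin n) :
    ev (∑ i ∈ S, A i) s = ∑ i ∈ S, ev (A i) s := by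
  unfold ev
  simp

/-! ### sesquilinearity -/

theorem hn_add_left (w : Matrix (Fin n) (Fin n) ℂ) (A A' B : Af n p) :
    hn w (A + A') B = hn w A B + hn w A' B := by
  unfold hn
  rw [← mul_add, ← Finset.sum_add_distrib]
  congr 1
  refine Finset.sum_congr rfl fun s _ => ?_
  rw [← Finset.sum_add_distrib]
  refine Finset.sum_congr rfl fun t _ => ?_
  rw [ev_add]; ring

theorem hn_smul_left (w : Matrix (Fin n) (Fin n) ℂ) (c : ℂ) (A B : Af n p) :
    hn w (c • A) B = c * hn w A B := by
  unfold hn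
  simp only [ev_smul, Finset.mul_sum]
  refine Finset.sum_congr rfl fun s _ => ?_
  refine Finset.sum_congr rfl fun t _ => ?_
  ring

theorem hn_symm {w : Matrix (Fin n) (Fin n) ℂ} (hw : w.PosDef) (A B : Af n p) :
    hn w A B = conj (hn w B A) := by
  have h1 : ∀ a b, conj (w⁻¹ a b) = w⁻¹ b a := fun a b => hw.1.inv.apply b a
  unfold hn
  rw [map_mul, map_inv₀, Complex.conj_natCast, map_sum]
  congr 1
  rw [Finset.sum_comm]
  refine Finset.sum_congr rfl fun s _ => ?_
  rw [map_sum]
  refine Finset.sum_congr rfl fun t _ => ?_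
  rw [map_mul, map_mul, map_prod, Complex.conj_conj]
  simp only [h1]
  ring

theorem hn_add_right {w : Matrix (Fin n) (Fin n) ℂ} (hw : w.PosDef) (A B B' : Af n p) :
    hn w A (B + B') = hn w A B + hn w A B' := by
  rw [hn_symm hw, hn_add_left, map_add, ← hn_symm hw, ← hn_symm hw]

theorem hn_smul_right {w : Matrix (Fin n) (Fin n) ℂ} (hw : w.PosDef) (c : ℂ) (A B : Af n p) :
    hn w A (c • B) = conj c * hn w A B := by
  rw [hn_symm hw, hn_smul_left, map_mul, ← hn_symm hw]

theorem hn_zero_left (w : Matrix (Fin n) (Fin n) ℂ) (B : Af n p) : hn w 0 B = 0 := by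
  unfold hn ev
  simp

theorem hn_zero_right {w : Matrix (Fin n) (Fin n) ℂ} (hw : w.PosDef) (B : Af n p) :
    hn w B 0 = 0 := by
  rw [hn_symm hw, hn_zero_left, map_zero]

theorem hn_sum_left {ι : Type*} (w : Matrix (Fin n) (Fin n) ℂ) (S : Finset ι) (A : ι → Af n p)
    (B : Af n p) : hn w (∑ i ∈ S, A i) B = ∑ i ∈ S, hn w (A i) B := by
  classical
  induction S using Finset.induction_on with
  | empty => simp [hn_zero_left]
  | insert a S ha ih => rw [Finset.sum_insert ha, Finset.sum_insert ha, hn_add_left, ih]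

theorem hn_sum_right {ι : Type*} {w : Matrix (Fin n) (Fin n) ℂ} (hw : w.PosDef) (S : Finset ι)
    (A : ι → Af n p) (B : Af n p) : hn w B (∑ i ∈ S, A i) = ∑ i ∈ S, hn w B (A i) := by
  classical
  induction S using Finset.induction_on with
  | empty => simp [hn_zero_right hw]
  | insert a S ha ih => rw [Finset.sum_insert ha, Finset.sum_insert ha, hn_add_right hw, ih]

theorem hn_sub_right {w : Matrix (Fin n) (Fin n) ℂ} (hw : w.PosDef) (A B B' : Af n p) :
    hn w A (B - B') = hn w A B - hn w A B' := by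
  have h := hn_add_right hw A (B - B') B'
  rw [sub_add_cancel] at h
  rw [h]; ring

/-! ### the adjoint of `dz_c ∧` -/

theorem wadj {w : Matrix (Fin n) (Fin n) ℂ} (hw : w.PosDef) (c : Fin n) (τ : Af n p)
    (D : Af n (p + 1)) :
    hn w (wdz c τ) D = hn w τ (∑ a, w⁻¹ c a • D.curryLeft (Pi.single a 1)) := by
  have h1 : ∀ a b, conj (w⁻¹ a b) = w⁻¹ b a := fun a b => hw.1.inv.apply b a
  have hR : hn w τ (∑ a, w⁻¹ c a • D.curryLeft (Pi.single a 1)) =
      ((p.factorial : ℂ))⁻¹ * ∑ s : Fin p → Fin n, ∑ t : Fin p → Fin n, ∑ a,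
        ev τ s * (w⁻¹ a c * conj (ev D (Fin.cons a t))) * ∏ i, w⁻¹ (t i) (s i) := by
    unfold hn
    congr 1
    refine Finset.sum_congr rfl fun s _ => ?_
    refine Finset.sum_congr rfl fun t _ => ?_
    rw [ev_sum, map_sum, Finset.mul_sum, Finset.sum_mul]
    refine Finset.sum_congr rfl fun a _ => ?_
    rw [ev_smul, map_mul, h1, ev_curry]
  have hi : ∀ i : Fin (p + 1), (∑ s : Fin (p + 1) → Fin n, ∑ t : Fin (p + 1) → Fin n,
      ((-1 : ℂ) ^ (i : ℕ) * ((if s i = c then 1 else 0) * ev τ (i.removeNth s))) *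
        conj (ev D t) * ∏ j, w⁻¹ (t j) (s j)) =
      ∑ s : Fin p → Fin n, ∑ t : Fin p → Fin n, ∑ a,
        ev τ s * (w⁻¹ a c * conj (ev D (Fin.cons a t))) * ∏ i, w⁻¹ (t i) (s i) := by
    intro i
    have hE : ∀ (a : Fin n) (t : Fin p → Fin n),
        (Fin.insertNthEquiv (fun _ => Fin n) i) (a, t) = i.insertNth a t := fun _ _ => rfl
    rw [← (Fin.insertNthEquiv (fun _ => Fin n) i).sum_comp, Fintype.sum_prod_type]
    rw [Finset.sum_eq_single_of_mem c (Finset.mem_univ _)]
    · refine Finset.sum_congr rfl fun s _ => ?_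
      rw [← (Fin.insertNthEquiv (fun _ => Fin n) i).sum_comp, Fintype.sum_prod_type,
        Finset.sum_comm]
      refine Finset.sum_congr rfl fun t _ => ?_
      refine Finset.sum_congr rfl fun a _ => ?_
      simp only [hE]
      rw [Fin.prod_univ_succAbove _ i]
      simp only [Fin.insertNth_apply_same, Fin.insertNth_apply_succAbove, if_true, one_mul,
        Fin.removeNth_insertNth]
      rw [← ev_insertNth D i a t, map_mul, map_pow, map_neg, map_one]
      ring
    · intro b _ hb
      refine Finset.sum_eq_zero fun s _ => ?_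
      refine Finset.sum_eq_zero fun t _ => ?_
      simp only [hE]
      simp [hb]
  rw [hR]
  unfold hn
  have hL : (∑ s : Fin (p + 1) → Fin n, ∑ t : Fin (p + 1) → Fin n,
      ev (wdz c τ) s * conj (ev D t) * ∏ i, w⁻¹ (t i) (s i)) =
      ∑ i : Fin (p + 1), ∑ s : Fin (p + 1) → Fin n, ∑ t : Fin (p + 1) → Fin n,
      ((-1 : ℂ) ^ (i : ℕ) * ((if s i = c then 1 else 0) * ev τ (i.removeNth s))) *
        conj (ev D t) * ∏ j, w⁻¹ (t j) (s j) := by
    rw [Finset.sum_comm (s := (Finset.univ : Finset (Fin (p + 1))))]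
    refine Finset.sum_congr rfl fun s _ => ?_
    rw [Finset.sum_comm (s := (Finset.univ : Finset (Fin (p + 1))))]
    refine Finset.sum_congr rfl fun t _ => ?_
    rw [ev_wdz, Finset.sum_mul, Finset.sum_mul]
  rw [hL, Finset.sum_congr rfl fun i _ => hi i, Finset.sum_const, Finset.card_univ,
    Fintype.card_fin, nsmul_eq_mul, Nat.factorial_succ]
  have h2 : (p.factorial : ℂ) ≠ 0 := by exact_mod_cast p.factorial_ne_zero
  have h3 : ((p + 1 : ℕ) : ℂ) ≠ 0 := by exact_mod_cast p.succ_ne_zero
  push_cast at h3 ⊢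
  field_simp

/-! ### contraction of `dz_c ∧ η` -/

theorem curry_wdz (c : Fin n) (η : Af n (p + 1)) (v : Cm n) :
    (wdz c η).curryLeft v = v c • η - wdz c (η.curryLeft v) := by
  ext u
  rw [ContinuousAlternatingMap.curryLeft_apply_apply, wdz_apply, Fin.sum_univ_succ,
    ContinuousAlternatingMap.sub_apply, ContinuousAlternatingMap.smul_apply, wdz_apply,
    sub_eq_add_neg, ← Finset.sum_neg_distrib]
  congr 1
  · simp
  · refine Finset.sum_congr rfl fun i _ => ?_
    rw [ContinuousAlternatingMap.curryLeft_apply_apply]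
    have h1 : (i.succ.removeNth (Matrix.vecCons v u)) = Matrix.vecCons v (i.removeNth u) := by
      funext j
      refine Fin.cases ?_ (fun k => ?_) j
      · simp [Fin.removeNth]
      · simp [Fin.removeNth, Fin.succ_succAbove_succ]
    rw [h1]
    simp [pow_succ]

theorem curry_wdz_zero (c : Fin n) (η : Af n 0) (v : Cm n) :
    (wdz c η).curryLeft v = v c • η := by
  ext u
  rw [ContinuousAlternatingMap.curryLeft_apply_apply, wdz_apply]
  simp only [ContinuousAlternatingMap.smul_apply]
  rw [Fin.sum_univ_one]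
  simp

theorem wdz_add (c : Fin n) (η ζ : Af n p) : wdz c (η + ζ) = wdz c η + wdz c ζ := by
  ext v
  rw [ContinuousAlternatingMap.add_apply, wdz_apply, wdz_apply, wdz_apply,
    ← Finset.sum_add_distrib]
  refine Finset.sum_congr rfl fun i _ => ?_
  rw [ContinuousAlternatingMap.add_apply]
  ring

theorem wdz_smul (c : Fin n) (a : ℂ) (η : Af n p) : wdz c (a • η) = a • wdz c η := by
  ext v
  rw [ContinuousAlternatingMap.smul_apply, wdz_apply, wdz_apply, Finset.smul_sum]
  refine Finset.sum_congr rfl fun i _ => ?_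
  rw [ContinuousAlternatingMap.smul_apply, smul_eq_mul, smul_eq_mul]
  ring

theorem wdz_zero (c : Fin n) : wdz c (0 : Af n p) = 0 := by
  ext v
  rw [wdz_apply]
  simp

theorem wdz_sum {ι : Type*} (c : Fin n) (S : Finset ι) (A : ι → Af n p) :
    wdz c (∑ i ∈ S, A i) = ∑ i ∈ S, wdz c (A i) := by
  classical
  induction S using Finset.induction_on with
  | empty => simp [wdz_zero]
  | insert a S ha ih => rw [Finset.sum_insert ha, Finset.sum_insert ha, wdz_add, ih]

/-- `curryLeft` in the vector `v` as a linear map -/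
theorem curry_sum {ι : Type*} (v : Cm n) (S : Finset ι) (A : ι → Af n (p + 1)) :
    (∑ i ∈ S, A i).curryLeft v = ∑ i ∈ S, (A i).curryLeft v := by
  ext u
  rw [ContinuousAlternatingMap.curryLeft_apply_apply, ContinuousAlternatingMap.sum_apply,
    ContinuousAlternatingMap.sum_apply]
  rfl

/-- Euler -/
theorem euler (η : Af n (p + 1)) :
    ∑ a, wdz a (η.curryLeft (Pi.single a 1)) = ((p + 1 : ℕ) : ℂ) • η := by
  ext v
  rw [ContinuousAlternatingMap.sum_apply]
  simp only [wdz_apply, ContinuousAlternatingMap.curryLeft_apply_apply]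
  rw [Finset.sum_comm, ContinuousAlternatingMap.smul_apply]
  have h : ∀ i : Fin (p + 1), ∑ a : Fin n, (-1 : ℂ) ^ (i : ℕ) *
      (v i a * η (Matrix.vecCons (Pi.single a 1) (i.removeNth v))) = η v := by
    intro i
    rw [← Finset.mul_sum]
    have h1 : ∑ a : Fin n, v i a * η (Matrix.vecCons (Pi.single a 1) (i.removeNth v)) =
        η (Matrix.vecCons (v i) (i.removeNth v)) := by
      have h2 : ∀ x : Cm n, η (Matrix.vecCons x (i.removeNth v)) = η.curryLeft x (i.removeNth v) :=
        fun x => (ContinuousAlternatingMap.curryLeft_apply_apply _ _ _).symm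
      simp only [h2]
      have h3 : v i = ∑ a, v i a • (Pi.single a 1 : Cm n) := by
        funext b
        simp [Finset.sum_apply, Pi.single_apply]
      conv_rhs => rw [h3]
      rw [map_sum, ContinuousAlternatingMap.sum_apply]
      refine Finset.sum_congr rfl fun a _ => ?_
      rw [map_smul, ContinuousAlternatingMap.smul_apply, smul_eq_mul]
    rw [h1, ← ContinuousAlternatingMap.neg_one_pow_smul_map_insertNth η i, zsmul_eq_mul]
    push_cast
    rw [← mul_assoc, ← mul_pow]
    simp
  rw [Finset.sum_congr rfl fun i _ => h i]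
  simp

theorem cliff {w : Matrix (Fin n) (Fin n) ℂ} (hw : w.PosDef) (μ : Fin n → ℂ)
    (η : Af n (p + 1)) :
    hn w (∑ c, μ c • wdz c η) (∑ c, μ c • wdz c η) +
      hn w (∑ c, ∑ a, (conj (μ c) * w⁻¹ c a) • η.curryLeft (Pi.single a 1))
        (∑ c, ∑ a, (conj (μ c) * w⁻¹ c a) • η.curryLeft (Pi.single a 1)) =
      (∑ c, ∑ d, μ c * conj (μ d) * w⁻¹ d c) * hn w η η := by
  have h1 : ∀ a b, conj (w⁻¹ a b) = w⁻¹ b a := fun a b => hw.1.inv.apply b a
  -- adjoint for `μ`
  have hadj : ∀ {q : ℕ} (τ : Af n q) (D : Af n (q + 1)), hn w (∑ c, μ c • wdz c τ) D =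
      hn w τ (∑ c, ∑ a, (conj (μ c) * w⁻¹ c a) • D.curryLeft (Pi.single a 1)) := by
    intro q τ D
    rw [hn_sum_left, hn_sum_right hw]
    refine Finset.sum_congr rfl fun c _ => ?_
    rw [hn_smul_left, wadj hw]
    rw [← Complex.conj_conj (μ c), ← hn_smul_right hw]
    congr 1
    rw [Complex.conj_conj, Finset.smul_sum]
    refine Finset.sum_congr rfl fun a _ => ?_
    rw [smul_smul]
  set ι : Af n p := ∑ c, ∑ a, (conj (μ c) * w⁻¹ c a) • η.curryLeft (Pi.single a 1) with hι
  have hcon : (∑ c, ∑ a, (conj (μ c) * w⁻¹ c a) •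
      (∑ d, μ d • wdz d η).curryLeft (Pi.single a 1)) =
      (∑ c, ∑ d, μ c * conj (μ d) * w⁻¹ d c) • η - ∑ d, μ d • wdz d ι := by
    have e1 : ∀ a : Fin n, (∑ d, μ d • wdz d η).curryLeft (Pi.single a 1) =
        μ a • η - ∑ d, μ d • wdz d (η.curryLeft (Pi.single a 1)) := by
      intro a
      rw [curry_sum]
      have e2 : ∀ d : Fin n, (μ d • wdz d η).curryLeft (Pi.single a 1) =
          (if a = d then μ d else 0) • η - μ d • wdz d (η.curryLeft (Pi.single a 1)) := by
        intro d
        rw [ContinuousAlternatingMap.curryLeft_smul, ContinuousLinearMap.smul_apply, curry_wdz,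
          smul_sub, smul_smul]
        congr 2
        by_cases h : a = d
        · subst h; simp
        · rw [if_neg h, Pi.single_eq_of_ne (Ne.symm h), mul_zero]
      rw [Finset.sum_congr rfl fun d _ => e2 d, Finset.sum_sub_distrib, ← Finset.sum_smul,
        Finset.sum_ite_eq Finset.univ a μ, if_pos (Finset.mem_univ _)]
    rw [Finset.sum_congr rfl fun c _ => Finset.sum_congr rfl fun a _ => by rw [e1 a, smul_sub]]
    simp only [Finset.sum_sub_distrib]
    congr 1
    · ext v
      simp only [ContinuousAlternatingMap.sum_apply, ContinuousAlternatingMap.smul_apply,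
        smul_eq_mul, Finset.sum_mul]
      rw [Finset.sum_comm]
      refine Finset.sum_congr rfl fun c _ => ?_
      refine Finset.sum_congr rfl fun d _ => ?_
      ring
    · simp only [hι, wdz_sum, wdz_smul, Finset.smul_sum, smul_smul]
      rw [Finset.sum_congr rfl fun c _ => Finset.sum_comm]
      rw [Finset.sum_comm]
      refine Finset.sum_congr rfl fun d _ => ?_
      refine Finset.sum_congr rfl fun c _ => ?_
      refine Finset.sum_congr rfl fun a _ => ?_
      congr 1
      ring
  rw [hadj η, hcon, hn_sub_right hw, hn_smul_right hw]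
  have h2 : hn w η (∑ d, μ d • wdz d ι) = hn w ι ι := by
    rw [hn_symm hw, hadj ι η, ← hι, ← hn_symm hw]
  rw [h2]
  have h3 : conj (∑ c, ∑ d, μ c * conj (μ d) * w⁻¹ d c) = ∑ c, ∑ d, μ c * conj (μ d) * w⁻¹ d c := by
    simp only [map_sum, map_mul, Complex.conj_conj, h1]
    rw [Finset.sum_comm]
    refine Finset.sum_congr rfl fun c _ => ?_
    refine Finset.sum_congr rfl fun d _ => ?_
    ring
  rw [h3]
  ring

/-- `A_w = n - p` in degree `p` -/
theorem Adw (hp : p ≤ n) {w : Matrix (Fin n) (Fin n) ℂ} (hw : w.PosDef) (η : Af n p) :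
    Ad w w η = ((n - p : ℕ) : ℂ) * hn w η η := by
  have hdet : IsUnit w.det := hw.det_pos.ne'.isUnit
  have h0 : ∀ a b, conj (w a b) = w b a := fun a b => hw.1.apply b a
  have hin : ∀ a d, ∑ c, w d c * w⁻¹ c a = if d = a then 1 else 0 := by
    intro a d
    have := congrFun (congrFun (Matrix.mul_nonsing_inv w hdet) d) a
    rw [Matrix.mul_apply, Matrix.one_apply] at this
    exact this
  have h1 : Ad w w η = hn w η (∑ d, (wdz d η).curryLeft (Pi.single d 1)) := by
    unfold Ad
    have h2 : ∀ c d, w c d * hn w (wdz c η) (wdz d η) =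
        hn w η (∑ a, (w d c * w⁻¹ c a) • (wdz d η).curryLeft (Pi.single a 1)) := by
      intro c d
      rw [wadj hw, ← h0 d c, ← hn_smul_right hw, Finset.smul_sum]
      simp only [smul_smul]
    rw [Finset.sum_congr rfl fun c _ => Finset.sum_congr rfl fun d _ => h2 c d, Finset.sum_comm]
    simp only [← hn_sum_right hw]
    congr 1
    refine Finset.sum_congr rfl fun d _ => ?_
    rw [Finset.sum_comm]
    simp only [← Finset.sum_smul, hin]
    rw [Finset.sum_eq_single_of_mem d (Finset.mem_univ _)]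
    · simp
    · intro a _ ha
      rw [if_neg (Ne.symm ha)]
      ext v; simp
  rw [h1]
  rcases p with _ | p
  · have h3 : (∑ d, (wdz d η).curryLeft (Pi.single d 1)) = ((n : ℕ) : ℂ) • η := by
      simp only [curry_wdz_zero, Pi.single_eq_same]
      ext v
      simp
    rw [h3, hn_smul_right hw, Complex.conj_natCast, Nat.sub_zero]
  · have h3 : (∑ d, (wdz d η).curryLeft (Pi.single d 1)) = ((n - (p + 1) : ℕ) : ℂ) • η := by
      simp only [curry_wdz, Pi.single_eq_same, Finset.sum_sub_distrib, euler]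
      ext v
      simp only [ContinuousAlternatingMap.sub_apply, ContinuousAlternatingMap.sum_apply,
        ContinuousAlternatingMap.smul_apply, smul_eq_mul, Finset.sum_const, Finset.card_univ,
        Fintype.card_fin, nsmul_eq_mul]
      push_cast [Nat.cast_sub hp]
      ring
    rw [h3, hn_smul_right hw, Complex.conj_natCast]

end Vale.Agent.P284.H451.K1
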