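import Vale.Agent.P284.H451.K1bA
import Mathlib.Analysis.Matrix.Spectrum
import Mathlib.Analysis.Matrix.PosDef

/-!
# P284 (helper451), theorem K: K1b, part B (volume monotonicity, decomposable forms)
-/

open scoped ComplexConjugate ComplexOrder
open Finset

noncomputable section

namespace Vale.Agent.P284.H451.K1

open Vale.Agent.P284.H608.K Vale.Agent.P272.K

variable {n p : ℕ}

/-- the components of a form in the frame of the columns of `C` -/
def cf (C : Matrix (Fin n) (Fin n) ℂ) (A : Af n p) (κ : Fin p → Fin n) : ℂ :=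
  ∑ s : Fin p → Fin n, ev A s * ∏ i, C (s i) (κ i)

theorem cf_eq (C : Matrix (Fin n) (Fin n) ℂ) (A : Af n p) (κ : Fin p → Fin n) :
    cf C A κ = A fun i => fun a => C a (κ i) := by
  have h : (fun i : Fin p => (fun a => C a (κ i) : Cm n)) =
      fun i => ∑ a, C a (κ i) • (Pi.single a 1 : Cm n) := by
    funext i b
    simp [Finset.sum_apply, Pi.single_apply]
  rw [h]
  have h1 := A.toMultilinearMap.map_sum (fun (i : Fin p) (a : Fin n) => C a (κ i) •
    (Pi.single a 1 : Cm n))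
  refine Eq.trans ?_ h1.symm
  unfold cf
  refine Finset.sum_congr rfl fun s _ => ?_
  rw [MultilinearMap.map_smul_univ]
  rw [smul_eq_mul, mul_comm]
  rfl

theorem cf_zero (C : Matrix (Fin n) (Fin n) ℂ) (A : Af n p) (κ : Fin p → Fin n)
    (hκ : ¬ Function.Injective κ) : cf C A κ = 0 := by
  rw [cf_eq]
  refine A.toAlternatingMap.map_eq_zero_of_not_injective _ fun h => hκ fun i j hij => ?_
  refine h ?_
  simp only [hij]

theorem hn_diag {g C : Matrix (Fin n) (Fin n) ℂ} {m : Fin n → ℝ}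
    (hg : ∀ s t, g⁻¹ t s = ∑ k, conj (C t k) * (m k : ℂ) * C s k) (A : Af n p) :
    hn g A A = (((p.factorial : ℝ)⁻¹ * ∑ κ : Fin p → Fin n,
      (∏ i, m (κ i)) * ‖cf C A κ‖ ^ 2 : ℝ) : ℂ) := by
  unfold hn
  push_cast
  congr 1
  have h1 : ∀ s t : Fin p → Fin n, ev A s * conj (ev A t) * ∏ i, g⁻¹ (t i) (s i) =
      ∑ κ : Fin p → Fin n, (∏ i, (m (κ i) : ℂ)) * ((ev A s * ∏ i, C (s i) (κ i)) *
        conj (ev A t * ∏ i, C (t i) (κ i))) := by
    intro s t
    simp only [hg]
    rw [Finset.prod_univ_sum, Fintype.piFinset_univ, Finset.mul_sum]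
    refine Finset.sum_congr rfl fun κ _ => ?_
    rw [Finset.prod_mul_distrib, Finset.prod_mul_distrib, map_mul, map_prod]
    ring
  simp only [h1]
  have h2 : ∀ κ : Fin p → Fin n, ((∏ i, (m (κ i) : ℂ)) * (‖cf C A κ‖ : ℂ) ^ 2) =
      ∑ s : Fin p → Fin n, ∑ t : Fin p → Fin n, (∏ i, (m (κ i) : ℂ)) *
        ((ev A s * ∏ i, C (s i) (κ i)) * conj (ev A t * ∏ i, C (t i) (κ i))) := by
    intro κ
    rw [← Complex.mul_conj', cf, map_sum, Finset.sum_mul_sum, Finset.mul_sum]
    refine Finset.sum_congr rfl fun s _ => ?_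
    rw [Finset.mul_sum]
  simp only [h2]
  rw [Finset.sum_congr rfl fun s _ => Finset.sum_comm]
  rw [Finset.sum_comm]

theorem diagH {a : Matrix (Fin n) (Fin n) ℂ} (ha : a.IsHermitian) :
    ∃ U : Matrix (Fin n) (Fin n) ℂ, U.conjTranspose * U = 1 ∧
      U.conjTranspose * a * U = Matrix.diagonal (fun i => (ha.eigenvalues i : ℂ)) := by
  refine ⟨(ha.eigenvectorUnitary).1, Unitary.coe_star_mul_self ha.eigenvectorUnitary, ?_⟩
  have := ha.conjStarAlgAut_star_eigenvectorUnitary
  rw [Unitary.conjStarAlgAut_star_apply] at this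
  exact this

theorem sqrt_aux {x : ℝ} (hx : 0 < x) : (Real.sqrt x)⁻¹ * x * (Real.sqrt x)⁻¹ = 1 := by
  have hs := Real.sqrt_pos.mpr hx
  field_simp
  exact (Real.sq_sqrt hx.le).symm

theorem simdiag {w h : Matrix (Fin n) (Fin n) ℂ} (hw : w.PosDef) (hh : (h - w).PosSemidef) :
    ∃ (V : Matrix (Fin n) (Fin n) ℂ) (l : Fin n → ℝ), V.conjTranspose * w * V = 1 ∧
      V.conjTranspose * h * V = Matrix.diagonal (fun i => (l i : ℂ)) ∧ ∀ i, 1 ≤ l i := by
  classical
  -- diagonalise `w`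
  obtain ⟨V₁, hV₁⟩ : ∃ V₁ : Matrix (Fin n) (Fin n) ℂ, V₁.conjTranspose * w * V₁ = 1 := by
    obtain ⟨U, hU, hU2⟩ := diagH hw.1
    refine ⟨U * Matrix.diagonal (fun i => (((Real.sqrt (hw.1.eigenvalues i))⁻¹ : ℝ) : ℂ)), ?_⟩
    rw [Matrix.conjTranspose_mul, Matrix.diagonal_conjTranspose]
    have e1 : ∀ D : Matrix (Fin n) (Fin n) ℂ, D * U.conjTranspose * w * (U * D) =
        D * (U.conjTranspose * w * U) * D := by
      intro D; simp only [Matrix.mul_assoc]
    have e2 : (Matrix.diagonal (star fun i => (((Real.sqrt (hw.1.eigenvalues i))⁻¹ : ℝ) : ℂ)) :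
        Matrix (Fin n) (Fin n) ℂ) =
        Matrix.diagonal (fun i => (((Real.sqrt (hw.1.eigenvalues i))⁻¹ : ℝ) : ℂ)) := by
      congr 1
      funext i
      exact Complex.conj_ofReal _
    rw [e2, e1, hU2, Matrix.diagonal_mul_diagonal, Matrix.diagonal_mul_diagonal,
      ← Matrix.diagonal_one]
    congr 1
    funext i
    have hp := hw.eigenvalues_pos i
    exact_mod_cast sqrt_aux hp
  have hH : h.IsHermitian := by
    have := hh.1.add hw.1
    rwa [sub_add_cancel] at this
  have hH1 : (V₁.conjTranspose * h * V₁).IsHermitian :=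
    Matrix.isHermitian_conjTranspose_mul_mul V₁ hH
  obtain ⟨U, hU, hU2⟩ := diagH hH1
  have hw1 : (V₁ * U).conjTranspose * w * (V₁ * U) = 1 := by
    rw [Matrix.conjTranspose_mul]
    have : U.conjTranspose * V₁.conjTranspose * w * (V₁ * U) =
        U.conjTranspose * (V₁.conjTranspose * w * V₁) * U := by simp only [Matrix.mul_assoc]
    rw [this, hV₁, Matrix.mul_one, hU]
  have hh1 : (V₁ * U).conjTranspose * h * (V₁ * U) =
      Matrix.diagonal (fun i => (hH1.eigenvalues i : ℂ)) := by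
    rw [Matrix.conjTranspose_mul, ← hU2]
    simp only [Matrix.mul_assoc]
  refine ⟨V₁ * U, hH1.eigenvalues, hw1, hh1, fun i => ?_⟩
  have h1 := hh.conjTranspose_mul_mul_same (V₁ * U)
  rw [Matrix.mul_sub, Matrix.sub_mul, hw1, hh1] at h1
  have h2 := h1.diag_nonneg (i := i)
  rw [Matrix.sub_apply, Matrix.diagonal_apply_eq, Matrix.one_apply_eq] at h2
  have h3 : (0 : ℂ) ≤ ((hH1.eigenvalues i - 1 : ℝ) : ℂ) := by push_cast; exact h2
  have h4 : 0 ≤ hH1.eigenvalues i - 1 := by exact_mod_cast h3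
  linarith

theorem inv_of_diag {g V : Matrix (Fin n) (Fin n) ℂ} {d : Fin n → ℝ} (hd : ∀ i, d i ≠ 0)
    (h : V.conjTranspose * g * V = Matrix.diagonal (fun i => (d i : ℂ))) :
    g⁻¹ = V * Matrix.diagonal (fun i => (((d i)⁻¹ : ℝ) : ℂ)) * V.conjTranspose := by
  have h1 : V.conjTranspose * (g * (V * Matrix.diagonal (fun i => (((d i)⁻¹ : ℝ) : ℂ)))) = 1 := by
    rw [← Matrix.mul_assoc, ← Matrix.mul_assoc, h, Matrix.diagonal_mul_diagonal,
      ← Matrix.diagonal_one]
    congr 1
    funext i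
    have := mul_inv_cancel₀ (hd i)
    exact_mod_cast this
  have h2 := _root_.mul_eq_one_comm.mp h1
  refine Matrix.inv_eq_right_inv ?_
  rw [← Matrix.mul_assoc]
  exact h2

theorem inv_entries {g V : Matrix (Fin n) (Fin n) ℂ} {d : Fin n → ℝ} (hd : ∀ i, d i ≠ 0)
    (h : V.conjTranspose * g * V = Matrix.diagonal (fun i => (d i : ℂ))) (s t : Fin n) :
    g⁻¹ t s = ∑ k, conj (V.map (starRingEnd ℂ) t k) * (((d k)⁻¹ : ℝ) : ℂ) *
      V.map (starRingEnd ℂ) s k := by
  rw [inv_of_diag hd h, Matrix.mul_apply]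
  refine Finset.sum_congr rfl fun k _ => ?_
  rw [Matrix.mul_diagonal, Matrix.conjTranspose_apply, Matrix.map_apply, Matrix.map_apply,
    Complex.conj_conj]
  rfl

/-- `|A|²_w dV_w` is increasing in `w` -/
theorem vmono {w h : Matrix (Fin n) (Fin n) ℂ} (hw : w.PosDef) (hh : (h - w).PosSemidef)
    (A : Af n p) : w.det * hn w A A ≤ h.det * hn h A A := by
  obtain ⟨V, l, h1, h2, hl⟩ := simdiag hw hh
  have hl0 : ∀ i, l i ≠ 0 := fun i => (lt_of_lt_of_le one_pos (hl i)).ne'
  have h1' : V.conjTranspose * w * V = Matrix.diagonal (fun i => (((fun _ => 1 : Fin n → ℝ) i : ℝ)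
      : ℂ)) := by
    rw [h1, ← Matrix.diagonal_one]; congr 1
  set C := V.map (starRingEnd ℂ) with hC
  have hwi := hn_diag (C := C) (m := fun i => ((fun _ => 1 : Fin n → ℝ) i)⁻¹)
    (inv_entries (fun i => one_ne_zero) h1') A
  have hhi := hn_diag (C := C) (m := fun i => (l i)⁻¹) (inv_entries hl0 h2) A
  -- determinants
  have d1 : (‖V.det‖ ^ 2 : ℂ) * w.det = 1 := by
    have := congrArg Matrix.det h1
    rw [Matrix.det_mul, Matrix.det_mul, Matrix.det_conjTranspose, Matrix.det_one] at this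
    rw [← this, ← Complex.conj_mul']
    simp only [Complex.star_def]
    ring
  have d2 : (‖V.det‖ ^ 2 : ℂ) * h.det = ((∏ i, l i : ℝ) : ℂ) := by
    have := congrArg Matrix.det h2
    rw [Matrix.det_mul, Matrix.det_mul, Matrix.det_conjTranspose, Matrix.det_diagonal] at this
    push_cast
    rw [← this, ← Complex.conj_mul']
    simp only [Complex.star_def]
    ring
  have hV : 0 < ‖V.det‖ ^ 2 := by
    refine pow_pos (norm_pos_iff.mpr fun h0 => ?_) 2
    rw [h0] at d1
    simp at d1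
  have hVc : ((‖V.det‖ ^ 2 : ℝ) : ℂ) ≠ 0 := by exact_mod_cast hV.ne'
  have d1' : w.det = (((‖V.det‖ ^ 2)⁻¹ : ℝ) : ℂ) := by
    rw [Complex.ofReal_inv]
    refine eq_inv_of_mul_eq_one_right ?_
    rw [← d1]; push_cast; ring
  have d2' : h.det = (((‖V.det‖ ^ 2)⁻¹ * ∏ i, l i : ℝ) : ℂ) := by
    rw [Complex.ofReal_mul, Complex.ofReal_inv, ← d2, ← Complex.ofReal_pow,
      inv_mul_cancel_left₀ hVc]
  rw [hwi, hhi, d1', d2', ← Complex.ofReal_mul, ← Complex.ofReal_mul, Complex.real_le_real,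
    mul_assoc]
  refine mul_le_mul_of_nonneg_left ?_ (inv_nonneg.mpr hV.le)
  rw [mul_left_comm]
  refine mul_le_mul_of_nonneg_left ?_ (by positivity)
  rw [Finset.mul_sum]
  refine Finset.sum_le_sum fun κ _ => ?_
  by_cases hκ : Function.Injective κ
  · rw [← mul_assoc]
    refine mul_le_mul_of_nonneg_right ?_ (by positivity)
    have e1 : ∏ i, l i = (∏ i, l (κ i)) * ∏ j ∈ Finset.univ \ Finset.univ.image κ, l j := by
      rw [← Finset.prod_image (s := Finset.univ) (g := κ) (f := l) hκ.injOn, mul_comm,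
        Finset.prod_sdiff (Finset.subset_univ _)]
    rw [e1]
    simp only [inv_one, Finset.prod_const_one]
    have e2 : (∏ i, l (κ i)) * ∏ i, (l (κ i))⁻¹ = 1 := by
      rw [← Finset.prod_mul_distrib]
      exact Finset.prod_eq_one fun i _ => mul_inv_cancel₀ (hl0 _)
    have e3 : 1 ≤ ∏ j ∈ Finset.univ \ Finset.univ.image κ, l j :=
      Finset.one_le_prod fun j _ => hl j
    calc (1 : ℝ) ≤ ∏ j ∈ Finset.univ \ Finset.univ.image κ, l j := e3
      _ = _ := by
        rw [mul_right_comm, e2, one_mul]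
  · rw [cf_zero C A κ hκ]
    simp

theorem det_mul_cols {R : ℕ} (X : Matrix (Fin R) (Fin n) ℂ) (y : Matrix (Fin n) (Fin R) ℂ) :
    (X * y).det = ∑ s : Fin R → Fin n, (∏ j, y (s j) j) *
      (Matrix.of fun i j => X i (s j)).det := by
  rw [Matrix.det_apply']
  simp only [Matrix.mul_apply]
  have h1 : ∀ σ : Equiv.Perm (Fin R), ((Equiv.Perm.sign σ : ℤ) : ℂ) *
      ∏ j, ∑ a, X (σ j) a * y a j = ∑ s : Fin R → Fin n, ((Equiv.Perm.sign σ : ℤ) : ℂ) *
        ((∏ j, X (σ j) (s j)) * ∏ j, y (s j) j) := by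
    intro σ
    rw [Finset.prod_univ_sum, Fintype.piFinset_univ, Finset.mul_sum]
    refine Finset.sum_congr rfl fun s _ => ?_
    rw [Finset.prod_mul_distrib]
  rw [Finset.sum_congr rfl fun σ _ => h1 σ, Finset.sum_comm]
  refine Finset.sum_congr rfl fun s _ => ?_
  rw [Matrix.det_apply', Finset.mul_sum]
  refine Finset.sum_congr rfl fun σ _ => ?_
  simp only [Matrix.of_apply]
  ring

theorem hn_dec {R : ℕ} (g : Matrix (Fin n) (Fin n) ℂ) (b : Matrix (Fin R) (Fin n) ℂ)
    (D : Af n R) (hD : ∀ s, ev D s = (Matrix.of fun i j => b i (s j)).det) :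
    hn g D D = (b.map (starRingEnd ℂ) * g⁻¹ * b.transpose).det := by
  set G : Matrix (Fin R) (Fin n) ℂ := b.map (starRingEnd ℂ) * g⁻¹ with hG
  -- sum over `t`
  have ht : ∀ s : Fin R → Fin n, ∑ t : Fin R → Fin n, ev D s * conj (ev D t) *
      ∏ i, g⁻¹ (t i) (s i) = ev D s * (Matrix.of fun i j => G i (s j)).det := by
    intro s
    have h1 : (Matrix.of fun i j => G i (s j)) =
        b.map (starRingEnd ℂ) * Matrix.of fun a j => g⁻¹ a (s j) := by
      ext i j
      rw [Matrix.of_apply, hG, Matrix.mul_apply, Matrix.mul_apply]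
      rfl
    rw [h1, det_mul_cols, Finset.mul_sum]
    refine Finset.sum_congr rfl fun t _ => ?_
    have h2 : conj (ev D t) = (Matrix.of fun i j => b.map (starRingEnd ℂ) i (t j)).det := by
      rw [hD, RingHom.map_det]
      rfl
    rw [h2]
    simp only [Matrix.of_apply]
    ring
  -- sum over `s`
  have hs : ∑ s : Fin R → Fin n, ev D s * (Matrix.of fun i j => G i (s j)).det =
      (R.factorial : ℂ) * (G * b.transpose).det := by
    have h1 : ∀ s : Fin R → Fin n, ev D s * (Matrix.of fun i j => G i (s j)).det =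
        ∑ σ : Equiv.Perm (Fin R), ((Equiv.Perm.sign σ : ℤ) : ℂ) * ((∏ j, b (σ j) (s j)) *
          (Matrix.of fun i j => G i (s j)).det) := by
      intro s
      rw [hD, Matrix.det_apply', Finset.sum_mul]
      refine Finset.sum_congr rfl fun σ _ => ?_
      simp only [Matrix.of_apply]
      ring
    rw [Finset.sum_congr rfl fun s _ => h1 s, Finset.sum_comm]
    have h2 : ∀ σ : Equiv.Perm (Fin R), ∑ s : Fin R → Fin n, ((Equiv.Perm.sign σ : ℤ) : ℂ) *
        ((∏ j, b (σ j) (s j)) * (Matrix.of fun i j => G i (s j)).det) = (G * b.transpose).det := by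
      intro σ
      rw [← Finset.mul_sum]
      have h3 := det_mul_cols G (Matrix.of fun a j => b (σ j) a)
      simp only [Matrix.of_apply] at h3
      rw [← h3]
      have h4 : G * (Matrix.of fun a j => b (σ j) a) = (G * b.transpose).submatrix id σ := by
        ext i j
        rw [Matrix.submatrix_apply, Matrix.mul_apply, Matrix.mul_apply]
        rfl
      rw [h4, Matrix.det_permute', ← mul_assoc]
      have h5 : ((Equiv.Perm.sign σ : ℤ) : ℂ) * ((Equiv.Perm.sign σ : ℤ) : ℂ) = 1 := by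
        rw [← Int.cast_mul]
        norm_cast
        simp
      rw [h5, one_mul]
    rw [Finset.sum_congr rfl fun σ _ => h2 σ, Finset.sum_const, Finset.card_univ,
      Fintype.card_perm, Fintype.card_fin, nsmul_eq_mul]
  unfold hn
  rw [Finset.sum_congr rfl fun s _ => ht s, hs, ← mul_assoc, inv_mul_cancel₀, one_mul]
  exact_mod_cast R.factorial_ne_zero

theorem det_le_one_add {R : ℕ} {M : Matrix (Fin R) (Fin R) ℂ} (hM : M.PosSemidef) :
    M.det ≤ (1 + M).det := by
  obtain ⟨U, hU, hU2⟩ := diagH hM.1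
  have hdU : (U.conjTranspose).det * U.det = 1 := by
    rw [← Matrix.det_mul, hU, Matrix.det_one]
  have h1 : M.det = ((∏ i, hM.1.eigenvalues i : ℝ) : ℂ) := by
    have := congrArg Matrix.det hU2
    rw [Matrix.det_mul, Matrix.det_mul, Matrix.det_diagonal] at this
    push_cast
    rw [← this, mul_right_comm, hdU, one_mul]
  have h2 : (1 + M).det = ((∏ i, (1 + hM.1.eigenvalues i) : ℝ) : ℂ) := by
    have h3 : U.conjTranspose * (1 + M) * U =
        Matrix.diagonal (fun i => ((1 + hM.1.eigenvalues i : ℝ) : ℂ)) := by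
      rw [Matrix.mul_add, Matrix.add_mul, hU2, Matrix.mul_one, hU, ← Matrix.diagonal_one,
        Matrix.diagonal_add]
      congr 1
      funext i
      push_cast
      rfl
    have := congrArg Matrix.det h3
    rw [Matrix.det_mul, Matrix.det_mul, Matrix.det_diagonal] at this
    rw [Complex.ofReal_prod, ← this, mul_right_comm, hdU, one_mul]
  rw [h1, h2, Complex.real_le_real]
  exact Finset.prod_le_prod (fun i _ => hM.eigenvalues_nonneg i) fun i _ => by linarith

theorem dec {R : ℕ} {h : Matrix (Fin n) (Fin n) ℂ} (hh : h.PosDef) (B : Cm n →L[ℂ] Cm R)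
    (D : Af n R) (hD : ∀ ξ : Fin R → Cm n, D ξ = (Matrix.of fun i j => B (ξ j) i).det) :
    h.det * hn h D D ≤
      (h + Matrix.of fun j k => ∑ i, B (Pi.single j 1) i * conj (B (Pi.single k 1) i)).det := by
  set b : Matrix (Fin R) (Fin n) ℂ := Matrix.of fun i a => B (Pi.single a 1) i with hb
  set M : Matrix (Fin R) (Fin R) ℂ := b.map (starRingEnd ℂ) * h⁻¹ * b.transpose with hM
  have h1 : hn h D D = M.det := hn_dec h b D fun s => hD _
  have hMp : M.PosSemidef := by
    have h2 := hh.inv.posSemidef.conjTranspose_mul_mul_same b.transpose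
    have h3 : b.transpose.conjTranspose = b.map (starRingEnd ℂ) := rfl
    rw [h3] at h2
    exact h2
  have hunit : IsUnit h.det := hh.det_pos.ne'.isUnit
  have h4 : (h + Matrix.of fun j k => ∑ i, B (Pi.single j 1) i * conj (B (Pi.single k 1) i)) =
      h * (1 + (h⁻¹ * b.transpose) * b.map (starRingEnd ℂ)) := by
    rw [Matrix.mul_add, Matrix.mul_one, ← Matrix.mul_assoc, ← Matrix.mul_assoc,
      Matrix.mul_nonsing_inv h hunit, Matrix.one_mul]
    congr 1
  rw [h4, Matrix.det_mul, Matrix.det_one_add_mul_comm, ← Matrix.mul_assoc, h1]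
  exact mul_le_mul_of_nonneg_left (det_le_one_add hMp) hh.det_pos.le

end Vale.Agent.P284.H451.K1
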