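import Mathlib.Analysis.InnerProductSpace.Basic
import Mathlib.Analysis.Calculus.ContDiff.RCLike
import Vale.Agent.P272.KOD.PeakC

/-!
# P284 (helper451), Kodaira lemma, part A: the peak function of an immersive Hilbert weight,
monomials and their coefficients.
-/

open scoped Manifold ContDiff ComplexOrder Topology InnerProductSpace
open Filter Set Metric

noncomputable section

namespace Vale.Agent.P284.H451

open Vale.Agent.P272.K Vale.Agent.P272.KOD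

variable {n : ℕ} {H : Type*} [NormedAddCommGroup H] [InnerProductSpace ℂ H]

/-- A peak function `g` for the weight `‖v‖²` at `c`: on `ball c R` one has
`|g|² (1 + κ |z-c|²) ≤ ‖v‖² ≤ |g|² (1 + κ' |z-c|²)`. -/
structure Pk (v : Cm n → H) (c : Cm n) (g : Cm n → ℂ) (κ κ' R : ℝ) : Prop where
  R_pos : 0 < R
  κ_pos : 0 < κ
  κ'_pos : 0 < κ'
  an : ∀ z ∈ ball c R, AnalyticAt ℂ g z
  ne : ∀ z ∈ ball c R, g z ≠ 0
  lower : ∀ z ∈ ball c R, ‖g z‖ ^ 2 * (1 + κ * ‖z - c‖ ^ 2) ≤ ‖v z‖ ^ 2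
  upper : ∀ z ∈ ball c R, ‖v z‖ ^ 2 ≤ ‖g z‖ ^ 2 * (1 + κ' * ‖z - c‖ ^ 2)

/-- the orthogonal decomposition with respect to a unit vector -/
lemma norm_sq_decomp {u : H} (hu : ‖u‖ = 1) (x : H) :
    ‖x‖ ^ 2 = ‖(⟪u, x⟫_ℂ : ℂ)‖ ^ 2 + ‖x - (⟪u, x⟫_ℂ : ℂ) • u‖ ^ 2 := by
  have h1 : x = (⟪u, x⟫_ℂ : ℂ) • u + (x - (⟪u, x⟫_ℂ : ℂ) • u) := by abel
  have h2 : (⟪(⟪u, x⟫_ℂ : ℂ) • u, x - (⟪u, x⟫_ℂ : ℂ) • u⟫_ℂ : ℂ) = 0 := by
    rw [inner_smul_left, inner_sub_right, inner_smul_right, inner_self_eq_norm_sq_to_K, hu]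
    simp
  have h3 := norm_add_sq_eq_norm_sq_add_norm_sq_of_inner_eq_zero _ _ h2
  rw [← h1, norm_smul, hu, mul_one] at h3
  nlinarith [h3]

theorem exists_pk [CompleteSpace H] {v : Cm n → H} {c : Cm n} (hv : AnalyticAt ℂ v c)
    (h0 : v c ≠ 0) (him : ∀ (ξ : Cm n) (k : ℂ), fderiv ℂ v c ξ = k • v c → ξ = 0) :
    ∃ (g : Cm n → ℂ) (κ κ' R : ℝ), Pk v c g κ κ' R := by
  have ha : 0 < ‖v c‖ := norm_pos_iff.2 h0
  set a : ℝ := ‖v c‖ with hadef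
  set u : H := ((a⁻¹ : ℝ) : ℂ) • v c with hu
  have hu1 : ‖u‖ = 1 := by
    rw [hu, norm_smul, Complex.norm_real, norm_inv, Real.norm_of_nonneg ha.le, ← hadef,
      inv_mul_cancel₀ ha.ne']
  set g : Cm n → ℂ := fun z => ⟪u, v z⟫_ℂ with hg
  have hgan : AnalyticAt ℂ g c := ((innerSL ℂ u).analyticAt _).comp hv
  have hgc : g c = (a : ℂ) := by
    simp only [hg, hu, inner_smul_left, inner_self_eq_norm_sq_to_K, ← hadef]
    rw [Complex.conj_ofReal, Complex.ofReal_inv]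
    have : (a : ℂ) ≠ 0 := by exact_mod_cast ha.ne'
    simp
    field_simp
  have hvcu : v c = (a : ℂ) • u := by
    rw [hu, smul_smul, ← Complex.ofReal_mul, mul_inv_cancel₀ ha.ne', Complex.ofReal_one, one_smul]
  set w : Cm n → H := fun z => v z - g z • u with hw
  have hwc : w c = 0 := by
    simp only [hw]
    rw [hgc, ← hvcu, sub_self]
  have hvd : HasFDerivAt v (fderiv ℂ v c) c := hv.differentiableAt.hasFDerivAt
  have hgd : HasFDerivAt g ((innerSL ℂ u).comp (fderiv ℂ v c)) c :=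
    (innerSL ℂ u).hasFDerivAt.comp c hvd
  set L : Cm n →L[ℂ] H := fderiv ℂ v c - ((innerSL ℂ u).comp (fderiv ℂ v c)).smulRight u with hL
  have hwd : HasFDerivAt w L c := hvd.sub (hgd.smul_const u)
  have hLinj : LinearMap.ker (L : Cm n →ₗ[ℂ] H) = ⊥ := by
    rw [LinearMap.ker_eq_bot']
    intro ξ hξ
    have h1 : fderiv ℂ v c ξ - (⟪u, fderiv ℂ v c ξ⟫_ℂ : ℂ) • u = 0 := by
      have : L ξ = 0 := hξ
      simpa [hL] using this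
    rw [sub_eq_zero] at h1
    apply him ξ ((⟪u, fderiv ℂ v c ξ⟫_ℂ : ℂ) * ((a⁻¹ : ℝ) : ℂ))
    rw [mul_smul]
    rw [← hu]
    exact h1
  obtain ⟨K, hK, hanti⟩ := (L : Cm n →ₗ[ℂ] H).exists_antilipschitzWith hLinj
  have hKr : (0 : ℝ) < K := hK
  set κ₀ : ℝ := (K : ℝ)⁻¹ with hκ₀
  have hκ₀p : 0 < κ₀ := by positivity
  have hlowL : ∀ ξ, κ₀ * ‖ξ‖ ≤ ‖L ξ‖ := by
    intro ξ
    have h1 := hanti.le_mul_dist ξ 0
    rw [dist_zero_right, map_zero, dist_zero_right] at h1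
    rw [hκ₀, inv_mul_le_iff₀ hKr]
    exact h1
  have e1 : ∀ᶠ z in 𝓝 c, ‖w z - w c - L (z - c)‖ ≤ κ₀ / 2 * ‖z - c‖ :=
    hwd.isLittleO.def (by positivity)
  have e2 : ∀ᶠ z in 𝓝 c, AnalyticAt ℂ g z := hgan.eventually_analyticAt
  have hgn : ContinuousAt (fun z => ‖g z‖) c := hgan.continuousAt.norm
  have hgcn : ‖g c‖ = a := by rw [hgc, Complex.norm_real, Real.norm_of_nonneg ha.le]
  have e3 : ∀ᶠ z in 𝓝 c, a / 2 < ‖g z‖ := by
    apply hgn.eventually_const_lt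
    show a / 2 < ‖g c‖
    rw [hgcn]; linarith
  have e4 : ∀ᶠ z in 𝓝 c, ‖g z‖ < 2 * a := by
    apply hgn.eventually_lt_const
    show ‖g c‖ < 2 * a
    rw [hgcn]; linarith
  obtain ⟨R, hR, hball⟩ := Metric.eventually_nhds_iff_ball.1 (e1.and (e2.and (e3.and e4)))
  have hdec : ∀ z, ‖v z‖ ^ 2 = ‖g z‖ ^ 2 + ‖w z‖ ^ 2 := fun z => norm_sq_decomp hu1 (v z)
  refine ⟨g, (κ₀ / 2) ^ 2 / (2 * a) ^ 2, (‖L‖ + κ₀ / 2) ^ 2 / (a / 2) ^ 2, R, hR, by positivity,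
    by positivity, fun z hz => (hball z hz).2.1, fun z hz => ?_, fun z hz => ?_, fun z hz => ?_⟩
  · have := (hball z hz).2.2.1
    intro h
    rw [h, norm_zero] at this
    linarith
  · obtain ⟨h1, -, h3, h4⟩ := hball z hz
    rw [hwc, sub_zero] at h1
    have h5 : κ₀ / 2 * ‖z - c‖ ≤ ‖w z‖ := by
      have h6 := hlowL (z - c)
      have h7 : ‖L (z - c)‖ ≤ ‖w z‖ + ‖w z - L (z - c)‖ := by
        have : L (z - c) = w z - (w z - L (z - c)) := by abel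
        calc ‖L (z - c)‖ = ‖w z - (w z - L (z - c))‖ := by rw [← this]
          _ ≤ _ := norm_sub_le _ _
      linarith
    rw [hdec]
    have h8 : (κ₀ / 2) ^ 2 * ‖z - c‖ ^ 2 ≤ ‖w z‖ ^ 2 := by
      rw [← mul_pow]
      exact pow_le_pow_left₀ (by positivity) h5 2
    have h9 : ‖g z‖ ^ 2 ≤ (2 * a) ^ 2 := pow_le_pow_left₀ (norm_nonneg _) h4.le 2
    have h10 : ‖g z‖ ^ 2 * ((κ₀ / 2) ^ 2 / (2 * a) ^ 2 * ‖z - c‖ ^ 2) ≤
        (κ₀ / 2) ^ 2 * ‖z - c‖ ^ 2 := by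
      have : ‖g z‖ ^ 2 * ((κ₀ / 2) ^ 2 / (2 * a) ^ 2 * ‖z - c‖ ^ 2) =
          (‖g z‖ ^ 2 / (2 * a) ^ 2) * ((κ₀ / 2) ^ 2 * ‖z - c‖ ^ 2) := by ring
      rw [this]
      apply mul_le_of_le_one_left (by positivity)
      rw [div_le_one (by positivity)]
      exact h9
    linarith
  · obtain ⟨h1, -, h3, h4⟩ := hball z hz
    rw [hwc, sub_zero] at h1
    have h5 : ‖w z‖ ≤ (‖L‖ + κ₀ / 2) * ‖z - c‖ := by
      have h6 := L.le_opNorm (z - c)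
      have h7 : ‖w z‖ ≤ ‖L (z - c)‖ + ‖w z - L (z - c)‖ := by
        calc ‖w z‖ = ‖L (z - c) + (w z - L (z - c))‖ := by congr 1; abel
          _ ≤ _ := norm_add_le _ _
      nlinarith
    rw [hdec]
    have h8 : ‖w z‖ ^ 2 ≤ (‖L‖ + κ₀ / 2) ^ 2 * ‖z - c‖ ^ 2 := by
      rw [← mul_pow]
      exact pow_le_pow_left₀ (norm_nonneg _) h5 2
    have h9 : (a / 2) ^ 2 ≤ ‖g z‖ ^ 2 := pow_le_pow_left₀ (by positivity) h3.le 2
    have h10 : (‖L‖ + κ₀ / 2) ^ 2 * ‖z - c‖ ^ 2 ≤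
        ‖g z‖ ^ 2 * ((‖L‖ + κ₀ / 2) ^ 2 / (a / 2) ^ 2 * ‖z - c‖ ^ 2) := by
      have : ‖g z‖ ^ 2 * ((‖L‖ + κ₀ / 2) ^ 2 / (a / 2) ^ 2 * ‖z - c‖ ^ 2) =
          (‖g z‖ ^ 2 / (a / 2) ^ 2) * ((‖L‖ + κ₀ / 2) ^ 2 * ‖z - c‖ ^ 2) := by ring
      rw [this]
      apply le_mul_of_one_le_left (by positivity)
      rw [le_div_iff₀ (by positivity), one_mul]
      exact h9
    linarith

end Vale.Agent.P284.H451
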