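import Mathlib.RingTheory.RootsOfUnity.Complex
import Vale.Agent.P284.H451.KLA

/-!
# P284 (helper451), Kodaira lemma, part B: monomials in a box and their coefficients.
-/

open scoped Manifold ContDiff ComplexOrder Topology InnerProductSpace
open Filter Set Metric

noncomputable section

namespace Vale.Agent.P284.H451

open Vale.Agent.P272.K Vale.Agent.P272.KOD

variable {n k : ℕ}

/-- the monomial `∏ ((z_i - c_i) / ρ)^{α_i}` -/
def mon (c : Cm n) (ρ : ℝ) (α : Fin n → Fin k) (z : Cm n) : ℂ :=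
  ∏ i, ((z i - c i) / (ρ : ℂ)) ^ (α i : ℕ)

lemma mon_differentiable (c : Cm n) (ρ : ℝ) (α : Fin n → Fin k) :
    Differentiable ℂ (mon c ρ α) := by
  unfold mon
  fun_prop

lemma norm_mon_le {c : Cm n} {ρ r : ℝ} (hρ : 0 < ρ) (hρr : ρ ≤ r) (α : Fin n → Fin k) {z : Cm n}
    (hz : z ∈ closedBall c r) : ‖mon c ρ α z‖ ≤ ((r / ρ) ^ n) ^ k := by
  unfold mon
  rw [norm_prod]
  have h1 : 1 ≤ r / ρ := (one_le_div hρ).2 hρr
  have h2 : ∀ i, ‖((z i - c i) / (ρ : ℂ)) ^ (α i : ℕ)‖ ≤ (r / ρ) ^ k := by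
    intro i
    rw [norm_pow, norm_div, Complex.norm_real, Real.norm_of_nonneg hρ.le]
    have h3 : ‖z i - c i‖ ≤ r := by
      have := dist_le_pi_dist z c i
      rw [mem_closedBall] at hz
      rw [← dist_eq_norm]
      exact this.trans hz
    calc (‖z i - c i‖ / ρ) ^ (α i : ℕ) ≤ (r / ρ) ^ (α i : ℕ) := by gcongr
      _ ≤ (r / ρ) ^ k := pow_le_pow_right₀ h1 (α i).2.le
  calc ∏ i, ‖((z i - c i) / (ρ : ℂ)) ^ (α i : ℕ)‖ ≤ ∏ _i : Fin n, (r / ρ) ^ k :=
        Finset.prod_le_prod (fun i _ => norm_nonneg _) fun i _ => h2 i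
    _ = ((r / ρ) ^ n) ^ k := by
        rw [Finset.prod_const, Finset.card_univ, Fintype.card_fin, ← pow_mul, ← pow_mul,
          Nat.mul_comm]

/-- the coefficients of a polynomial are bounded by its supremum on the polydisc -/
theorem coeff_le (hk : 0 < k) {c : Cm n} {ρ : ℝ} (hρ : 0 < ρ) (cf : (Fin n → Fin k) → ℂ) {B : ℝ}
    (hB : ∀ z ∈ closedBall c ρ, ‖∑ α, cf α * mon c ρ α z‖ ≤ B) (α : Fin n → Fin k) :
    ‖cf α‖ ≤ B := by
  have hk' : k ≠ 0 := hk.ne'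
  set ζ : ℂ := Complex.exp (2 * Real.pi * Complex.I / k) with hζ
  have hprim : IsPrimitiveRoot ζ k := Complex.isPrimitiveRoot_exp k hk'
  have hζ1 : ‖ζ‖ = 1 := hprim.norm'_eq_one hk'
  have hζ0 : ζ ≠ 0 := hprim.ne_zero hk'
  set pt : (Fin n → Fin k) → Cm n := fun j i => c i + (ρ : ℂ) * ζ ^ (j i : ℕ) with hpt
  have hmem : ∀ j, pt j ∈ closedBall c ρ := by
    intro j
    rw [mem_closedBall, dist_pi_le_iff hρ.le]
    intro i
    rw [dist_eq_norm, hpt]
    simp [hζ1, abs_of_pos hρ]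
  have hmon : ∀ (β j : Fin n → Fin k), mon c ρ β (pt j) = ∏ i, (ζ ^ (j i : ℕ)) ^ (β i : ℕ) := by
    intro β j
    unfold mon
    refine Finset.prod_congr rfl fun i _ => ?_
    have hρc : (ρ : ℂ) ≠ 0 := by exact_mod_cast hρ.ne'
    simp only [hpt, add_sub_cancel_left]
    rw [mul_div_cancel_left₀ _ hρc]
  have horth : ∀ β : Fin n → Fin k,
      ∑ j : Fin n → Fin k, ∏ i, ((ζ ^ (α i : ℕ))⁻¹ * ζ ^ (β i : ℕ)) ^ (j i : ℕ) =
        if β = α then (k : ℂ) ^ n else 0 := by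
    intro β
    rw [← Fintype.prod_sum (f := fun i (t : Fin k) => ((ζ ^ (α i : ℕ))⁻¹ * ζ ^ (β i : ℕ)) ^ (t : ℕ))]
    have h1 : ∀ i, ∑ t : Fin k, ((ζ ^ (α i : ℕ))⁻¹ * ζ ^ (β i : ℕ)) ^ (t : ℕ) =
        if β i = α i then (k : ℂ) else 0 := by
      intro i
      rw [Fin.sum_univ_eq_sum_range (fun t => ((ζ ^ (α i : ℕ))⁻¹ * ζ ^ (β i : ℕ)) ^ t) k]
      split_ifs with h
      · rw [h, inv_mul_cancel₀ (pow_ne_zero _ hζ0)]
        simp
      · have hne : (ζ ^ (α i : ℕ))⁻¹ * ζ ^ (β i : ℕ) ≠ 1 := by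
          intro h1
          apply h
          rw [inv_mul_eq_one₀ (pow_ne_zero _ hζ0)] at h1
          exact Fin.ext (hprim.pow_inj (β i).2 (α i).2 h1.symm)
        rw [geom_sum_eq hne]
        have : ((ζ ^ (α i : ℕ))⁻¹ * ζ ^ (β i : ℕ)) ^ k = 1 := by
          rw [mul_pow, inv_pow, ← pow_mul, ← pow_mul, mul_comm (α i : ℕ), mul_comm (β i : ℕ),
            pow_mul, pow_mul, hprim.pow_eq_one]
          simp
        rw [this, sub_self, zero_div]
    simp only [h1]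
    split_ifs with h
    · subst h
      simp
    · obtain ⟨i, hi⟩ := Function.ne_iff.1 h
      exact Finset.prod_eq_zero (Finset.mem_univ i) (by rw [if_neg hi])
  have hS : ∑ j : Fin n → Fin k, (∏ i, ((ζ ^ (α i : ℕ))⁻¹) ^ (j i : ℕ)) *
      (∑ β, cf β * mon c ρ β (pt j)) = cf α * (k : ℂ) ^ n := by
    have e1 : ∀ j : Fin n → Fin k, (∏ i, ((ζ ^ (α i : ℕ))⁻¹) ^ (j i : ℕ)) *
        (∑ β, cf β * mon c ρ β (pt j)) =
        ∑ β, cf β * ∏ i, ((ζ ^ (α i : ℕ))⁻¹ * ζ ^ (β i : ℕ)) ^ (j i : ℕ) := by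
      intro j
      rw [Finset.mul_sum]
      refine Finset.sum_congr rfl fun β _ => ?_
      rw [hmon, mul_left_comm, ← Finset.prod_mul_distrib]
      congr 1
      refine Finset.prod_congr rfl fun i _ => ?_
      rw [mul_pow, ← pow_mul ζ (j i : ℕ), ← pow_mul ζ (β i : ℕ), mul_comm (j i : ℕ)]
    simp only [e1]
    rw [Finset.sum_comm]
    simp only [← Finset.mul_sum, horth]
    simp
  have hn : ‖cf α‖ * (k : ℝ) ^ n ≤ B * (k : ℝ) ^ n := by
    calc ‖cf α‖ * (k : ℝ) ^ n = ‖cf α * (k : ℂ) ^ n‖ := by simp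
      _ = ‖∑ j : Fin n → Fin k, (∏ i, ((ζ ^ (α i : ℕ))⁻¹) ^ (j i : ℕ)) *
          (∑ β, cf β * mon c ρ β (pt j))‖ := by rw [hS]
      _ ≤ ∑ _j : Fin n → Fin k, B := by
          refine (norm_sum_le _ _).trans (Finset.sum_le_sum fun j _ => ?_)
          rw [norm_mul, norm_prod]
          have : ∏ i, ‖((ζ ^ (α i : ℕ))⁻¹) ^ (j i : ℕ)‖ = 1 := by
            apply Finset.prod_eq_one
            intro i _
            simp [hζ1]
          rw [this, one_mul]
          exact hB _ (hmem j)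
      _ = B * (k : ℝ) ^ n := by
          rw [Finset.sum_const, Finset.card_univ, Fintype.card_fun, Fintype.card_fin,
            Fintype.card_fin, nsmul_eq_mul]
          push_cast
          ring
  have hkn : (0 : ℝ) < (k : ℝ) ^ n := by positivity
  exact le_of_mul_le_mul_right hn hkn

end Vale.Agent.P284.H451
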