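import Vale.Agent.P272.KOD.PX1
import Vale.Agent.P284.H451.KLS

/-!
# P284 (helper451), Kodaira lemma, part C: the singular norm in different charts.
-/

open scoped Manifold ContDiff ComplexOrder Topology ENNReal
open Filter Set Metric MeasureTheory

set_option linter.all false

noncomputable section

namespace Vale.Agent.P284.H451

open Vale.Agent.P272.K Vale.Agent.P272.KOD Vale.Agent.P284.H812 Vale.Agent.P284.H213.KL

/-- the singular weight in two charts -/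
lemma sing_change {A₁ A₀ J w₁ w₀ N₁ N₀ d : ℝ} (a b m : ℕ) (hd : 0 < d) (hJ : 0 ≤ J)
    (hA0 : 0 ≤ A₀) (hw : w₁ = w₀ + Real.log d) (hN : N₁ = N₀ * d ^ m) (hN0 : 0 ≤ N₀)
    (hA : A₁ ≤ J * (A₀ * d ^ (m * a + b))) :
    ENNReal.ofReal (A₁ * Real.exp (-(b : ℝ) * w₁)) * (ENNReal.ofReal N₁)⁻¹ ^ a ≤
      ENNReal.ofReal J * (ENNReal.ofReal (A₀ * Real.exp (-(b : ℝ) * w₀)) *
        (ENNReal.ofReal N₀)⁻¹ ^ a) := by
  have hdm : 0 < d ^ m := pow_pos hd m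
  have e1 : Real.exp (-(b : ℝ) * w₁) = Real.exp (-(b : ℝ) * w₀) * (d ^ b)⁻¹ := by
    rw [hw, mul_add, Real.exp_add]
    congr 1
    rw [neg_mul, Real.exp_neg, ← Real.log_pow, Real.exp_log (pow_pos hd b)]
  have e2 : A₁ * Real.exp (-(b : ℝ) * w₁) ≤
      J * (A₀ * Real.exp (-(b : ℝ) * w₀)) * (d ^ m) ^ a := by
    rw [e1]
    calc A₁ * (Real.exp (-(b : ℝ) * w₀) * (d ^ b)⁻¹) ≤
        (J * (A₀ * d ^ (m * a + b))) * (Real.exp (-(b : ℝ) * w₀) * (d ^ b)⁻¹) := by gcongr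
      _ = _ := by
        rw [pow_add, pow_mul]
        have : d ^ b ≠ 0 := (pow_pos hd b).ne'
        field_simp
  have e3 : (ENNReal.ofReal N₁)⁻¹ ^ a =
      (ENNReal.ofReal N₀)⁻¹ ^ a * (ENNReal.ofReal ((d ^ m) ^ a))⁻¹ := by
    rw [hN, ENNReal.ofReal_mul hN0, ENNReal.mul_inv (Or.inr ENNReal.ofReal_ne_top)
      (Or.inl ENNReal.ofReal_ne_top), mul_pow, ENNReal.ofReal_pow hdm.le, ENNReal.inv_pow]
  have hpos : 0 < (d ^ m) ^ a := pow_pos hdm a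
  calc ENNReal.ofReal (A₁ * Real.exp (-(b : ℝ) * w₁)) * (ENNReal.ofReal N₁)⁻¹ ^ a
      ≤ ENNReal.ofReal (J * (A₀ * Real.exp (-(b : ℝ) * w₀)) * (d ^ m) ^ a) *
        ((ENNReal.ofReal N₀)⁻¹ ^ a * (ENNReal.ofReal ((d ^ m) ^ a))⁻¹) := by
        rw [e3]
        gcongr
    _ = ENNReal.ofReal J * (ENNReal.ofReal (A₀ * Real.exp (-(b : ℝ) * w₀)) *
        (ENNReal.ofReal N₀)⁻¹ ^ a) := by
        rw [ENNReal.ofReal_mul (by positivity), ENNReal.ofReal_mul hJ]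
        have h1 : ENNReal.ofReal ((d ^ m) ^ a) * (ENNReal.ofReal ((d ^ m) ^ a))⁻¹ = 1 :=
          ENNReal.mul_inv_cancel (ENNReal.ofReal_pos.2 hpos).ne' ENNReal.ofReal_ne_top
        calc _ = ENNReal.ofReal J * (ENNReal.ofReal (A₀ * Real.exp (-(b : ℝ) * w₀)) *
            (ENNReal.ofReal N₀)⁻¹ ^ a) *
              (ENNReal.ofReal ((d ^ m) ^ a) * (ENNReal.ofReal ((d ^ m) ^ a))⁻¹) := by ring
          _ = _ := by rw [h1, mul_one]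

section
variable {n m : ℕ} {Z : Type*} [TopologicalSpace Z] [ChartedSpace (Cm n) Z]
  [IsManifold 𝓘(ℂ, Cm n) ω Z] {H : Type*} [NormedAddCommGroup H] [InnerProductSpace ℂ H]
  {N w : Chart n Z → Cm n → ℝ} {a b : ℕ}

lemma hmet_nonneg (hN : HMet n m Z H N) {e : Chart n Z} {x : Z} (h : At e x) : 0 ≤ N e (e x) := by
  obtain ⟨v, -, h2⟩ := hN.loc e x h
  rw [h2.self_of_nhds]; positivity

/-- the singular norm of the value of a section, in two charts -/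
lemma sing_val_change (hw : IsCanonicalMetric w) (hN : HMet n m Z H N)
    {c : Chart n Z → Cm n → ℂ} {e₁ e₀ : Chart n Z} {x : Z} (h₁ : At e₁ x) (h₀ : At e₀ x)
    (hc : c e₁ (e₁ x) = c e₀ (e₀ x) * (jacM e₁ e₀ x).det ^ (m * a + b)) :
    ENNReal.ofReal (‖c e₁ (e₁ x)‖ ^ 2 * Real.exp (-(b : ℝ) * w e₁ (e₁ x))) *
        (ENNReal.ofReal (N e₁ (e₁ x)))⁻¹ ^ a ≤
      ENNReal.ofReal (‖c e₀ (e₀ x)‖ ^ 2 * Real.exp (-(b : ℝ) * w e₀ (e₀ x))) *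
        (ENNReal.ofReal (N e₀ (e₀ x)))⁻¹ ^ a := by
  have hd : 0 < ‖(jacM e₁ e₀ x).det‖ ^ 2 := pow_pos (norm_pos_iff.2 (jacM_det_ne_zero h₁ h₀)) 2
  have := sing_change (A₁ := ‖c e₁ (e₁ x)‖ ^ 2) (A₀ := ‖c e₀ (e₀ x)‖ ^ 2) (J := 1) a b m hd
    zero_le_one (by positivity) (hw.change e₁ e₀ x h₁ h₀) (hN.change e₁ e₀ x h₁ h₀)
    (hmet_nonneg hN h₀) (by
      rw [hc, norm_mul, mul_pow, one_mul, norm_pow, ← pow_mul, ← pow_mul,
        Nat.mul_comm (m * a + b) 2])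
  rwa [ENNReal.ofReal_one, one_mul] at this

/-- the singular norm of `∂̄` of a section, in two charts -/
lemma sing_dbar_change (hw : IsCanonicalMetric w) (hN : HMet n m Z H N)
    {σ : SSec n (m * a + b) Z} {e₁ e₀ : Chart n Z} {x : Z} (h₁ : At e₁ x) (h₀ : At e₀ x) :
    ENNReal.ofReal ((∑ l, ‖dzb l (σ.coeff e₁) (e₁ x)‖ ^ 2) *
        Real.exp (-(b : ℝ) * w e₁ (e₁ x))) * (ENNReal.ofReal (N e₁ (e₁ x)))⁻¹ ^ a ≤
      ENNReal.ofReal (∑ l, ∑ p, ‖jacM e₁ e₀ x p l‖ ^ 2) *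
      (ENNReal.ofReal ((∑ l, ‖dzb l (σ.coeff e₀) (e₀ x)‖ ^ 2) *
        Real.exp (-(b : ℝ) * w e₀ (e₀ x))) * (ENNReal.ofReal (N e₀ (e₀ x)))⁻¹ ^ a) := by
  have hd : 0 < ‖(jacM e₁ e₀ x).det‖ ^ 2 := pow_pos (norm_pos_iff.2 (jacM_det_ne_zero h₁ h₀)) 2
  refine sing_change a b m hd (Finset.sum_nonneg fun l _ => Finset.sum_nonneg fun p _ => by
    positivity) (by positivity) (hw.change e₁ e₀ x h₁ h₀) (hN.change e₁ e₀ x h₁ h₀)
    (hmet_nonneg hN h₀) ?_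
  have h2 : ∑ l, ‖dzb l (σ.coeff e₁) (e₁ x)‖ ^ 2 =
      (∑ l, ‖∑ p, dzb p (σ.coeff e₀) (e₀ x) * (starRingEnd ℂ) (jacM e₁ e₀ x p l)‖ ^ 2) *
        ‖(jacM e₁ e₀ x).det ^ (m * a + b)‖ ^ 2 := by
    rw [Finset.sum_mul]
    refine Finset.sum_congr rfl fun l _ => ?_
    rw [dzb_coeff_change h₁ h₀, norm_mul, mul_pow]
  rw [h2, norm_pow, ← pow_mul, Nat.mul_comm (m * a + b) 2, pow_mul, ← mul_assoc]
  gcongr
  exact sum_sq_mulVec_le _ _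

/-- **singular norm of a section carried by a compact subset of a chart**, over a subset of another
chart -/
theorem snrm_le (hw : IsCanonicalMetric w) (hN : HMet n m Z H N)
    {e₀ e₁ : Chart n Z} (h₀ : e₀ ∈ atlas (Cm n) Z) (h₁ : e₁ ∈ atlas (Cm n) Z)
    {K₀ V₁ : Set (Cm n)} (hs₀ : K₀ ⊆ e₀.target) (hV₁m : MeasurableSet V₁) (hs₁ : V₁ ⊆ e₁.target)
    {σ : SSec n (m * a + b) Z} {B : ℝ≥0∞}
    (hσ : ∀ e x, At e x → x ∉ e₀.symm '' K₀ → σ.coeff e (e x) = 0)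
    (hB : ∀ z ∈ K₀, ENNReal.ofReal (‖σ.coeff e₀ z‖ ^ 2 * Real.exp (-(b : ℝ) * w e₀ z)) *
      (ENNReal.ofReal (N e₀ z))⁻¹ ^ a ≤ B) :
    snrm a b (N e₁) (w e₁) V₁ (σ.coeff e₁) ≤ B * volume V₁ := by
  unfold snrm
  rw [← setLIntegral_const]
  refine setLIntegral_mono' hV₁m fun z hz => ?_
  have hx1 : At e₁ (e₁.symm z) := At.of_target h₁ (hs₁ hz)
  have hzz : e₁ (e₁.symm z) = z := e₁.right_inv (hs₁ hz)
  by_cases hx : e₁.symm z ∈ e₀.symm '' K₀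
  · obtain ⟨y, hy, hyx⟩ := hx
    have hx0 : At e₀ (e₁.symm z) := by
      rw [← hyx]; exact At.of_target h₀ (hs₀ hy)
    have hy' : e₀ (e₁.symm z) = y := by rw [← hyx, e₀.right_inv (hs₀ hy)]
    have h2 := sing_val_change (a := a) (b := b) hw hN hx1 hx0 (σ.change _ _ _ hx1 hx0)
    rw [hzz, hy'] at h2
    exact h2.trans (hB y hy)
  · have h2 := hσ e₁ _ hx1 hx
    rw [hzz] at h2
    rw [h2]
    simp

/-- **singular norm of `∂̄` of a section carried by a compact subset of a chart**, over a subset of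
another chart -/
theorem sdnrm_le [T2Space Z] (hw : IsCanonicalMetric w) (hN : HMet n m Z H N)
    {e₀ e₁ : Chart n Z} (h₀ : e₀ ∈ atlas (Cm n) Z) (h₁ : e₁ ∈ atlas (Cm n) Z)
    {K₀ V₁ : Set (Cm n)} (hK₀ : IsCompact K₀) (hs₀ : K₀ ⊆ e₀.target) (hV₁m : MeasurableSet V₁)
    (hs₁ : V₁ ⊆ e₁.target) {J : ℝ}
    (hJ : ∀ x ∈ e₁.symm '' V₁ ∩ e₀.symm '' K₀, ∑ l, ∑ p, ‖jacM e₁ e₀ x p l‖ ^ 2 ≤ J)
    {σ : SSec n (m * a + b) Z} {B : ℝ≥0∞}
    (hσ : ∀ e x, At e x → x ∉ e₀.symm '' K₀ → σ.coeff e (e x) = 0)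
    (hB : ∀ z ∈ K₀, ENNReal.ofReal ((∑ l, ‖dzb l (σ.coeff e₀) z‖ ^ 2) *
      Real.exp (-(b : ℝ) * w e₀ z)) * (ENNReal.ofReal (N e₀ z))⁻¹ ^ a ≤ B) :
    sdnrm a b (N e₁) (w e₁) V₁ (σ.coeff e₁) ≤ (ENNReal.ofReal J * B) * volume V₁ := by
  unfold sdnrm
  rw [← setLIntegral_const]
  refine setLIntegral_mono' hV₁m fun z hz => ?_
  have hx1 : At e₁ (e₁.symm z) := At.of_target h₁ (hs₁ hz)
  have hzz : e₁ (e₁.symm z) = z := e₁.right_inv (hs₁ hz)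
  by_cases hx : e₁.symm z ∈ e₀.symm '' K₀
  · obtain ⟨y, hy, hyx⟩ := hx
    have hx0 : At e₀ (e₁.symm z) := by
      rw [← hyx]; exact At.of_target h₀ (hs₀ hy)
    have hy' : e₀ (e₁.symm z) = y := by rw [← hyx, e₀.right_inv (hs₀ hy)]
    have h2 := sing_dbar_change (a := a) (b := b) hw hN (σ := σ) hx1 hx0
    rw [hzz, hy'] at h2
    refine h2.trans ?_
    gcongr
    · exact hJ _ ⟨⟨z, hz, rfl⟩, ⟨y, hy, hyx⟩⟩
    · exact hB y hy
  · have h2 : ∀ l, dzb l (σ.coeff e₁) z = 0 := by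
      intro l
      have := dzb_coeff_eq_zero (isCompact_symm_image hK₀ hs₀).isClosed hσ hx1 hx l
      rwa [hzz] at this
    simp [h2]

/-- all the polydiscs of a cover at once -/
theorem exists_geo [T2Space Z] (hw : IsCanonicalMetric w) (hN : HMet n m Z H N) (C : PCov n Z)
    {e₀ : Chart n Z} (h₀ : e₀ ∈ atlas (Cm n) Z) {K₀ : Set (Cm n)} (hK₀ : IsCompact K₀)
    (hs₀ : K₀ ⊆ e₀.target) :
    ∃ G : ℝ, 0 ≤ G ∧ ∀ (a b : ℕ) (σ : SSec n (m * a + b) Z) (B : ℝ), 0 ≤ B →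
      (∀ e x, At e x → x ∉ e₀.symm '' K₀ → σ.coeff e (e x) = 0) →
      ((∀ z ∈ K₀, ENNReal.ofReal (‖σ.coeff e₀ z‖ ^ 2 * Real.exp (-(b : ℝ) * w e₀ z)) *
        (ENNReal.ofReal (N e₀ z))⁻¹ ^ a ≤ ENNReal.ofReal B) →
        ∀ j, snrm a b (N (C.e j)) (w (C.e j)) (C.V j) (σ.coeff (C.e j)) ≤
          ENNReal.ofReal (G * B)) ∧
      ((∀ z ∈ K₀, ENNReal.ofReal ((∑ l, ‖dzb l (σ.coeff e₀) z‖ ^ 2) *
        Real.exp (-(b : ℝ) * w e₀ z)) * (ENNReal.ofReal (N e₀ z))⁻¹ ^ a ≤ ENNReal.ofReal B) →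
        ∑ j, sdnrm a b (N (C.e j)) (w (C.e j)) (C.V j) (σ.coeff (C.e j)) ≤
          ENNReal.ofReal (G * B)) := by
  have hVc : ∀ j, C.V j ⊆ closedBall (C.c j) (C.r j) := fun j => ball_subset_closedBall
  have hfin : ∀ j, volume (C.V j) ≠ ⊤ := fun j => measure_ball_lt_top.ne
  have hmeas : ∀ j, MeasurableSet (C.V j) := fun j => measurableSet_ball
  choose J hJ0 hJ using fun j => exists_jac_bound h₀ (C.mem j) hK₀ hs₀
    (isCompact_closedBall (C.c j) (C.r j)) (C.sub j)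
  set v : Fin C.N → ℝ := fun j => (volume (C.V j)).toReal with hv
  have hv0 : ∀ j, 0 ≤ v j := fun j => ENNReal.toReal_nonneg
  have hG0 : 0 ≤ ∑ j, (1 + J j) * v j :=
    Finset.sum_nonneg fun j _ => mul_nonneg (by linarith [hJ0 j]) (hv0 j)
  have hvol : ∀ j, volume (C.V j) = ENNReal.ofReal (v j) := fun j =>
    (ENNReal.ofReal_toReal (hfin j)).symm
  refine ⟨∑ j, (1 + J j) * v j, hG0, fun a b σ B hB hσ => ⟨fun h j => ?_, fun h => ?_⟩⟩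
  · refine (snrm_le hw hN h₀ (C.mem j) hs₀ (hmeas j) ((hVc j).trans (C.sub j)) hσ h).trans ?_
    rw [hvol, ← ENNReal.ofReal_mul hB]
    apply ENNReal.ofReal_le_ofReal
    have h1 : v j ≤ ∑ j, (1 + J j) * v j := by
      refine le_trans ?_ (Finset.single_le_sum (f := fun j => (1 + J j) * v j)
        (fun j _ => mul_nonneg (by linarith [hJ0 j]) (hv0 j)) (Finset.mem_univ j))
      have := hJ0 j
      have := hv0 j
      nlinarith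
    rw [mul_comm B]
    gcongr
  · have h1 : ∀ j, sdnrm a b (N (C.e j)) (w (C.e j)) (C.V j) (σ.coeff (C.e j)) ≤
        ENNReal.ofReal ((1 + J j) * v j * B) := by
      intro j
      refine (sdnrm_le hw hN h₀ (C.mem j) hK₀ hs₀ (hmeas j) ((hVc j).trans (C.sub j))
        (fun x hx => hJ j x ⟨image_mono (hVc j) hx.1, hx.2⟩) hσ h).trans ?_
      rw [hvol, ← ENNReal.ofReal_mul (hJ0 j), ← ENNReal.ofReal_mul (mul_nonneg (hJ0 j) hB)]
      apply ENNReal.ofReal_le_ofReal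
      have := hJ0 j
      have := hv0 j
      nlinarith [mul_nonneg hB (hv0 j)]
    refine (Finset.sum_le_sum fun j _ => h1 j).trans ?_
    rw [← ENNReal.ofReal_sum_of_nonneg fun j _ =>
      mul_nonneg (mul_nonneg (by linarith [hJ0 j]) (hv0 j)) hB, ← Finset.sum_mul]

end

end Vale.Agent.P284.H451
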