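import Vale.Agent.P284.H451.KLB
import Vale.Agent.P284.H451.KLC

/-!
# P284 (helper451), Kodaira lemma, part D: independence of the peak sections (local part).
-/

open scoped Manifold ContDiff ComplexOrder Topology ENNReal
open Filter Set Metric MeasureTheory

set_option linter.all false

noncomputable section

namespace Vale.Agent.P284.H451

open Vale.Agent.P272.K Vale.Agent.P272.KOD Vale.Agent.P284.H812 Vale.Agent.P284.H213.KL

variable {n k : ℕ}

/-- Local independence: functions close to `mon α * g ^ a` in the singular norm are linearly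
independent. -/
theorem loc_indep {c : Cm n} {ρ : ℝ} (hρ : 0 < ρ) (hk : 0 < k) {g : Cm n → ℂ} {Nf wf : Cm n → ℝ}
    {a b : ℕ} {t : (Fin n → Fin k) → Cm n → ℂ} {θ E B : ℝ}
    (hg : ContinuousOn g (ball c (2 * ρ))) (hNc : ContinuousOn Nf (ball c (2 * ρ)))
    (hwc : ContinuousOn wf (ball c (2 * ρ))) (ht : ∀ α, ContinuousOn (t α) (ball c (2 * ρ)))
    (hN : ∀ z ∈ ball c (2 * ρ), 0 < Nf z) (hNu : ∀ z ∈ ball c (2 * ρ), Nf z ≤ ‖g z‖ ^ 2 * θ)
    (hE0 : 0 ≤ E) (hE : ∀ z ∈ ball c (2 * ρ), Real.exp ((b : ℝ) * wf z) ≤ E) (hθ : 0 ≤ θ)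
    (hB0 : 0 ≤ B)
    (hB : ∀ α, snrm a b Nf wf (ball c (2 * ρ)) (fun z => mon c ρ α z * g z ^ a - t α z) ≤
      ENNReal.ofReal B)
    (cf : (Fin n → Fin k) → ℂ) (h0 : ∀ z ∈ ball c (2 * ρ), ∑ α, cf α * t α z = 0)
    (hsmall : E * θ ^ a * (((k : ℝ) ^ n) ^ 2 * B) < (volume (ball (0 : Cm n) ρ)).toReal) :
    cf = 0 := by
  by_contra hcf
  have hM : 0 < ‖cf‖ := norm_pos_iff.2 hcf
  set P : Cm n → ℂ := fun z => ∑ α, cf α * mon c ρ α z with hP
  have hPd : Differentiable ℂ P := by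
    have := fun α => mon_differentiable (k := k) c ρ α
    fun_prop
  -- the weighted integral
  have hWm : ∀ α, AEMeasurable (fun z => ENNReal.ofReal
      (‖mon c ρ α z * g z ^ a - t α z‖ ^ 2 * Real.exp (-(b : ℝ) * wf z)) *
        (ENNReal.ofReal (Nf z))⁻¹ ^ a) (volume.restrict (ball c (2 * ρ))) := by
    intro α
    have h1 : ContinuousOn (fun z => ‖mon c ρ α z * g z ^ a - t α z‖ ^ 2 *
        Real.exp (-(b : ℝ) * wf z)) (ball c (2 * ρ)) := by
      have := (mon_differentiable c ρ α).continuous.continuousOn (s := ball c (2 * ρ))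
      have := ht α
      fun_prop
    have h2 := (h1.aemeasurable (μ := volume) measurableSet_ball).ennreal_ofReal
    have h3 := (hNc.aemeasurable (μ := volume) measurableSet_ball).ennreal_ofReal
    exact h2.mul (h3.inv.pow_const a)
  have hpt : ∀ z ∈ ball c (2 * ρ), ‖P z‖ₑ ^ 2 ≤ ∑ α : Fin n → Fin k,
      ENNReal.ofReal (E * θ ^ a * ((k : ℝ) ^ n * ‖cf‖ ^ 2)) * (ENNReal.ofReal
      (‖mon c ρ α z * g z ^ a - t α z‖ ^ 2 * Real.exp (-(b : ℝ) * wf z)) *
        (ENNReal.ofReal (Nf z))⁻¹ ^ a) := by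
    intro z hz
    have hNz := hN z hz
    have hNinv : (ENNReal.ofReal (Nf z))⁻¹ ^ a = ENNReal.ofReal (((Nf z)⁻¹) ^ a) := by
      rw [ENNReal.ofReal_pow (by positivity), ENNReal.ofReal_inv_of_pos hNz]
    rw [hNinv]
    have e0 : ‖P z‖ₑ ^ 2 = ENNReal.ofReal (‖P z‖ ^ 2) := by
      rw [ENNReal.ofReal_pow (norm_nonneg _), ofReal_norm]
    have e1 : ∀ α : Fin n → Fin k, ENNReal.ofReal (E * θ ^ a * ((k : ℝ) ^ n * ‖cf‖ ^ 2)) *
        (ENNReal.ofReal (‖mon c ρ α z * g z ^ a - t α z‖ ^ 2 * Real.exp (-(b : ℝ) * wf z)) *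
          ENNReal.ofReal (((Nf z)⁻¹) ^ a)) =
        ENNReal.ofReal (E * θ ^ a * ((k : ℝ) ^ n * ‖cf‖ ^ 2) *
          (‖mon c ρ α z * g z ^ a - t α z‖ ^ 2 * Real.exp (-(b : ℝ) * wf z) *
            ((Nf z)⁻¹) ^ a)) := by
      intro α
      rw [← ENNReal.ofReal_mul (by positivity), ← ENNReal.ofReal_mul (by positivity)]
    simp only [e1]
    rw [e0, ← ENNReal.ofReal_sum_of_nonneg fun α _ => by positivity]
    apply ENNReal.ofReal_le_ofReal
    have h3 : P z * g z ^ a = ∑ α, cf α * (mon c ρ α z * g z ^ a - t α z) := by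
      have h4 : ∑ α, cf α * (mon c ρ α z * g z ^ a - t α z) =
          (∑ α, cf α * mon c ρ α z) * g z ^ a - ∑ α, cf α * t α z := by
        rw [Finset.sum_mul, ← Finset.sum_sub_distrib]
        refine Finset.sum_congr rfl fun α _ => by ring
      rw [h4, h0 z hz, sub_zero]
    have h5 : ‖P z * g z ^ a‖ ^ 2 ≤ (k : ℝ) ^ n * ‖cf‖ ^ 2 *
        ∑ α, ‖mon c ρ α z * g z ^ a - t α z‖ ^ 2 := by
      rw [h3]
      have h6 : ‖∑ α, cf α * (mon c ρ α z * g z ^ a - t α z)‖ ≤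
          ‖cf‖ * ∑ α, ‖mon c ρ α z * g z ^ a - t α z‖ := by
        rw [Finset.mul_sum]
        refine (norm_sum_le _ _).trans (Finset.sum_le_sum fun α _ => ?_)
        rw [norm_mul]
        gcongr
        exact norm_le_pi_norm cf α
      calc ‖∑ α, cf α * (mon c ρ α z * g z ^ a - t α z)‖ ^ 2
          ≤ (‖cf‖ * ∑ α, ‖mon c ρ α z * g z ^ a - t α z‖) ^ 2 := by gcongr
        _ = ‖cf‖ ^ 2 * (∑ α, ‖mon c ρ α z * g z ^ a - t α z‖) ^ 2 := by ring
        _ ≤ ‖cf‖ ^ 2 * ((Finset.univ : Finset (Fin n → Fin k)).card *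
            ∑ α, ‖mon c ρ α z * g z ^ a - t α z‖ ^ 2) := by
            gcongr
            exact sq_sum_le_card_mul_sum_sq
        _ = _ := by
            rw [Finset.card_univ, Fintype.card_fun, Fintype.card_fin, Fintype.card_fin]
            push_cast
            ring
    have h7 : Nf z ^ a ≤ (‖g z‖ ^ 2) ^ a * θ ^ a := by
      rw [← mul_pow]
      exact pow_le_pow_left₀ hNz.le (hNu z hz) a
    have h8 : Real.exp ((b : ℝ) * wf z) * Real.exp (-(b : ℝ) * wf z) = 1 := by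
      rw [← Real.exp_add]; simp
    have h9 : Nf z ^ a * ((Nf z)⁻¹) ^ a = 1 := by
      rw [← mul_pow, mul_inv_cancel₀ hNz.ne', one_pow]
    calc ‖P z‖ ^ 2 = ‖P z‖ ^ 2 * (Real.exp ((b : ℝ) * wf z) * Real.exp (-(b : ℝ) * wf z)) *
          (Nf z ^ a * ((Nf z)⁻¹) ^ a) := by rw [h8, h9]; ring
      _ ≤ ‖P z‖ ^ 2 * (E * Real.exp (-(b : ℝ) * wf z)) *
          (((‖g z‖ ^ 2) ^ a * θ ^ a) * ((Nf z)⁻¹) ^ a) := by
          gcongr
          exact hE z hz
      _ = (E * θ ^ a * Real.exp (-(b : ℝ) * wf z) * ((Nf z)⁻¹) ^ a) * ‖P z * g z ^ a‖ ^ 2 := by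
          rw [norm_mul, norm_pow, mul_pow, ← pow_mul, ← pow_mul, Nat.mul_comm a 2]
          ring
      _ ≤ (E * θ ^ a * Real.exp (-(b : ℝ) * wf z) * ((Nf z)⁻¹) ^ a) * ((k : ℝ) ^ n * ‖cf‖ ^ 2 *
          ∑ α, ‖mon c ρ α z * g z ^ a - t α z‖ ^ 2) := by gcongr
      _ = _ := by
          rw [Finset.mul_sum, Finset.mul_sum]
          refine Finset.sum_congr rfl fun α _ => by ring
  set V : ℝ := (volume (ball (0 : Cm n) ρ)).toReal with hV
  have hvt : volume (ball (0 : Cm n) ρ) ≠ ⊤ := measure_ball_lt_top.ne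
  have hVp : 0 < V := ENNReal.toReal_pos (measure_ball_pos _ _ hρ).ne' hvt
  have hint : ∫⁻ z in ball c (2 * ρ), ‖P z‖ₑ ^ 2 ≤
      ENNReal.ofReal (E * θ ^ a * (((k : ℝ) ^ n) ^ 2 * B) * ‖cf‖ ^ 2) := by
    calc ∫⁻ z in ball c (2 * ρ), ‖P z‖ₑ ^ 2 ≤ ∫⁻ z in ball c (2 * ρ), ∑ α : Fin n → Fin k,
        ENNReal.ofReal (E * θ ^ a * ((k : ℝ) ^ n * ‖cf‖ ^ 2)) * (ENNReal.ofReal
        (‖mon c ρ α z * g z ^ a - t α z‖ ^ 2 * Real.exp (-(b : ℝ) * wf z)) *
          (ENNReal.ofReal (Nf z))⁻¹ ^ a) := setLIntegral_mono' measurableSet_ball hpt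
      _ = ∑ α : Fin n → Fin k, ENNReal.ofReal (E * θ ^ a * ((k : ℝ) ^ n * ‖cf‖ ^ 2)) *
          snrm a b Nf wf (ball c (2 * ρ)) (fun z => mon c ρ α z * g z ^ a - t α z) := by
          rw [lintegral_finset_sum' _ fun α _ => (hWm α).const_mul _]
          refine Finset.sum_congr rfl fun α _ => ?_
          rw [lintegral_const_mul' _ _ ENNReal.ofReal_ne_top]
          rfl
      _ ≤ ∑ _α : Fin n → Fin k, ENNReal.ofReal (E * θ ^ a * ((k : ℝ) ^ n * ‖cf‖ ^ 2)) *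
          ENNReal.ofReal B := by
          refine Finset.sum_le_sum fun α _ => ?_
          gcongr
          exact hB α
      _ = ENNReal.ofReal (E * θ ^ a * (((k : ℝ) ^ n) ^ 2 * B) * ‖cf‖ ^ 2) := by
          rw [Finset.sum_const, Finset.card_univ, Fintype.card_fun, Fintype.card_fin,
            Fintype.card_fin, ← ENNReal.ofReal_mul (by positivity), nsmul_eq_mul]
          have : ((k ^ n : ℕ) : ℝ≥0∞) = ENNReal.ofReal ((k : ℝ) ^ n) := by
            rw [← Nat.cast_pow, ENNReal.ofReal_natCast]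
          rw [this, ← ENNReal.ofReal_mul (by positivity)]
          congr 1
          ring
  have hsup : ∀ z ∈ closedBall c ρ, ‖P z‖ ^ 2 * V ≤
      E * θ ^ a * (((k : ℝ) ^ n) ^ 2 * B) * ‖cf‖ ^ 2 := by
    intro z hz
    have hsub : ball z ρ ⊆ ball c (2 * ρ) := by
      intro y hy
      rw [mem_ball] at hy ⊢
      rw [mem_closedBall] at hz
      calc dist y c ≤ dist y z + dist z c := dist_triangle _ _ _
        _ < ρ + ρ := by linarith
        _ = 2 * ρ := by ring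
    have h1 := Vale.Agent.P271.H408.enorm_sq_mul_volume_le (f := P) (z := z) (r := ρ)
      hPd.differentiableOn
    have hvol : volume (ball z ρ) = volume (ball (0 : Cm n) ρ) :=
      Measure.addHaar_ball_center _ _ _
    rw [hvol] at h1
    have h2 : ENNReal.ofReal (‖P z‖ ^ 2 * V) ≤
        ENNReal.ofReal (E * θ ^ a * (((k : ℝ) ^ n) ^ 2 * B) * ‖cf‖ ^ 2) := by
      rw [ENNReal.ofReal_mul (by positivity), hV, ENNReal.ofReal_toReal hvt,
        ENNReal.ofReal_pow (norm_nonneg _), ofReal_norm]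
      exact h1.trans ((lintegral_mono_set hsub).trans hint)
    exact (ENNReal.ofReal_le_ofReal_iff (by positivity)).1 h2
  set K : ℝ := E * θ ^ a * (((k : ℝ) ^ n) ^ 2 * B) with hK
  have hK0 : 0 ≤ K := by positivity
  have hle : ∀ z ∈ closedBall c ρ, ‖P z‖ ≤ Real.sqrt (K * ‖cf‖ ^ 2 / V) := by
    intro z hz
    apply Real.le_sqrt_of_sq_le
    rw [le_div_iff₀ hVp]
    exact hsup z hz
  have hc := coeff_le hk hρ cf hle
  have h1 : ‖cf‖ ≤ Real.sqrt (K * ‖cf‖ ^ 2 / V) :=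
    (pi_norm_le_iff_of_nonneg (Real.sqrt_nonneg _)).2 hc
  have h2 : ‖cf‖ ^ 2 ≤ K * ‖cf‖ ^ 2 / V := by
    have := pow_le_pow_left₀ (norm_nonneg _) h1 2
    rwa [Real.sq_sqrt (by positivity)] at this
  rw [le_div_iff₀ hVp] at h2
  have h3 : 0 < ‖cf‖ ^ 2 := by positivity
  nlinarith

end Vale.Agent.P284.H451
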