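import Vale.Agent.P284.H451.KLD
import Vale.Agent.P272.KOD.Tools
import Vale.Agent.P272.KOD.Soft1

/-!
# P284 (helper451), Kodaira lemma, part E: many sections of finite singular norm.
-/

open scoped Manifold ContDiff ComplexOrder Topology ENNReal
open Filter Set Metric MeasureTheory

set_option linter.all false

noncomputable section

namespace Vale.Agent.P284.H451

open Vale.Agent.P272.K Vale.Agent.P272.KOD Vale.Agent.P284.H812 Vale.Agent.P284.H213.KL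

section peak

variable {n k : ℕ} {H : Type*} [NormedAddCommGroup H] [InnerProductSpace ℂ H]

/-- the cut-off peak function -/
def pkf (χ : Cm n → ℝ) (g : Cm n → ℂ) (c : Cm n) (ρ : ℝ) (a : ℕ) (α : Fin n → Fin k)
    (z : Cm n) : ℂ :=
  (χ z : ℂ) * (mon c ρ α z * g z ^ a)

lemma cut_zero {χ : Cm n → ℝ} {c : Cm n} {r : ℝ} (hχ : Cut c r χ) {z : Cm n}
    (hz : z ∉ closedBall c r) : χ z = 0 :=
  image_eq_zero_of_notMem_tsupport fun h => hz (hχ.supp h)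

lemma pkf_zero {χ : Cm n → ℝ} {g : Cm n → ℂ} {c : Cm n} {ρ r : ℝ} {a : ℕ} {α : Fin n → Fin k}
    (hχ : Cut c r χ) {z : Cm n} (hz : z ∉ closedBall c r) : pkf χ g c ρ a α z = 0 := by
  rw [pkf, cut_zero hχ hz, Complex.ofReal_zero, zero_mul]

variable {χ : Cm n → ℝ} {g : Cm n → ℂ} {c : Cm n} {ρ r κ κ' R : ℝ} {a : ℕ} {v : Cm n → H}
  {α : Fin n → Fin k}

lemma holo_part (hP : Pk v c g κ κ' R) {z : Cm n} (hz : z ∈ ball c R) :
    AnalyticAt ℂ (fun y => mon c ρ α y * g y ^ a) z := by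
  have h1 : AnalyticAt ℂ (mon c ρ α) z :=
    Vale.Agent.P268.analyticAt_of_differentiableOn isOpen_univ
      (mon_differentiable c ρ α).differentiableOn (mem_univ z)
  exact h1.mul ((hP.an z hz).pow a)

lemma pkf_smooth (hP : Pk v c g κ κ' R) (hrR : r < R) (hχ : Cut c r χ) (z : Cm n) :
    ContDiffAt ℝ ∞ (pkf χ g c ρ a α) z := by
  by_cases hz : z ∈ closedBall c r
  · have hzR : z ∈ ball c R := lt_of_le_of_lt hz hrR
    have h1 : ContDiffAt ℝ ∞ (fun y => mon c ρ α y * g y ^ a) z :=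
      ((holo_part hP hzR).contDiffAt (n := ∞)).restrict_scalars ℝ
    have h2 : ContDiffAt ℝ ∞ (fun y => ((χ y : ℝ) : ℂ)) z :=
      (Complex.ofRealCLM.contDiff.comp hχ.smooth).contDiffAt
    exact h2.mul h1
  · refine contDiffAt_const (c := (0 : ℂ)) |>.congr_of_eventuallyEq ?_
    filter_upwards [isClosed_closedBall.isOpen_compl.mem_nhds hz] with y hy
    exact pkf_zero hχ hy

lemma dzb_pkf (hP : Pk v c g κ κ' R) (hχ : Cut c r χ) {z : Cm n} (hz : z ∈ ball c R)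
    (l : Fin n) : dzb l (pkf χ g c ρ a α) z =
      dzb l (fun y => (χ y : ℂ)) z * (mon c ρ α z * g z ^ a) :=
  dzb_mul_holo (hχ.smooth.contDiffAt.differentiableAt (by simp))
    (holo_part hP hz).differentiableAt l

/-- **The values and the `∂̄` of the peak functions** in the singular norm. -/
theorem pkf_bounds (hP : Pk v c g κ κ' R) (hr : 0 < r) (hrR : r < R) (hχ : Cut c r χ) {b : ℕ}
    {Nf wf : Cm n → ℝ} (hN : ∀ z ∈ closedBall c r, Nf z = ‖v z‖ ^ 2) {E : ℝ}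
    (hE : ∀ z ∈ closedBall c r, Real.exp (-(b : ℝ) * wf z) ≤ E) (hρ : 0 < ρ) (hρr : ρ ≤ r) :
    ∃ C : ℝ, 0 ≤ C ∧ ∀ (a k : ℕ) (α : Fin n → Fin k), ∀ z ∈ closedBall c r,
      ENNReal.ofReal (‖pkf χ g c ρ a α z‖ ^ 2 * Real.exp (-(b : ℝ) * wf z)) *
        (ENNReal.ofReal (Nf z))⁻¹ ^ a ≤
        ENNReal.ofReal (C * (((r / ρ) ^ n) ^ 2) ^ k) ∧
      ENNReal.ofReal ((∑ l, ‖dzb l (pkf χ g c ρ a α) z‖ ^ 2) * Real.exp (-(b : ℝ) * wf z)) *
        (ENNReal.ofReal (Nf z))⁻¹ ^ a ≤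
        ENNReal.ofReal (C * (((r / ρ) ^ n) ^ 2) ^ k * ((1 + κ * r ^ 2 / 4)⁻¹) ^ a) := by
  have hcont : Continuous fun z => ∑ l : Fin n, ‖dzb l (fun y => (χ y : ℂ)) z‖ ^ 2 := by
    have : ContDiff ℝ ∞ fun z => ((χ z : ℝ) : ℂ) := Complex.ofRealCLM.contDiff.comp hχ.smooth
    have h2 := fun l => continuous_dzb this l
    fun_prop
  obtain ⟨C, hC⟩ := (isCompact_closedBall c r).exists_bound_of_continuousOn hcont.continuousOn
  have hC0 : 0 ≤ C := (norm_nonneg _).trans (hC c (mem_closedBall_self hr.le))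
  have hE0 : 0 ≤ E := (Real.exp_pos _).le.trans (hE c (mem_closedBall_self hr.le))
  have hκ := hP.κ_pos
  set Q : ℝ := ((r / ρ) ^ n) ^ 2 with hQ
  refine ⟨(C + 1) * E, by positivity, fun a k α z hz => ?_⟩
  have hzR : z ∈ ball c R := lt_of_le_of_lt hz hrR
  have hg0 : 0 < ‖g z‖ := norm_pos_iff.2 (hP.ne z hzR)
  have hNl : ‖g z‖ ^ 2 * (1 + κ * ‖z - c‖ ^ 2) ≤ Nf z := by
    rw [hN z hz]; exact hP.lower z hzR
  have hNp : 0 < Nf z := lt_of_lt_of_le (by positivity) hNl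
  have hNinv : (ENNReal.ofReal (Nf z))⁻¹ ^ a = ENNReal.ofReal (((Nf z)⁻¹) ^ a) := by
    rw [ENNReal.ofReal_pow (by positivity), ENNReal.ofReal_inv_of_pos hNp]
  have hmon : ‖mon c ρ α z‖ ^ 2 ≤ Q ^ k := by
    have := norm_mon_le hρ hρr α hz
    calc ‖mon c ρ α z‖ ^ 2 ≤ (((r / ρ) ^ n) ^ k) ^ 2 := by gcongr
      _ = Q ^ k := by rw [hQ]; ring
  -- the peak estimate
  have hpk : ∀ s : ℝ, 1 ≤ s → ‖g z‖ ^ 2 * s ≤ Nf z → (‖g z‖ ^ 2) ^ a * ((Nf z)⁻¹) ^ a ≤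
      (s⁻¹) ^ a := by
    intro s hs hsN
    rw [← mul_pow]
    apply pow_le_pow_left₀ (by positivity)
    rw [← div_eq_mul_inv, div_le_iff₀ hNp, inv_mul_eq_div, le_div_iff₀ (by linarith)]
    exact hsN
  have hEz := hE z hz
  constructor
  · rw [hNinv, ← ENNReal.ofReal_mul (by positivity)]
    apply ENNReal.ofReal_le_ofReal
    have h1 : ‖pkf χ g c ρ a α z‖ ^ 2 ≤ Q ^ k * (‖g z‖ ^ 2) ^ a := by
      rw [pkf, norm_mul, norm_mul, norm_pow, mul_pow, mul_pow, ← pow_mul, Nat.mul_comm a 2,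
        pow_mul]
      have h2 : ‖((χ z : ℝ) : ℂ)‖ ^ 2 ≤ 1 := by
        rw [Complex.norm_real, Real.norm_of_nonneg (hχ.nonneg z)]
        exact pow_le_one₀ (hχ.nonneg z) (hχ.le_one z)
      calc ‖((χ z : ℝ) : ℂ)‖ ^ 2 * (‖mon c ρ α z‖ ^ 2 * (‖g z‖ ^ 2) ^ a) ≤
          1 * (Q ^ k * (‖g z‖ ^ 2) ^ a) := by gcongr
        _ = _ := one_mul _
    have h3 := hpk 1 le_rfl (by
      rw [mul_one]
      refine le_trans ?_ hNl
      apply le_mul_of_one_le_right (by positivity)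
      have : 0 ≤ κ * ‖z - c‖ ^ 2 := by positivity
      linarith)
    rw [inv_one, one_pow] at h3
    calc ‖pkf χ g c ρ a α z‖ ^ 2 * Real.exp (-(b : ℝ) * wf z) * ((Nf z)⁻¹) ^ a
        ≤ (Q ^ k * (‖g z‖ ^ 2) ^ a) * E * ((Nf z)⁻¹) ^ a := by gcongr
      _ = Q ^ k * E * ((‖g z‖ ^ 2) ^ a * ((Nf z)⁻¹) ^ a) := by ring
      _ ≤ Q ^ k * E * 1 := by gcongr
      _ ≤ (C + 1) * E * Q ^ k := by
        have : 0 ≤ C * E * Q ^ k := by positivity
        nlinarith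
  · rw [hNinv, ← ENNReal.ofReal_mul (by positivity)]
    apply ENNReal.ofReal_le_ofReal
    by_cases hz' : z ∈ ball c (r / 2)
    · have h0 : ∑ l, ‖dzb l (pkf χ g c ρ a α) z‖ ^ 2 = 0 := by
        apply Finset.sum_eq_zero
        intro l _
        rw [dzb_pkf hP hχ hzR, dzb_cut_eq_zero hχ l (Or.inl hz'), zero_mul, norm_zero]
        simp
      rw [h0, zero_mul, zero_mul]
      positivity
    · have hn1 : r / 2 ≤ ‖z - c‖ := by
        rw [mem_ball, dist_eq_norm, not_lt] at hz'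
        exact hz'
      have h1 : ∑ l, ‖dzb l (pkf χ g c ρ a α) z‖ ^ 2 =
          (∑ l, ‖dzb l (fun y => (χ y : ℂ)) z‖ ^ 2) * (‖mon c ρ α z‖ ^ 2 * (‖g z‖ ^ 2) ^ a) := by
        rw [Finset.sum_mul]
        refine Finset.sum_congr rfl fun l _ => ?_
        rw [dzb_pkf hP hχ hzR, norm_mul, norm_mul, norm_pow, mul_pow, mul_pow, ← pow_mul,
          Nat.mul_comm a 2, pow_mul]
      have h2 : ∑ l, ‖dzb l (fun y => (χ y : ℂ)) z‖ ^ 2 ≤ C := (le_abs_self _).trans (hC z hz)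
      have h3 := hpk (1 + κ * r ^ 2 / 4) (by
          have : 0 ≤ κ * r ^ 2 / 4 := by positivity
          linarith) (by
        refine le_trans ?_ hNl
        have : r ^ 2 / 4 ≤ ‖z - c‖ ^ 2 := by nlinarith
        have : κ * r ^ 2 / 4 ≤ κ * ‖z - c‖ ^ 2 := by
          rw [mul_div_assoc]; gcongr
        gcongr)
      rw [h1]
      calc (∑ l, ‖dzb l (fun y => (χ y : ℂ)) z‖ ^ 2) * (‖mon c ρ α z‖ ^ 2 * (‖g z‖ ^ 2) ^ a) *
            Real.exp (-(b : ℝ) * wf z) * ((Nf z)⁻¹) ^ a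
          ≤ C * (Q ^ k * (‖g z‖ ^ 2) ^ a) * E * ((Nf z)⁻¹) ^ a := by gcongr
        _ = C * Q ^ k * E * ((‖g z‖ ^ 2) ^ a * ((Nf z)⁻¹) ^ a) := by ring
        _ ≤ C * Q ^ k * E * ((1 + κ * r ^ 2 / 4)⁻¹) ^ a := by gcongr
        _ ≤ (C + 1) * E * Q ^ k * ((1 + κ * r ^ 2 / 4)⁻¹) ^ a := by
          have : 0 ≤ E * Q ^ k * ((1 + κ * r ^ 2 / 4)⁻¹) ^ a := by positivity
          nlinarith

end peak

section transfer
variable {n m : ℕ} {Z : Type*} [TopologicalSpace Z] [ChartedSpace (Cm n) Z]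
  [IsManifold 𝓘(ℂ, Cm n) ω Z] {H : Type*} [NormedAddCommGroup H] [InnerProductSpace ℂ H]
  [CompleteSpace H] {N w : Chart n Z → Cm n → ℝ}

/-- the immersivity of the weight in another chart -/
theorem imm_transfer (hN : HMet n m Z H N) {e e₁ : Chart n Z} {x : Z} (h : At e x) (h₁ : At e₁ x)
    {v : Cm n → H} (hv : AnalyticAt ℂ v (e x)) (hNv : ∀ᶠ z in 𝓝 (e x), N e z = ‖v z‖ ^ 2)
    (him : ∀ (ξ : Cm n) (c : ℂ), fderiv ℂ v (e x) ξ = c • v (e x) → ξ = 0) :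
    ∃ v' : Cm n → H, AnalyticAt ℂ v' (e₁ x) ∧ (∀ᶠ z in 𝓝 (e₁ x), N e₁ z = ‖v' z‖ ^ 2) ∧
      (v (e x) ≠ 0 → v' (e₁ x) ≠ 0) ∧
      ∀ (ξ : Cm n) (c : ℂ), fderiv ℂ v' (e₁ x) ξ = c • v' (e₁ x) → ξ = 0 := by
  have hφ : AnalyticAt ℂ (fun z => e (e₁.symm z)) (e₁ x) :=
    (transition h₁ h).analyticAt
  have hJ : AnalyticAt ℂ (fun z => (jacM e₁ e (e₁.symm z)).det) (e₁ x) :=
    (jacM_det_holo h₁ h).analyticAt
  have hφx : e (e₁.symm (e₁ x)) = e x := by rw [h₁.left_inv]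
  have hJ0 : (jacM e₁ e (e₁.symm (e₁ x))).det ^ m ≠ 0 := by
    rw [h₁.left_inv]
    exact pow_ne_zero _ (jacM_det_ne_zero h₁ h)
  have hv' : AnalyticAt ℂ v (e (e₁.symm (e₁ x))) := by rw [hφx]; exact hv
  have hvφ : AnalyticAt ℂ (fun z => v (e (e₁.symm z))) (e₁ x) :=
    AnalyticAt.comp (g := v) (f := fun z => e (e₁.symm z)) hv' hφ
  refine ⟨fun z => (jacM e₁ e (e₁.symm z)).det ^ m • v (e (e₁.symm z)), (hJ.pow m).smul hvφ,
    ?_, ?_, ?_⟩
  · have h2 : ∀ᶠ z in 𝓝 (e₁ x), N e (e (e₁.symm z)) = ‖v (e (e₁.symm z))‖ ^ 2 := by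
      have h3 := hφ.continuousAt
      have h4 : Tendsto (fun z => e (e₁.symm z)) (𝓝 (e₁ x)) (𝓝 (e x)) := by
        have := h3.tendsto
        simp only [hφx] at this
        exact this
      exact h4.eventually hNv
    filter_upwards [h₁.nhds_at h, h2] with z hz hz2
    have h5 := hN.change e₁ e (e₁.symm z) hz.2.1 hz.2.2
    rw [e₁.right_inv hz.1] at h5
    rw [h5, hz2, norm_smul, norm_pow, mul_pow, ← pow_mul, ← pow_mul, Nat.mul_comm m 2, mul_comm]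
  · intro h0
    simp only [hφx]
    exact smul_ne_zero hJ0 h0
  · intro ξ c hξ
    have hd1 : HasFDerivAt (fun z => v (e (e₁.symm z)))
        ((fderiv ℂ v (e x)).comp (fderiv ℂ (fun z => e (e₁.symm z)) (e₁ x))) (e₁ x) := by
      have h1 := hv'.differentiableAt.hasFDerivAt
      rw [hφx] at h1
      have h2 := hφ.differentiableAt.hasFDerivAt
      have h3 : HasFDerivAt v (fderiv ℂ v (e x)) ((fun z => e (e₁.symm z)) (e₁ x)) := by
        show HasFDerivAt v (fderiv ℂ v (e x)) (e (e₁.symm (e₁ x)))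
        rw [hφx]; exact h1
      exact h3.comp (e₁ x) h2
    have hd2 : HasFDerivAt (fun z => (jacM e₁ e (e₁.symm z)).det ^ m)
        (fderiv ℂ (fun z => (jacM e₁ e (e₁.symm z)).det ^ m) (e₁ x)) (e₁ x) :=
      (hJ.pow m).differentiableAt.hasFDerivAt
    have hd3 := hd2.smul hd1
    have hd4 : fderiv ℂ (fun z => (jacM e₁ e (e₁.symm z)).det ^ m • v (e (e₁.symm z))) (e₁ x) = _ :=
      hd3.fderiv
    rw [hd4] at hξ
    simp only [_root_.add_apply, _root_.smul_apply, ContinuousLinearMap.comp_apply,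
      ContinuousLinearMap.smulRight_apply, hφx] at hξ
    set J : ℂ := (jacM e₁ e (e₁.symm (e₁ x))).det ^ m with hJdef
    set dJ : ℂ := (fderiv ℂ (fun z => (jacM e₁ e (e₁.symm z)).det ^ m) (e₁ x)) ξ with hdJ
    have h6 : fderiv ℂ v (e x) (fderiv ℂ (fun z => e (e₁.symm z)) (e₁ x) ξ) =
        (J⁻¹ * (c * J - dJ)) • v (e x) := by
      have h7 : J • fderiv ℂ v (e x) (fderiv ℂ (fun z => e (e₁.symm z)) (e₁ x) ξ) =
          (c * J - dJ) • v (e x) := by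
        rw [sub_smul, mul_smul, ← hξ]
        abel
      rw [mul_smul, ← h7, smul_smul, inv_mul_cancel₀ hJ0, one_smul]
    have h8 := him _ _ h6
    have h9 := trans_fderiv_injective h₁ h
    apply h9
    rw [map_zero]
    exact h8

end transfer

end Vale.Agent.P284.H451
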