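import Vale.Agent.P284.H451.KLE

/-!
# P284 (helper451), Kodaira lemma, part F: many sections of finite singular norm.
-/

open scoped Manifold ContDiff ComplexOrder Topology ENNReal
open Filter Set Metric MeasureTheory

set_option linter.all false

noncomputable section

namespace Vale.Agent.P284.H451

open Vale.Agent.P272.K Vale.Agent.P272.KOD Vale.Agent.P284.H812 Vale.Agent.P284.H213.KL

/-- the singular norm of `g` is finite when those of `f` and `f - g` are -/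
lemma snrm_lt_top {n a b : ℕ} {Nf wf : Cm n → ℝ} {V : Set (Cm n)} (hV : MeasurableSet V)
    (hN : ContinuousOn Nf V) (hw : ContinuousOn wf V) {f g : Cm n → ℂ} (hf : ContinuousOn f V)
    (h1 : snrm a b Nf wf V f < ⊤) (h2 : snrm a b Nf wf V (fun z => f z - g z) < ⊤) :
    snrm a b Nf wf V g < ⊤ := by
  have hm : AEMeasurable (fun z => ENNReal.ofReal (‖f z‖ ^ 2 * Real.exp (-(b : ℝ) * wf z)) *
      (ENNReal.ofReal (Nf z))⁻¹ ^ a) (volume.restrict V) := by
    have e1 : ContinuousOn (fun z => ‖f z‖ ^ 2 * Real.exp (-(b : ℝ) * wf z)) V := by fun_prop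
    have e2 := (e1.aemeasurable (μ := volume) hV).ennreal_ofReal
    have e3 := (hN.aemeasurable (μ := volume) hV).ennreal_ofReal
    exact e2.mul (e3.inv.pow_const a)
  have key : snrm a b Nf wf V g ≤ 2 * snrm a b Nf wf V f +
      2 * snrm a b Nf wf V (fun z => f z - g z) := by
    unfold snrm
    rw [← lintegral_const_mul' _ _ (by simp), ← lintegral_const_mul' _ _ (by simp),
      ← lintegral_add_left' (hm.const_mul _)]
    refine setLIntegral_mono' hV fun z _ => ?_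
    rw [← mul_assoc, ← mul_assoc, ← add_mul]
    gcongr
    have h2' : (2 : ℝ≥0∞) = ENNReal.ofReal 2 := by simp
    rw [h2', ← ENNReal.ofReal_mul (by norm_num), ← ENNReal.ofReal_mul (by norm_num),
      ← ENNReal.ofReal_add (by positivity) (by positivity)]
    apply ENNReal.ofReal_le_ofReal
    have h3 : ‖g z‖ ^ 2 ≤ 2 * ‖f z‖ ^ 2 + 2 * ‖f z - g z‖ ^ 2 := by
      have h4 : ‖g z‖ ≤ ‖f z‖ + ‖f z - g z‖ := by
        calc ‖g z‖ = ‖f z - (f z - g z)‖ := by congr 1; ring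
          _ ≤ _ := norm_sub_le _ _
      have := norm_nonneg (g z)
      have := norm_nonneg (f z)
      have := norm_nonneg (f z - g z)
      nlinarith [sq_nonneg (‖f z‖ - ‖f z - g z‖)]
    have h5 := (Real.exp_pos (-(b : ℝ) * wf z)).le
    nlinarith
  refine lt_of_le_of_lt key ?_
  exact ENNReal.add_lt_top.2 ⟨ENNReal.mul_lt_top (by simp) h1, ENNReal.mul_lt_top (by simp) h2⟩

/-- an eventually small exponential times a polynomial -/
lemma exists_small {K : ℝ} (n : ℕ) (hK : 0 ≤ K) {V : ℝ} (hV : 0 < V) :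
    ∃ k₀ : ℕ, ∀ k : ℕ, k₀ ≤ k → K * (((k : ℝ) ^ n) ^ 2 * (1 / 2) ^ k) < V := by
  have h1 : Tendsto (fun k : ℕ => (k : ℝ) ^ (n * 2) * (1 / 2 : ℝ) ^ k) atTop (𝓝 0) :=
    tendsto_pow_const_mul_const_pow_of_abs_lt_one _ (by rw [abs_of_pos] <;> norm_num)
  have h2 : Tendsto (fun k : ℕ => K * ((k : ℝ) ^ (n * 2) * (1 / 2 : ℝ) ^ k)) atTop (𝓝 0) := by
    have := h1.const_mul K
    rwa [mul_zero] at this
  obtain ⟨k₀, hk₀⟩ := Filter.eventually_atTop.1 (h2.eventually_lt_const hV)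
  refine ⟨k₀, fun k hk => ?_⟩
  have := hk₀ k hk
  rwa [← pow_mul]

section
variable {n m : ℕ} {Z : Type*} [TopologicalSpace Z] [ChartedSpace (Cm n) Z]
  [IsManifold 𝓘(ℂ, Cm n) ω Z] {H : Type*} [NormedAddCommGroup H] [InnerProductSpace ℂ H]
  [CompleteSpace H] {N w : Chart n Z → Cm n → ℝ}

omit [IsManifold 𝓘(ℂ, Cm n) ω Z] in
lemma w_contOn (hw : IsCanonicalMetric w) {e : Chart n Z} (he : e ∈ atlas (Cm n) Z)
    {S : Set (Cm n)} (hS : S ⊆ e.target) : ContinuousOn (w e) S := by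
  intro z hz
  have h : At e (e.symm z) := At.of_target he (hS hz)
  have := (hw.smooth e _ h).continuousAt
  rw [e.right_inv (hS hz)] at this
  exact this.continuousWithinAt

omit [IsManifold 𝓘(ℂ, Cm n) ω Z] in
lemma N_contOn (hN : HMet n m Z H N) {e : Chart n Z} (he : e ∈ atlas (Cm n) Z)
    {S : Set (Cm n)} (hS : S ⊆ e.target) : ContinuousOn (N e) S := by
  intro z hz
  have h : At e (e.symm z) := At.of_target he (hS hz)
  obtain ⟨v, h1, h2⟩ := hN.loc e _ h
  have h3 : ContinuousAt (fun y => ‖v y‖ ^ 2) (e (e.symm z)) := h1.continuousAt.norm.pow 2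
  have := h3.congr (h2.mono fun y hy => hy.symm)
  rw [e.right_inv (hS hz)] at this
  exact this.continuousWithinAt

omit [IsManifold 𝓘(ℂ, Cm n) ω Z] in
lemma ssec_contOn {p : ℕ} (σ : SSec n p Z) {e : Chart n Z} (he : e ∈ atlas (Cm n) Z)
    {S : Set (Cm n)} (hS : S ⊆ e.target) : ContinuousOn (σ.coeff e) S := by
  intro z hz
  have h : At e (e.symm z) := At.of_target he (hS hz)
  have := (σ.smooth e _ h).continuousAt
  rw [e.right_inv (hS hz)] at this
  exact this.continuousWithinAt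

omit [IsManifold 𝓘(ℂ, Cm n) ω Z] in
/-- the polydiscs of a cover cover -/
lemma pcov_cov (C : PCov n Z) (x : Z) : ∃ i, x ∈ (C.e i).source ∧ C.e i x ∈ C.V i := by
  have h : ∃ i, C.χ i x ≠ 0 := by
    by_contra hne
    push Not at hne
    have := C.sum_one x
    simp [hne] at this
  obtain ⟨i, hi⟩ := h
  exact ⟨i, (C.supp i x hi).1, C.K_sub i (C.supp i x hi).2⟩

/-- **Many sections** of finite singular norm. -/
theorem many_sections [T2Space Z] (hw : IsCanonicalMetric w) (hN : HMet n m Z H N)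
    (him : HImmAt n Z H N) (C : PCov n Z) (b : ℕ)
    (hkey : ∀ (a : ℕ) (σ : SSec n (m * a + b) Z), ∃ s : PSec n (m * a + b) Z, ∀ i,
      snrm a b (N (C.e i)) (w (C.e i)) (C.V i)
        (fun z => σ.coeff (C.e i) z - s.coeff (C.e i) z) ≤
        4 * ∑ j, sdnrm a b (N (C.e j)) (w (C.e j)) (C.V j) (σ.coeff (C.e j))) :
    ∃ D k₀ : ℕ, 1 ≤ D ∧ 1 ≤ k₀ ∧ ∀ k, k₀ ≤ k →
      ∃ s : (Fin n → Fin k) → PSec n (m * (D * k) + b) Z,
        (∀ α i, snrm (D * k) b (N (C.e i)) (w (C.e i)) (C.V i) ((s α).coeff (C.e i)) < ⊤) ∧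
        ∀ cf : (Fin n → Fin k) → ℂ,
          (∀ e x, At e x → ∑ α, cf α * (s α).coeff e (e x) = 0) → cf = 0 := by
  obtain ⟨e', x, hx', hNx, v₀, hv₀, hNv₀, him₀⟩ := him
  obtain ⟨i₀, hxs, hxV⟩ := pcov_cov C x
  have hx : At (C.e i₀) x := ⟨C.mem i₀, hxs⟩
  obtain ⟨v, hv, hNv, hv0, himm⟩ := imm_transfer hN hx' hx hv₀ hNv₀ him₀
  have hv₀x : v₀ (e' x) ≠ 0 := by
    intro h0
    apply hNx
    rw [hNv₀.self_of_nhds, h0, norm_zero]
    simp
  set e := C.e i₀ with he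
  set c := e x with hc
  obtain ⟨g, κ, κ', R, hP⟩ := exists_pk hv (hv0 hv₀x) himm
  have hκ := hP.κ_pos
  have hκ' := hP.κ'_pos
  -- the radius
  have hVo : IsOpen (C.V i₀) := isOpen_ball
  have hev : ∀ᶠ z in 𝓝 c, z ∈ C.V i₀ ∧ N e z = ‖v z‖ ^ 2 ∧ z ∈ ball c R :=
    (hVo.eventually_mem hxV).and (hNv.and (isOpen_ball.eventually_mem (mem_ball_self hP.R_pos)))
  obtain ⟨r₀, hr₀, hball⟩ := Metric.nhds_basis_closedBall.eventually_iff.1 hev
  set r : ℝ := min r₀ (R / 2) with hr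
  have hrp : 0 < r := lt_min hr₀ (by linarith [hP.R_pos])
  have hrR : r < R := lt_of_le_of_lt (min_le_right _ _) (by linarith [hP.R_pos])
  have hrV : closedBall c r ⊆ C.V i₀ := fun z hz =>
    (hball (closedBall_subset_closedBall (min_le_left _ _) hz)).1
  have hrN : ∀ z ∈ closedBall c r, N e z = ‖v z‖ ^ 2 := fun z hz =>
    (hball (closedBall_subset_closedBall (min_le_left _ _) hz)).2.1
  have hVt : C.V i₀ ⊆ e.target := ball_subset_closedBall.trans (C.sub i₀)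
  have hrt : closedBall c r ⊆ e.target := hrV.trans hVt
  obtain ⟨χ, hχ⟩ := exists_cut c hrp
  -- the small radius
  set t : ℝ := min 1 (κ / κ') with ht
  have htp : 0 < t := lt_min one_pos (by positivity)
  have ht1 : t ≤ 1 := min_le_left _ _
  have htκ : κ' * t ≤ κ := by
    have : t ≤ κ / κ' := min_le_right _ _
    rw [le_div_iff₀ hκ'] at this
    linarith
  set ρ : ℝ := r / 8 * t with hρ
  have hρp : 0 < ρ := by positivity
  have hρr8 : ρ ≤ r / 8 := by
    rw [hρ]; exact mul_le_of_le_one_right (by positivity) ht1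
  have hρr : ρ ≤ r := by linarith
  -- the ratio
  set θ : ℝ := 1 + κ' * (2 * ρ) ^ 2 with hθ
  set θ₁ : ℝ := 1 + κ * r ^ 2 / 4 with hθ₁
  have hθp : 0 < θ := by positivity
  have hθ₁p : 0 < θ₁ := by positivity
  have hθθ : θ < θ₁ := by
    have h1 : κ' * (2 * ρ) ^ 2 = (κ' * t) * t * (r ^ 2 / 16) := by rw [hρ]; ring
    have h2 : (κ' * t) * t ≤ κ * 1 := by
      apply mul_le_mul htκ ht1 htp.le hκ.le
    have h3 : κ' * (2 * ρ) ^ 2 ≤ κ * 1 * (r ^ 2 / 16) := by
      rw [h1]; gcongr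
    have h4 : 0 < κ * r ^ 2 := by positivity
    rw [hθ, hθ₁]
    nlinarith
  -- bounds for the smooth weight
  obtain ⟨E₁, hE₁⟩ := (isCompact_closedBall c r).exists_bound_of_continuousOn
    (w_contOn hw (C.mem i₀) hrt)
  set E : ℝ := Real.exp ((b : ℝ) * E₁) with hE
  have hEm : ∀ z ∈ closedBall c r, Real.exp (-(b : ℝ) * w e z) ≤ E := by
    intro z hz
    apply Real.exp_le_exp.2
    have := hE₁ z hz
    rw [Real.norm_eq_abs, abs_le] at this
    have hb : (0 : ℝ) ≤ b := Nat.cast_nonneg b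
    nlinarith [this.1]
  have hEp : ∀ z ∈ closedBall c r, Real.exp ((b : ℝ) * w e z) ≤ E := by
    intro z hz
    apply Real.exp_le_exp.2
    have := hE₁ z hz
    rw [Real.norm_eq_abs, abs_le] at this
    have hb : (0 : ℝ) ≤ b := Nat.cast_nonneg b
    nlinarith [this.2]
  obtain ⟨C₁, hC₁, hpk⟩ := pkf_bounds (n := n) (v := v) (b := b) hP hrp hrR hχ hrN hEm hρp hρr
  obtain ⟨G, hG, hgeo⟩ := exists_geo hw hN C (C.mem i₀) (isCompact_closedBall c r) hrt
  set Q : ℝ := ((r / ρ) ^ n) ^ 2 with hQ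
  have hQp : 0 < Q := by positivity
  -- the choice of D
  have hq1 : θ / θ₁ < 1 := (div_lt_one hθ₁p).2 hθθ
  have hq0 : 0 < θ / θ₁ := by positivity
  obtain ⟨D₀, hD₀⟩ := exists_pow_lt_of_lt_one (show (0 : ℝ) < 1 / (2 * Q) by positivity) hq1
  set D : ℕ := D₀ + 1 with hD
  have hDq : Q * (θ / θ₁) ^ D ≤ 1 / 2 := by
    have h1 : (θ / θ₁) ^ D ≤ 1 / (2 * Q) := by
      rw [hD, pow_succ]
      have : (θ / θ₁) ^ D₀ * (θ / θ₁) ≤ (θ / θ₁) ^ D₀ * 1 := by gcongr
      linarith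
    calc Q * (θ / θ₁) ^ D ≤ Q * (1 / (2 * Q)) := by gcongr
      _ = 1 / 2 := by field_simp
  set V₀ : ℝ := (volume (ball (0 : Cm n) ρ)).toReal with hV₀
  have hV₀p : 0 < V₀ := ENNReal.toReal_pos (measure_ball_pos _ _ hρp).ne' measure_ball_lt_top.ne
  set K₁ : ℝ := E * (4 * (G * C₁)) with hK₁
  have hEpos : 0 < E := Real.exp_pos _
  have hK₁0 : 0 ≤ K₁ := by positivity
  obtain ⟨k₁, hk₁⟩ := exists_small n hK₁0 hV₀p
  refine ⟨D, max k₁ 1, by omega, le_max_right _ _, fun k hk => ?_⟩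
  have hk0 : 0 < k := lt_of_lt_of_le one_pos ((le_max_right _ _).trans hk)
  have hkk : k₁ ≤ k := (le_max_left _ _).trans hk
  -- the smooth sections
  set a : ℕ := D * k with ha
  let σ : (Fin n → Fin k) → SSec n (m * a + b) Z := fun α =>
    locSec (m * a + b) e (C.mem i₀) (pkf χ g c ρ a α) (fun z _ => pkf_smooth hP hrR hχ z)
      (closedBall c r) (isCompact_closedBall c r) hrt (fun z hz => pkf_zero hχ hz)
  have hσ1 : ∀ α, ∀ z ∈ e.target, (σ α).coeff e z = pkf χ g c ρ a α z := by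
    intro α z hz
    show locCoeff (m * a + b) e (pkf χ g c ρ a α) e z = _
    exact locCoeff_self (C.mem i₀) hz
  have hσ0 : ∀ α (e' : Chart n Z) (y : Z), At e' y → y ∉ e.symm '' closedBall c r →
      (σ α).coeff e' (e' y) = 0 := by
    intro α e' y hy hyK
    by_cases hys : y ∈ e.source
    · have h1 := (σ α).change e' e y hy ⟨C.mem i₀, hys⟩
      rw [h1, hσ1 α (e y) (e.map_source hys),
        pkf_zero hχ (fun hK' => hyK ⟨e y, hK', e.left_inv hys⟩), zero_mul]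
    · show locCoeff (m * a + b) e (pkf χ g c ρ a α) e' (e' y) = 0
      exact locCoeff_of_notMem hy hys
  have hval : ∀ α, ∀ z ∈ closedBall c r,
      ENNReal.ofReal (‖(σ α).coeff e z‖ ^ 2 * Real.exp (-(b : ℝ) * w e z)) *
        (ENNReal.ofReal (N e z))⁻¹ ^ a ≤ ENNReal.ofReal (C₁ * Q ^ k) := by
    intro α z hz
    rw [hσ1 α z (hrt hz)]
    exact (hpk a k α z hz).1
  have hdb : ∀ α, ∀ z ∈ closedBall c r,
      ENNReal.ofReal ((∑ l, ‖dzb l ((σ α).coeff e) z‖ ^ 2) * Real.exp (-(b : ℝ) * w e z)) *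
        (ENNReal.ofReal (N e z))⁻¹ ^ a ≤ ENNReal.ofReal (C₁ * Q ^ k * (θ₁⁻¹) ^ a) := by
    intro α z hz
    have h1 : (σ α).coeff e =ᶠ[𝓝 z] pkf χ g c ρ a α := by
      filter_upwards [e.open_target.mem_nhds (hrt hz)] with y hy using hσ1 α y hy
    have h2 : ∀ l, dzb l ((σ α).coeff e) z = dzb l (pkf χ g c ρ a α) z := fun l => by
      rw [dzb_congr h1]
    simp only [h2]
    exact (hpk a k α z hz).2
  have hθi : 0 < θ₁⁻¹ := by positivity
  choose s hs using fun α => hkey a (σ α)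
  have herr : ∀ α i, snrm a b (N (C.e i)) (w (C.e i)) (C.V i)
      (fun z => (σ α).coeff (C.e i) z - (s α).coeff (C.e i) z) ≤
      ENNReal.ofReal (4 * (G * (C₁ * Q ^ k * (θ₁⁻¹) ^ a))) := by
    intro α i
    refine (hs α i).trans ?_
    have h1 := (hgeo a b (σ α) (C₁ * Q ^ k * (θ₁⁻¹) ^ a) (by positivity) (hσ0 α)).2 (hdb α)
    rw [ENNReal.ofReal_mul (by norm_num : (0 : ℝ) ≤ 4)]
    have h4 : (4 : ℝ≥0∞) = ENNReal.ofReal 4 := by simp
    rw [← h4]
    gcongr
  refine ⟨s, fun α i => ?_, fun cf hcf => ?_⟩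
  · have h1 : snrm a b (N (C.e i)) (w (C.e i)) (C.V i) ((σ α).coeff (C.e i)) < ⊤ :=
      lt_of_le_of_lt ((hgeo a b (σ α) (C₁ * Q ^ k) (by positivity) (hσ0 α)).1 (hval α) i)
        ENNReal.ofReal_lt_top
    have hti : C.V i ⊆ (C.e i).target := ball_subset_closedBall.trans (C.sub i)
    exact snrm_lt_top measurableSet_ball (N_contOn hN (C.mem i) hti) (w_contOn hw (C.mem i) hti)
      (ssec_contOn (σ α) (C.mem i) hti) h1 (lt_of_le_of_lt (herr α i) ENNReal.ofReal_lt_top)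
  · have h2ρ : ball c (2 * ρ) ⊆ closedBall c (r / 2) :=
      (ball_subset_ball (by linarith)).trans ball_subset_closedBall
    have h2ρ' : ball c (2 * ρ) ⊆ closedBall c r :=
      h2ρ.trans (closedBall_subset_closedBall (by linarith))
    have h2t : ball c (2 * ρ) ⊆ e.target := h2ρ'.trans hrt
    have h2R : ball c (2 * ρ) ⊆ ball c R := fun z hz => lt_of_le_of_lt (h2ρ' hz) hrR
    refine loc_indep (g := g) (Nf := N e) (wf := w e) (a := a) (b := b)
      (t := fun α => (s α).coeff e) (θ := θ) (E := E)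
      (B := 4 * (G * (C₁ * Q ^ k * (θ₁⁻¹) ^ a))) hρp hk0
      (fun z hz => (hP.an z (h2R hz)).continuousAt.continuousWithinAt)
      (N_contOn hN (C.mem i₀) h2t) (w_contOn hw (C.mem i₀) h2t)
      (fun α => ssec_contOn (PSec.toSSec (s α)) (C.mem i₀) h2t)
      (fun z hz => ?_) (fun z hz => ?_) hEpos.le (fun z hz => hEp z (h2ρ' hz)) hθp.le
      (by positivity) (fun α => ?_) cf (fun z hz => ?_) ?_
    · rw [hrN z (h2ρ' hz)]
      have hg0 : 0 < ‖g z‖ := norm_pos_iff.2 (hP.ne z (h2R hz))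
      exact lt_of_lt_of_le (by positivity) (hP.lower z (h2R hz))
    · rw [hrN z (h2ρ' hz)]
      refine (hP.upper z (h2R hz)).trans ?_
      have h3 : ‖z - c‖ ≤ 2 * ρ := by
        have := le_of_lt (mem_ball.1 hz)
        rwa [dist_eq_norm] at this
      rw [hθ]
      gcongr
    · refine le_trans (le_of_eq ?_) ((lintegral_mono_set
        (h2ρ'.trans hrV)).trans (herr α i₀))
      unfold snrm
      apply setLIntegral_congr_fun measurableSet_ball
      intro z hz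
      have h4 : (σ α).coeff e z = mon c ρ α z * g z ^ a := by
        rw [hσ1 α z (h2t hz), pkf, hχ.one z (h2ρ hz), Complex.ofReal_one, one_mul]
      simp only
      rw [← h4]
    · have h5 := hcf e (e.symm z) (At.of_target (C.mem i₀) (h2t hz))
      rwa [e.right_inv (h2t hz)] at h5
    · have h6 : E * θ ^ a * (((k : ℝ) ^ n) ^ 2 * (4 * (G * (C₁ * Q ^ k * (θ₁⁻¹) ^ a)))) =
          K₁ * (((k : ℝ) ^ n) ^ 2 * (Q * (θ / θ₁) ^ D) ^ k) := by
        have h7 : (Q * (θ / θ₁) ^ D) ^ k = Q ^ k * (θ ^ a * (θ₁⁻¹) ^ a) := by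
          rw [mul_pow, ← pow_mul (θ / θ₁) D k, ← ha, ← mul_pow θ, div_eq_mul_inv]
        rw [h7, hK₁]
        ring
      rw [h6]
      refine lt_of_le_of_lt ?_ (hk₁ k hkk)
      gcongr

end

end Vale.Agent.P284.H451
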