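import Vale.Agent.P284.H451.KLG

/-!
# P284 (helper451), Kodaira lemma, part H: division by a transversal section.
-/

open scoped Manifold ContDiff ComplexOrder Topology ENNReal
open Filter Set Metric MeasureTheory

set_option linter.all false

noncomputable section

namespace Vale.Agent.P284.H451

open Vale.Agent.P272.K Vale.Agent.P272.KOD Vale.Agent.P284.H812 Vale.Agent.P284.H213.KL

/-- Local division: `|τ|² ≤ B N^k` from `|β τ|² ≤ B₁ N^{k+1}`, where `β` does not vanish to order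
two at `c`. -/
theorem loc_div {n : ℕ} {H : Type*} [NormedAddCommGroup H] [InnerProductSpace ℂ H]
    [CompleteSpace H] {v : Cm n → H} {c : Cm n} (hv : AnalyticAt ℂ v c) {fb ft : Cm n → ℂ}
    (hb : AnalyticAt ℂ fb c) (ht : AnalyticAt ℂ ft c) (hnd : fb c = 0 → fderiv ℂ fb c ≠ 0)
    {B₁ : ℝ} (hB₁ : 0 ≤ B₁) {k : ℕ}
    (hB : ∀ᶠ z in 𝓝 c, ‖fb z * ft z‖ ^ 2 ≤ B₁ * (‖v z‖ ^ 2) ^ (k + 1)) :
    ∃ B : ℝ, 0 ≤ B ∧ ∀ᶠ z in 𝓝 c, ‖ft z‖ ^ 2 ≤ B * (‖v z‖ ^ 2) ^ k := by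
  by_cases h0 : fb c = 0
  · -- the zero set of `β` is smooth at `c`
    obtain ⟨ξ₀, hξ₀⟩ : ∃ ξ, fderiv ℂ fb c ξ ≠ 0 := by
      by_contra hne
      push Not at hne
      exact hnd h0 (ContinuousLinearMap.ext hne)
    have hξ₀0 : ξ₀ ≠ 0 := by
      rintro rfl
      exact hξ₀ (map_zero _)
    set ξ : Cm n := ((‖ξ₀‖⁻¹ : ℝ) : ℂ) • ξ₀ with hξ
    have hξ1 : ‖ξ‖ = 1 := by
      rw [hξ, norm_smul, Complex.norm_real, norm_inv, norm_norm,
        inv_mul_cancel₀ (norm_ne_zero_iff.2 hξ₀0)]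
    set lam : ℂ := fderiv ℂ fb c ξ with hlam
    have hlam0 : lam ≠ 0 := by
      rw [hlam, hξ, map_smul, smul_eq_mul]
      refine mul_ne_zero ?_ hξ₀
      rw [Complex.ofReal_ne_zero]
      exact inv_ne_zero (norm_ne_zero_iff.2 hξ₀0)
    have hl : 0 < ‖lam‖ := norm_pos_iff.2 hlam0
    have hstr : HasStrictFDerivAt fb (fderiv ℂ fb c) c := hb.hasStrictFDerivAt
    have hst := hstr.isLittleO.def (c := ‖lam‖ / 4) (by positivity)
    obtain ⟨R, hR, hRb⟩ := Metric.eventually_nhds_iff_ball.1 hst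
    have hP : ∀ᶠ z in 𝓝 c, z ∈ ball c R ∧ ‖fb z * ft z‖ ^ 2 ≤ B₁ * (‖v z‖ ^ 2) ^ (k + 1) ∧
        DifferentiableAt ℂ ft z :=
      (isOpen_ball.eventually_mem (mem_ball_self hR)).and (hB.and
        (ht.eventually_analyticAt.mono fun z hz => hz.differentiableAt))
    obtain ⟨r, t, K, hr, htp, hK, hPr, hrad⟩ := exists_rad hv hP
    set B₂ : ℝ := 16 * B₁ * K ^ (k + 1) / ‖lam‖ ^ 2 with hB₂
    have hB₂0 : 0 ≤ B₂ := by positivity
    refine ⟨B₂ * (t ^ 2) ^ k, by positivity, ?_⟩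
    filter_upwards [isOpen_ball.mem_nhds (mem_ball_self hr)] with z hz
    have hkey : ‖ft z‖ ^ 2 ≤ B₂ * ((t * ‖v z‖) ^ 2) ^ k := by
      refine limit_rad (hrad z hz).1 fun ρ hρ hρr => ?_
      have hρp : 0 < ρ := lt_of_le_of_lt (by positivity) hρ
      have hy := (hrad z hz).2 ρ hρ hρr
      have hz2 := hy z (by simpa using hρp.le)
      -- the value at a point where `β` is not small
      have hbig : ∀ y, ‖y - z‖ ≤ ρ → ‖lam‖ * ρ / 4 ≤ ‖fb y‖ → ‖ft y‖ ^ 2 ≤ B₂ * (ρ ^ 2) ^ k := by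
        intro y hyρ hfy
        obtain ⟨hy1, hy2⟩ := hy y hyρ
        obtain ⟨-, hy3, -⟩ := hPr y hy1
        have h1 : (‖lam‖ * ρ / 4) ^ 2 * ‖ft y‖ ^ 2 ≤ B₁ * (K * ρ ^ 2) ^ (k + 1) := by
          calc (‖lam‖ * ρ / 4) ^ 2 * ‖ft y‖ ^ 2 ≤ ‖fb y‖ ^ 2 * ‖ft y‖ ^ 2 := by gcongr
            _ = ‖fb y * ft y‖ ^ 2 := by rw [norm_mul, mul_pow]
            _ ≤ B₁ * (‖v y‖ ^ 2) ^ (k + 1) := hy3
            _ ≤ B₁ * (K * ρ ^ 2) ^ (k + 1) := by gcongr
        have h2 : B₁ * (K * ρ ^ 2) ^ (k + 1) = (‖lam‖ * ρ / 4) ^ 2 * (B₂ * (ρ ^ 2) ^ k) := by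
          rw [hB₂]
          field_simp
          ring
        rw [h2] at h1
        exact le_of_mul_le_mul_left h1 (by positivity)
      by_cases hfz : ‖lam‖ * ρ / 4 ≤ ‖fb z‖
      · exact hbig z (by simpa using hρp.le) hfz
      · push Not at hfz
        -- the circle
        have hcirc : ∀ ζ : ℂ, ‖ζ‖ = ρ → ‖ft (z + ζ • ξ)‖ ^ 2 ≤ B₂ * (ρ ^ 2) ^ k := by
          intro ζ hζ
          have hyz : ‖z + ζ • ξ - z‖ ≤ ρ := by
            rw [add_sub_cancel_left, norm_smul, hξ1, hζ, mul_one]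
          refine hbig _ hyz ?_
          obtain ⟨hy1, -⟩ := hy _ hyz
          have hyR := (hPr _ hy1).1
          have hzR := (hPr _ hz2.1).1
          have h3 := hRb (z + ζ • ξ, z) (by
            rw [← ball_prod_same]
            exact ⟨hyR, hzR⟩)
          simp only [add_sub_cancel_left, map_smul, smul_eq_mul] at h3
          rw [norm_smul, hξ1, hζ, mul_one] at h3
          have h4 : ‖ζ * lam‖ ≤ ‖fb (z + ζ • ξ)‖ + ‖fb z‖ +
              ‖fb (z + ζ • ξ) - fb z - ζ * lam‖ := by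
            have : ζ * lam = fb (z + ζ • ξ) - fb z - (fb (z + ζ • ξ) - fb z - ζ * lam) := by ring
            calc ‖ζ * lam‖ = ‖fb (z + ζ • ξ) - fb z - (fb (z + ζ • ξ) - fb z - ζ * lam)‖ := by
                  rw [← this]
              _ ≤ ‖fb (z + ζ • ξ) - fb z‖ + ‖fb (z + ζ • ξ) - fb z - ζ * lam‖ := norm_sub_le _ _
              _ ≤ _ := by gcongr; exact norm_sub_le _ _
          rw [norm_mul, hζ] at h4
          nlinarith
        -- the maximum principle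
        set F : ℂ → ℂ := fun ζ => ft (z + ζ • ξ) with hF
        have hFd : DifferentiableOn ℂ F (closedBall 0 ρ) := by
          intro ζ hζ
          have hζ' : ‖ζ‖ ≤ ρ := by simpa using hζ
          have hyz : ‖z + ζ • ξ - z‖ ≤ ρ := by
            rw [add_sub_cancel_left, norm_smul, hξ1, mul_one]; exact hζ'
          obtain ⟨-, -, h5⟩ := hPr _ (hy _ hyz).1
          have h6 : DifferentiableAt ℂ (fun ζ : ℂ => z + ζ • ξ) ζ := by fun_prop
          exact (DifferentiableAt.comp (g := ft) (f := fun ζ : ℂ => z + ζ • ξ) ζ h5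
            h6).differentiableWithinAt
        have hdc : DiffContOnCl ℂ F (ball 0 ρ) := by
          apply DifferentiableOn.diffContOnCl
          rw [closure_ball _ hρp.ne']
          exact hFd
        have h7 : ‖F 0‖ ≤ Real.sqrt (B₂ * (ρ ^ 2) ^ k) := by
          refine Complex.norm_le_of_forall_mem_frontier_norm_le isBounded_ball hdc ?_
            (subset_closure (mem_ball_self hρp))
          intro ζ hζ
          rw [frontier_ball _ hρp.ne', mem_sphere_zero_iff_norm] at hζ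
          exact Real.le_sqrt_of_sq_le (hcirc ζ hζ)
        have h8 : F 0 = ft z := by simp [hF]
        rw [h8] at h7
        have h9 := pow_le_pow_left₀ (norm_nonneg _) h7 2
        rwa [Real.sq_sqrt (by positivity)] at h9
    refine hkey.trans (le_of_eq ?_)
    rw [mul_pow, mul_pow]
    ring
  · -- `β ≠ 0` near `c`
    have hl : 0 < ‖fb c‖ := norm_pos_iff.2 h0
    have h1 : ∀ᶠ z in 𝓝 c, ‖fb c‖ / 2 < ‖fb z‖ := by
      apply hb.continuousAt.norm.eventually_const_lt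
      linarith
    have h2 : ∀ᶠ z in 𝓝 c, ‖v z‖ ^ 2 < ‖v c‖ ^ 2 + 1 :=
      (hv.continuousAt.norm.pow 2).eventually_lt_const (by
        show ‖v c‖ ^ 2 < _
        linarith)
    refine ⟨B₁ * (‖v c‖ ^ 2 + 1) / (‖fb c‖ / 2) ^ 2, by positivity, ?_⟩
    filter_upwards [h1, h2, hB] with z hz1 hz2 hz3
    have h3 : (‖fb c‖ / 2) ^ 2 * ‖ft z‖ ^ 2 ≤ B₁ * (‖v z‖ ^ 2) ^ (k + 1) := by
      calc (‖fb c‖ / 2) ^ 2 * ‖ft z‖ ^ 2 ≤ ‖fb z‖ ^ 2 * ‖ft z‖ ^ 2 := by gcongr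
        _ = ‖fb z * ft z‖ ^ 2 := by rw [norm_mul, mul_pow]
        _ ≤ _ := hz3
    rw [div_mul_eq_mul_div, le_div_iff₀ (by positivity), mul_comm]
    refine h3.trans ?_
    rw [pow_succ]
    have h4 : 0 ≤ (‖v z‖ ^ 2) ^ k := by positivity
    calc B₁ * ((‖v z‖ ^ 2) ^ k * ‖v z‖ ^ 2) ≤ B₁ * ((‖v z‖ ^ 2) ^ k * (‖v c‖ ^ 2 + 1)) := by
          gcongr
      _ = _ := by ring

section
variable {n m : ℕ} {Z : Type*} [TopologicalSpace Z] [ChartedSpace (Cm n) Z]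
  {H : Type*} [NormedAddCommGroup H] [InnerProductSpace ℂ H]
  [CompleteSpace H] {N w : Chart n Z → Cm n → ℝ} [IsManifold 𝓘(ℂ, Cm n) ω Z]

/-- **Division by a transversal section.** -/
theorem div_bound [CompactSpace Z] (hw : IsCanonicalMetric w) (hN : HMet n m Z H N)
    {q p p' k : ℕ} (hp : p' = p + q) (β : PSec n q Z) (τ : PSec n p Z) (s : PSec n p' Z)
    (hβ : ∀ e x, At e x → β.coeff e (e x) = 0 → fderiv ℂ (β.coeff e) (e x) ≠ 0)
    (hs : ∀ e x, At e x → s.coeff e (e x) = β.coeff e (e x) * τ.coeff e (e x))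
    {B : ℝ} (hB0 : 0 ≤ B) (hB : ∀ x, sn w p' s.coeff x ≤ B * rn m N w x ^ (k + 1)) :
    ∃ B' : ℝ, 0 ≤ B' ∧ ∀ x, sn w p τ.coeff x ≤ B' * rn m N w x ^ k := by
  refine glob _ (fun x => rn_nonneg hN x) fun x₀ => ?_
  set e : Chart n Z := chartAt (Cm n) x₀ with he
  have hx : At e x₀ := at_chartAt x₀
  obtain ⟨v, hv, hNv⟩ := hN.loc e x₀ hx
  obtain ⟨E, hE0, hE⟩ := exp_w_bdd hw hx ((p' : ℝ) - (m : ℝ) * (k + 1))
  obtain ⟨E', hE'0, hE'⟩ := exp_w_bdd hw hx ((m : ℝ) * k - (p : ℝ))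
  have htgt : ∀ᶠ z in 𝓝 (e x₀), z ∈ e.target := hx.nhds_target
  have hloc : ∀ᶠ z in 𝓝 (e x₀), ‖β.coeff e z * τ.coeff e z‖ ^ 2 ≤
      (B * E) * (‖v z‖ ^ 2) ^ (k + 1) := by
    filter_upwards [htgt, hNv, hE] with z hz hNz hEz
    have hat : At e (e.symm z) := At.of_target hx.1 hz
    have h1 := hB (e.symm z)
    rw [sn_eq hw s.change hat, rn_eq hw hN hat, e.right_inv hz] at h1
    have h2 := hs e (e.symm z) hat
    rw [e.right_inv hz] at h2
    rw [← h2]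
    have h3 : Real.exp (-(p' : ℝ) * w e z) * Real.exp ((p' : ℝ) * w e z) = 1 := by
      rw [← Real.exp_add]; simp
    have h4 : (Real.exp (-(m : ℝ) * w e z)) ^ (k + 1) * Real.exp ((p' : ℝ) * w e z) =
        Real.exp (((p' : ℝ) - (m : ℝ) * (k + 1)) * w e z) := by
      rw [← Real.exp_nat_mul, ← Real.exp_add]
      congr 1
      push_cast
      ring
    have hN0 : 0 ≤ N e z := by rw [hNz]; positivity
    calc ‖s.coeff e z‖ ^ 2 = ‖s.coeff e z‖ ^ 2 * Real.exp (-(p' : ℝ) * w e z) *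
          Real.exp ((p' : ℝ) * w e z) := by rw [mul_assoc, h3, mul_one]
      _ ≤ (B * (N e z * Real.exp (-(m : ℝ) * w e z)) ^ (k + 1)) *
          Real.exp ((p' : ℝ) * w e z) := by gcongr
      _ = B * N e z ^ (k + 1) * ((Real.exp (-(m : ℝ) * w e z)) ^ (k + 1) *
          Real.exp ((p' : ℝ) * w e z)) := by rw [mul_pow]; ring
      _ ≤ B * N e z ^ (k + 1) * E := by rw [h4]; gcongr
      _ = _ := by rw [hNz]; ring
  obtain ⟨B₂, hB₂0, hB₂⟩ := loc_div hv (β.holo e x₀ hx) (τ.holo e x₀ hx) (hβ e x₀ hx)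
    (by positivity) hloc
  refine ⟨B₂ * E', by positivity, ?_⟩
  have hev : ∀ᶠ z in 𝓝 (e x₀), ‖τ.coeff e z‖ ^ 2 ≤ B₂ * (‖v z‖ ^ 2) ^ k ∧
      N e z = ‖v z‖ ^ 2 ∧ Real.exp (((m : ℝ) * k - (p : ℝ)) * w e z) ≤ E' :=
    hB₂.and (hNv.and hE')
  have hev' : ∀ᶠ y in 𝓝 x₀, ‖τ.coeff e (e y)‖ ^ 2 ≤ B₂ * (‖v (e y)‖ ^ 2) ^ k ∧
      N e (e y) = ‖v (e y)‖ ^ 2 ∧ Real.exp (((m : ℝ) * k - (p : ℝ)) * w e (e y)) ≤ E' :=
    (e.continuousAt hx.2).eventually hev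
  filter_upwards [hev', e.open_source.mem_nhds hx.2] with y hy hys
  obtain ⟨h1, h2, h3⟩ := hy
  have hay : At e y := ⟨hx.1, hys⟩
  rw [sn_eq hw τ.change hay, rn_eq hw hN hay]
  have h4 : Real.exp (-(p : ℝ) * w e (e y)) =
      (Real.exp (-(m : ℝ) * w e (e y))) ^ k *
        Real.exp (((m : ℝ) * k - (p : ℝ)) * w e (e y)) := by
    rw [← Real.exp_nat_mul, ← Real.exp_add]
    congr 1
    ring
  have hN0 : 0 ≤ N e (e y) := by rw [h2]; positivity
  rw [← h2] at h1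
  rw [h4]
  calc ‖τ.coeff e (e y)‖ ^ 2 * ((Real.exp (-(m : ℝ) * w e (e y))) ^ k *
        Real.exp (((m : ℝ) * k - (p : ℝ)) * w e (e y)))
      ≤ (B₂ * N e (e y) ^ k) * ((Real.exp (-(m : ℝ) * w e (e y))) ^ k * E') := by gcongr
    _ = _ := by rw [mul_pow]; ring

end

end Vale.Agent.P284.H451
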